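import Mathlib

/-!
Elementary counting of functions: exponential moments and prescribed values.
-/

namespace Vale.Agent.P045

open Finset

variable {α β ι : Type*} [Fintype α] [Fintype β] [DecidableEq α] [DecidableEq β]

/-- Number of coordinates where `f` lands in the prescribed set. -/
def hits (B : α → Finset β) (f : α → β) : ℕ := (univ.filter fun a => f a ∈ B a).card

lemma sum_pow_hits [Nonempty β] (B : α → Finset β) (s : ℝ) (hs : 0 ≤ s) :
    (∑ f : α → β, s ^ hits B f) ≤
      (Fintype.card β : ℝ) ^ Fintype.card α *
        Real.exp ((s - 1) * (∑ a, ((B a).card : ℝ)) / Fintype.card β) := by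
  have h1 : ∀ f : α → β, s ^ hits B f = ∏ a, (if f a ∈ B a then s else 1) := by
    intro f
    rw [hits, ← Finset.prod_filter, Finset.prod_const]
  simp only [h1]
  rw [← Fintype.prod_sum (fun a b => if b ∈ B a then s else 1)]
  have hb : (0 : ℝ) < Fintype.card β := by exact_mod_cast Fintype.card_pos
  have h2 : ∀ a, (∑ b, if b ∈ B a then s else 1) =
      (Fintype.card β : ℝ) + (s - 1) * (B a).card := by
    intro a
    have : ∀ b, (if b ∈ B a then s else 1) = 1 + (s - 1) * (if b ∈ B a then 1 else 0) := by
      intro b; split_ifs <;> ring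
    simp only [this]
    rw [Finset.sum_add_distrib, ← Finset.mul_sum]
    simp
  simp only [h2]
  calc (∏ a, ((Fintype.card β : ℝ) + (s - 1) * (B a).card))
      ≤ ∏ a, (Fintype.card β : ℝ) * Real.exp ((s - 1) * (B a).card / Fintype.card β) := by
        apply Finset.prod_le_prod
        · intro a _
          rw [← h2 a]
          exact Finset.sum_nonneg fun b _ => by split_ifs <;> norm_num [hs]
        · intro a _
          have h := Real.add_one_le_exp ((s - 1) * (B a).card / (Fintype.card β : ℝ))
          calc (Fintype.card β : ℝ) + (s - 1) * (B a).card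
              = Fintype.card β * ((s - 1) * (B a).card / Fintype.card β + 1) := by
                field_simp; ring
            _ ≤ _ := mul_le_mul_of_nonneg_left h hb.le
    _ = _ := by
        rw [Finset.prod_mul_distrib, Finset.prod_const, Finset.card_univ, ← Real.exp_sum,
          Finset.mul_sum, Finset.sum_div]

/-- Exponential Markov inequality for the number of hits, in both directions. -/
lemma card_tail [Nonempty β] (B : α → Finset β) (P : (α → β) → Prop) [DecidablePred P]
    (s : ℝ) (hs : 0 < s) (κ L : ℕ) (hP : ∀ f, P f → s ^ κ ≤ s ^ hits B f)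
    (hL : (s - 1) * (∑ a, ((B a).card : ℝ)) / Fintype.card β + L * Real.log 2
      ≤ κ * Real.log s) :
    (univ.filter P).card * 2 ^ L ≤ Fintype.card β ^ Fintype.card α := by
  have h1 : ((univ.filter P).card : ℝ) * s ^ κ ≤
      (Fintype.card β : ℝ) ^ Fintype.card α *
        Real.exp ((s - 1) * (∑ a, ((B a).card : ℝ)) / Fintype.card β) := by
    refine le_trans ?_ (sum_pow_hits B s hs.le)
    rw [← nsmul_eq_mul, ← Finset.sum_const]
    refine le_trans (Finset.sum_le_sum fun f hf => hP f (Finset.mem_filter.mp hf).2) ?_
    exact Finset.sum_le_sum_of_subset_of_nonneg (Finset.subset_univ _) fun f _ _ => by positivity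
  have h2 : Real.exp ((s - 1) * (∑ a, ((B a).card : ℝ)) / Fintype.card β) * 2 ^ L ≤ s ^ κ := by
    rw [show ((2 : ℝ) ^ L) = Real.exp (L * Real.log 2) by
        rw [Real.exp_nat_mul, Real.exp_log (by norm_num)],
      show s ^ κ = Real.exp (κ * Real.log s) by rw [Real.exp_nat_mul, Real.exp_log hs],
      ← Real.exp_add]
    exact Real.exp_le_exp.mpr hL
  have h3 : ((univ.filter P).card : ℝ) * 2 ^ L * s ^ κ ≤
      (Fintype.card β : ℝ) ^ Fintype.card α * s ^ κ := by
    calc ((univ.filter P).card : ℝ) * 2 ^ L * s ^ κ
        = ((univ.filter P).card : ℝ) * s ^ κ * 2 ^ L := by ring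
      _ ≤ (Fintype.card β : ℝ) ^ Fintype.card α *
          Real.exp ((s - 1) * (∑ a, ((B a).card : ℝ)) / Fintype.card β) * 2 ^ L :=
            mul_le_mul_of_nonneg_right h1 (by positivity)
      _ ≤ _ := by
            rw [mul_assoc]
            exact mul_le_mul_of_nonneg_left h2 (by positivity)
  have h4 := le_of_mul_le_mul_right h3 (by positivity)
  exact_mod_cast h4

lemma card_upper_tail [Nonempty β] (B : α → Finset β) (s : ℝ) (hs : 1 ≤ s) (κ L : ℕ)
    (hL : (s - 1) * (∑ a, ((B a).card : ℝ)) / Fintype.card β + L * Real.log 2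
      ≤ κ * Real.log s) :
    (univ.filter fun f : α → β => κ ≤ hits B f).card * 2 ^ L
      ≤ Fintype.card β ^ Fintype.card α :=
  card_tail B _ s (by linarith) κ L (fun _ h => pow_le_pow_right₀ hs h) hL

lemma card_lower_tail [Nonempty β] (B : α → Finset β) (s : ℝ) (hs0 : 0 < s) (hs : s ≤ 1)
    (κ L : ℕ)
    (hL : (s - 1) * (∑ a, ((B a).card : ℝ)) / Fintype.card β + L * Real.log 2
      ≤ κ * Real.log s) :
    (univ.filter fun f : α → β => hits B f ≤ κ).card * 2 ^ L
      ≤ Fintype.card β ^ Fintype.card α :=
  card_tail B _ s hs0 κ L (fun _ h => pow_le_pow_of_le_one hs0.le hs h) hL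

lemma card_specified (A : Finset α) (B : α → Finset β) :
    (univ.filter fun f : α → β => ∀ a ∈ A, f a ∈ B a).card =
      (∏ a ∈ A, (B a).card) * Fintype.card β ^ (Fintype.card α - A.card) := by
  have : (univ.filter fun f : α → β => ∀ a ∈ A, f a ∈ B a) =
      Fintype.piFinset fun a => if a ∈ A then B a else univ := by
    ext f
    simp only [mem_filter, mem_univ, true_and, Fintype.mem_piFinset]
    constructor
    · intro h a; split_ifs with ha
      · exact h a ha
      · simp
    · intro h a ha; simpa [ha] using h a
  rw [this, Fintype.card_piFinset]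
  simp only [apply_ite Finset.card]
  rw [Finset.prod_ite, Finset.prod_const, Finset.card_univ]
  congr 1
  · congr 1; ext a; simp
  · rw [Finset.filter_not, Finset.card_sdiff_of_subset (Finset.filter_subset _ _),
      Finset.card_univ]
    simp

/-- A union of few events, each of relative size at most `2^(-L)`, is small. -/
lemma card_union_bound {γ : Type*} [Fintype γ] [Fintype ι] (E : ι → γ → Prop)
    [∀ i, DecidablePred (E i)] [DecidablePred fun g => ∃ i, E i g] (L : ℕ)
    (h : ∀ i, (univ.filter (E i)).card * 2 ^ L ≤ Fintype.card γ) :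
    (univ.filter fun g => ∃ i, E i g).card * 2 ^ L ≤ Fintype.card ι * Fintype.card γ := by
  classical
  have hs : (univ.filter fun g => ∃ i, E i g) ⊆ univ.biUnion fun i => univ.filter (E i) := by
    intro g hg
    simpa using hg
  calc (univ.filter fun g => ∃ i, E i g).card * 2 ^ L
      ≤ (∑ i, (univ.filter (E i)).card) * 2 ^ L :=
        Nat.mul_le_mul_right _ ((Finset.card_le_card hs).trans Finset.card_biUnion_le)
    _ = ∑ i, (univ.filter (E i)).card * 2 ^ L := Finset.sum_mul _ _ _
    _ ≤ ∑ _i : ι, Fintype.card γ := Finset.sum_le_sum fun i _ => h i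
    _ = _ := by simp

omit [Fintype α] in
/-- An injective map with at most one fixed point has many disjoint arrows inside a set. -/
lemma exists_disjoint_arrows (π : α → α) (hπ : Function.Injective π) (k : ℕ) :
    ∀ A : Finset α, 3 * k ≤ A.card → (∀ a ∈ A, π a ≠ a) →
      ∃ B ⊆ A, B.card = k ∧ Disjoint B (B.image π) := by
  induction k with
  | zero => intro A _ _; exact ⟨∅, by simp, by simp, by simp⟩
  | succ k ih =>
    intro A hA hfix
    obtain ⟨a, ha⟩ : A.Nonempty := Finset.card_pos.mp (by omega)
    set A' := (A.erase a).filter (fun x => x ≠ π a ∧ π x ≠ a) with hA'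
    have hcard : A.card ≤ A'.card + 3 := by
      have hsub : A ⊆ (A' ∪ ({a, π a} : Finset α)) ∪ A.filter (fun x => π x = a) := by
        intro x hx
        by_cases h1 : x = a
        · simp [h1]
        by_cases h2 : x = π a
        · simp [h2]
        by_cases h3 : π x = a
        · simp [h3, hx]
        simp [hA', h1, h2, h3, hx]
      have h3 : (A.filter (fun x => π x = a)).card ≤ 1 := by
        rw [Finset.card_le_one]
        intro x hx y hy
        simp at hx hy
        exact hπ (hx.2.trans hy.2.symm)
      have h2 : ({a, π a} : Finset α).card ≤ 2 := Finset.card_le_two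
      have := (Finset.card_le_card hsub).trans ((Finset.card_union_le _ _).trans
        (Nat.add_le_add_right (Finset.card_union_le _ _) _))
      omega
    obtain ⟨B, hBA, hBk, hd⟩ := ih A' (by omega) fun x hx => by
      simp [hA'] at hx; exact hfix x hx.1.2
    have haB : a ∉ B := fun h => by have := hBA h; simp [hA'] at this
    refine ⟨insert a B, ?_, ?_, ?_⟩
    · intro x hx
      simp at hx
      rcases hx with rfl | hx
      · exact ha
      · have := hBA hx; simp [hA'] at this; exact this.1.2
    · rw [Finset.card_insert_of_notMem haB, hBk]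
    · rw [Finset.disjoint_left]
      intro x hx hx'
      simp at hx hx'
      rcases hx with rfl | hx
      · rcases hx' with h | ⟨y, hy, h⟩
        · exact hfix _ ha h.symm
        · have := hBA hy; simp [hA'] at this; exact this.2.2 h
      · rcases hx' with h | ⟨y, hy, h⟩
        · have := hBA hx; simp [hA'] at this; exact this.2.1 h
        · exact (Finset.disjoint_left.mp hd hx) (Finset.mem_image.mpr ⟨y, hy, h⟩)

end Vale.Agent.P045
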