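import Mathlib

/-!
Lacunary polynomial dichotomy for families of lines covering almost all of the affine plane
over a prime field.
-/

namespace Vale.Agent.P045

open Polynomial

variable (p : ℕ) [Fact p.Prime]

/-- A line of the affine plane: `(some s, c)` is `y = s x + c`, `(none, c)` is `x = c`. -/
abbrev Lne : Type := Option (ZMod p) × ZMod p

/-- Incidence of a point `(x, y)` with a line. -/
def OnL (l : Lne p) (z : ZMod p × ZMod p) : Prop :=
  match l.1 with
  | some s => z.2 = s * z.1 + l.2
  | none => z.1 = l.2

instance (l : Lne p) (z : ZMod p × ZMod p) : Decidable (OnL p l z) := by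
  obtain ⟨s, c⟩ := l
  cases s <;> unfold OnL <;> infer_instance

/-- The linear form of a line; variable `0` is `y`, variable `1` is `x`. -/
noncomputable def lform (l : Lne p) : MvPolynomial (Fin 2) (ZMod p) :=
  match l.1 with
  | some s => MvPolynomial.X 0 - MvPolynomial.C s * MvPolynomial.X 1 - MvPolynomial.C l.2
  | none => MvPolynomial.X 1 - MvPolynomial.C l.2

/-- The substitution `y ↦ X T`, `x ↦ T`, recording the top homogeneous part. -/
noncomputable def toTop : MvPolynomial (Fin 2) (ZMod p) →ₐ[ZMod p] (ZMod p)[X][X] :=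
  MvPolynomial.aeval ![Polynomial.C Polynomial.X * Polynomial.X, Polynomial.X]

lemma toTop_monomial (e : Fin 2 →₀ ℕ) (c : ZMod p) :
    toTop p (MvPolynomial.monomial e c) = monomial (e 0 + e 1) (monomial (e 0) c) := by
  rw [toTop, MvPolynomial.aeval_monomial, Finsupp.prod_fintype _ _ (fun i => by simp)]
  rw [Fin.prod_univ_two]
  simp [mul_pow, ← C_mul_X_pow_eq_monomial, pow_add]
  ring

lemma coeff_toTop (q : MvPolynomial (Fin 2) (ZMod p)) (k : ℕ) :
    (toTop p q).coeff k =
      ∑ e ∈ q.support, if e 0 + e 1 = k then monomial (e 0) (q.coeff e) else 0 := by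
  conv_lhs => rw [q.as_sum]
  rw [map_sum, finsetSum_coeff]
  refine Finset.sum_congr rfl fun e _ => ?_
  rw [toTop_monomial, coeff_monomial]

lemma degree_fin2 (e : Fin 2 →₀ ℕ) : (e.sum fun _ x => x) = e 0 + e 1 := by
  rw [Finsupp.sum_fintype _ _ (fun i => rfl), Fin.sum_univ_two]

lemma natDegree_toTop (q : MvPolynomial (Fin 2) (ZMod p)) :
    (toTop p q).natDegree = q.totalDegree := by
  by_cases hq : q = 0
  · simp [hq]
  apply le_antisymm
  · rw [natDegree_le_iff_coeff_eq_zero]
    intro k hk
    rw [coeff_toTop]
    refine Finset.sum_eq_zero fun e he => ?_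
    rw [if_neg]
    intro h
    have := MvPolynomial.le_totalDegree he
    rw [degree_fin2] at this
    omega
  · obtain ⟨e, he, hmax⟩ := Finset.exists_mem_eq_sup q.support
      (MvPolynomial.support_nonempty.mpr hq) (fun e => e.sum fun _ x => x)
    have hD : q.totalDegree = e 0 + e 1 := by
      rw [← degree_fin2 e]
      exact hmax
    rw [hD]
    apply le_natDegree_of_ne_zero
    intro hzero
    have h1 := congrArg (fun f => f.coeff (e 0)) hzero
    simp only [coeff_toTop, finsetSum_coeff, coeff_zero] at h1
    rw [Finset.sum_eq_single e] at h1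
    · simp at h1
      exact (MvPolynomial.mem_support_iff.mp he) h1
    · intro e' _ hne
      by_cases hs : e' 0 + e' 1 = e 0 + e 1
      · rw [if_pos hs, coeff_monomial, if_neg]
        intro h0
        apply hne
        ext i
        fin_cases i
        · exact h0
        · show e' 1 = e 1
          omega
      · simp [hs]
    · intro h; exact absurd he h

lemma toTop_ne_zero {q : MvPolynomial (Fin 2) (ZMod p)} (hq : q ≠ 0) : toTop p q ≠ 0 := by
  intro h0
  have hd := natDegree_toTop p q
  rw [h0, natDegree_zero] at hd
  have hC := MvPolynomial.totalDegree_eq_zero_iff_eq_C.mp hd.symm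
  have hq' : q.coeff 0 ≠ 0 := by
    intro h
    rw [h, map_zero] at hC
    exact hq hC
  rw [hC] at h0
  simp [toTop] at h0
  exact hq' h0

lemma natDegree_coeff_toTop (q : MvPolynomial (Fin 2) (ZMod p)) (k : ℕ) :
    ((toTop p q).coeff k).natDegree ≤ k := by
  rw [coeff_toTop]
  refine natDegree_sum_le_of_forall_le _ _ fun e _ => ?_
  split_ifs with h
  · exact (natDegree_monomial_le _).trans (by omega)
  · simp

/-- Leading coefficient (in the new variable) of a line. -/
noncomputable def lead (l : Lne p) : (ZMod p)[X] :=
  match l.1 with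
  | some s => X - C s
  | none => 1

lemma lead_ne_zero (l : Lne p) : lead p l ≠ 0 := by
  obtain ⟨s, c⟩ := l
  cases s with
  | none => simp [lead]
  | some s => exact X_sub_C_ne_zero s

lemma toTop_lform (l : Lne p) :
    toTop p (lform p l) = C (lead p l) * X - C (C l.2) := by
  obtain ⟨s, c⟩ := l
  cases s with
  | none => simp [toTop, lform, lead]
  | some s => simp [toTop, lform, lead]; ring

lemma leadingCoeff_toTop_lform (l : Lne p) :
    (toTop p (lform p l)).leadingCoeff = lead p l := by
  rw [toTop_lform, sub_eq_add_neg, ← map_neg C, leadingCoeff_linear (lead_ne_zero p l)]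

lemma natDegree_toTop_lform (l : Lne p) : (toTop p (lform p l)).natDegree = 1 := by
  rw [toTop_lform, sub_eq_add_neg, ← map_neg C, natDegree_linear (lead_ne_zero p l)]

lemma eval_lform_eq_zero {l : Lne p} {v : Fin 2 → ZMod p} (h : OnL p l (v 1, v 0)) :
    MvPolynomial.eval v (lform p l) = 0 := by
  obtain ⟨s, c⟩ := l
  cases s with
  | none => simp [OnL] at h; simp [lform, h]
  | some s => simp [OnL] at h; simp [lform, h]

/-- A nonzero polynomial of degree at most `2 m` vanishing on a given small set. -/
lemma exists_vanishing (U : Finset (ZMod p × ZMod p)) (m : ℕ) (hU : U.card < (m + 1) ^ 2) :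
    ∃ Z : MvPolynomial (Fin 2) (ZMod p), Z ≠ 0 ∧ Z.totalDegree ≤ 2 * m ∧
      ∀ v : Fin 2 → ZMod p, (v 1, v 0) ∈ U → MvPolynomial.eval v Z = 0 := by
  classical
  let I := Fin (m + 1) × Fin (m + 1)
  let ex : I → (Fin 2 →₀ ℕ) := fun i =>
    Finsupp.single 0 (i.1 : ℕ) + Finsupp.single 1 (i.2 : ℕ)
  have exinj : Function.Injective ex := by
    intro i j h
    have h0 := congrArg (fun f : Fin 2 →₀ ℕ => f 0) h
    have h1 := congrArg (fun f : Fin 2 →₀ ℕ => f 1) h
    simp [ex] at h0 h1
    exact Prod.ext (Fin.ext h0) (Fin.ext h1)
  let L : (I → ZMod p) →ₗ[ZMod p] (U → ZMod p) :=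
    { toFun := fun c u => ∑ i, c i * (u.1.2 ^ (i.1 : ℕ) * u.1.1 ^ (i.2 : ℕ))
      map_add' := fun a b => by
        funext u; simp [add_mul, Finset.sum_add_distrib]
      map_smul' := fun r a => by
        funext u; simp [Finset.mul_sum, mul_assoc] }
  have hker : LinearMap.ker L ≠ ⊥ := by
    apply LinearMap.ker_ne_bot_of_finrank_lt
    simp [I, Module.finrank_fintype_fun_eq_card]
    nlinarith
  obtain ⟨c, hc, hc0⟩ := Submodule.exists_mem_ne_zero_of_ne_bot hker
  refine ⟨∑ i, MvPolynomial.monomial (ex i) (c i), ?_, ?_, ?_⟩
  · intro h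
    apply hc0
    funext i
    have := congrArg (MvPolynomial.coeff (ex i)) h
    rw [MvPolynomial.coeff_sum, Finset.sum_eq_single i] at this
    · simpa using this
    · intro j _ hj
      rw [MvPolynomial.coeff_monomial, if_neg (exinj.ne hj)]
    · simp
  · refine (MvPolynomial.totalDegree_finsetSum _ _).trans (Finset.sup_le fun i _ => ?_)
    refine (MvPolynomial.totalDegree_monomial_le _ _).trans ?_
    rw [Finsupp.sum_fintype _ _ (fun i => rfl), Fin.sum_univ_two]
    have a1 := i.1.isLt
    have a2 := i.2.isLt
    simp [ex]
    omega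
  · intro v hv
    have h := congrFun (LinearMap.mem_ker.mp hc) ⟨(v 1, v 0), hv⟩
    simp [L] at h
    rw [map_sum]
    convert h using 1
    refine Finset.sum_congr rfl fun i _ => ?_
    rw [MvPolynomial.eval_monomial, Finsupp.prod_fintype _ _ (fun j => by simp),
      Fin.prod_univ_two]
    simp [ex]

/-- Number of lines of `S` of a given slope. -/
def slopeCount (S : Finset (Lne p)) (o : Option (ZMod p)) : ℕ :=
  (S.filter fun l => l.1 = o).card

lemma eq_C_of_derivative_eq_zero {f : (ZMod p)[X]} (hf : derivative f = 0)
    (hd : f.natDegree < p) : f = C (f.coeff 0) := by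
  ext k
  cases k with
  | zero => simp
  | succ k =>
    rw [coeff_C, if_neg (Nat.succ_ne_zero k)]
    have h := congrArg (fun g => g.coeff k) hf
    simp only [coeff_derivative, coeff_zero] at h
    rcases mul_eq_zero.mp h with h | h
    · exact h
    · by_cases hk : k + 1 < p
      · exfalso
        have h' : ((k + 1 : ℕ) : ZMod p) = 0 := by push_cast; exact h
        rw [ZMod.natCast_eq_zero_iff] at h'
        have := Nat.le_of_dvd (by omega) h'
        omega
      · exact coeff_eq_zero_of_natDegree_lt (by omega)

/-- Coprime pair with proportional derivatives consists of constants. -/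
lemma const_of_wronskian {F G : (ZMod p)[X]} (hco : IsCoprime F G)
    (hF : F.natDegree < p) (hG : G.natDegree < p)
    (hw : derivative G * F = G * derivative F) :
    F = C (F.coeff 0) ∧ G = C (G.coeff 0) := by
  have aux : ∀ A B : (ZMod p)[X], IsCoprime A B → A.natDegree < p →
      derivative B * A = B * derivative A → A = C (A.coeff 0) := by
    intro A B hAB hA hAB'
    apply eq_C_of_derivative_eq_zero p _ hA
    by_contra hne
    have h1 : A ∣ derivative A := by
      apply hAB.dvd_of_dvd_mul_left
      exact ⟨derivative B, by rw [← hAB']; ring⟩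
    have h2 := natDegree_le_of_dvd h1 hne
    have h3 : A.natDegree ≠ 0 := by
      intro h0
      rw [eq_C_of_natDegree_eq_zero h0] at hne
      simp at hne
    have := natDegree_derivative_lt h3
    omega
  refine ⟨aux F G hco hF hw, aux G F hco.symm hG ?_⟩
  rw [mul_comm (derivative F) G, ← hw]; ring

/-- Comparing top parts: the slopes of `S` are roots of a lacunary polynomial. -/
theorem top_identity (S : Finset (Lne p)) (U : Finset (ZMod p × ZMod p)) (m : ℕ)
    (hcov : ∀ z, z ∉ U → ∃ l ∈ S, OnL p l z)
    (hU : U.card < (m + 1) ^ 2) :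
    ∃ z F G : (ZMod p)[X], ∃ e : ℕ, p ≤ S.card + 2 * m ∧ z ≠ 0 ∧ z.natDegree ≤ e ∧
      e ≤ 2 * m ∧ F.natDegree ≤ e + S.card - p ∧ G.natDegree ≤ e + S.card - p ∧
      z * ∏ l ∈ S, lead p l = X ^ p * F + G := by
  classical
  obtain ⟨Z, hZ0, hZd, hZv⟩ := exists_vanishing p U m hU
  have hp : p.Prime := Fact.out
  have : NeZero p := ⟨hp.ne_zero⟩
  set Q := Z * ∏ l ∈ S, lform p l with hQ
  have hQv : ∀ v : Fin 2 → ZMod p, MvPolynomial.eval v Q = 0 := by
    intro v
    rw [hQ, map_mul]
    by_cases hv : (v 1, v 0) ∈ U
    · rw [hZv v hv, zero_mul]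
    · obtain ⟨l, hl, hon⟩ := hcov _ hv
      rw [map_prod, Finset.prod_eq_zero hl (eval_lform_eq_zero p hon), mul_zero]
  have hl0 : ∀ l, toTop p (lform p l) ≠ 0 := fun l h => by
    have := natDegree_toTop_lform p l
    rw [h] at this
    simp at this
  obtain ⟨h, hh, hQsum⟩ := MvPolynomial.combinatorial_nullstellensatz_exists_linearCombination
    (fun _ : Fin 2 => (Finset.univ : Finset (ZMod p))) (fun _ => Finset.univ_nonempty) Q
    (fun v _ => hQv v)
  have hTQ0 : toTop p Q ≠ 0 := by
    rw [hQ, map_mul, map_prod]
    exact mul_ne_zero (toTop_ne_zero p hZ0) (Finset.prod_ne_zero_iff.mpr fun l _ => hl0 l)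
  set D := Q.totalDegree with hD
  set z := (toTop p Z).leadingCoeff with hz
  have hz0 : z ≠ 0 := leadingCoeff_ne_zero.mpr (toTop_ne_zero p hZ0)
  set P1 := ∏ l ∈ S, lead p l with hP1
  have hP10 : P1 ≠ 0 := Finset.prod_ne_zero_iff.mpr fun l _ => lead_ne_zero p l
  have hDval : D = (toTop p Z).natDegree + S.card := by
    rw [hD, ← natDegree_toTop, hQ, map_mul, map_prod,
      natDegree_mul (toTop_ne_zero p hZ0) (Finset.prod_ne_zero_iff.mpr fun l _ => hl0 l),
      natDegree_prod _ _ (fun l _ => hl0 l)]
    simp [natDegree_toTop_lform]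
  have hlead : (toTop p Q).coeff D = z * P1 := by
    rw [hD, ← natDegree_toTop, ← leadingCoeff, hQ, map_mul, map_prod, leadingCoeff_mul,
      leadingCoeff_prod]
    simp [leadingCoeff_toTop_lform, hz, hP1]
  -- the two multipliers
  let Pi : Fin 2 → MvPolynomial (Fin 2) (ZMod p) := fun i =>
    ∏ s ∈ (Finset.univ : Finset (ZMod p)), (MvPolynomial.X i - MvPolynomial.C s)
  let w : Fin 2 → (ZMod p)[X] := ![X, 1]
  have hw0 : ∀ i, w i ≠ 0 := by intro i; fin_cases i <;> simp [w]
  have hTP : ∀ i, toTop p (Pi i) = ∏ s : ZMod p, (C (w i) * X + C (-C s)) := by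
    intro i
    simp only [Pi, map_prod]
    refine Finset.prod_congr rfl fun s _ => ?_
    fin_cases i <;> simp [toTop, w] <;> ring
  have hlin0 : ∀ i (s : ZMod p), C (w i) * X + C (-C s) ≠ 0 := by
    intro i s h
    have := natDegree_linear (a := w i) (b := -C s) (hw0 i)
    rw [h] at this
    simp at this
  have hPnd : ∀ i, (toTop p (Pi i)).natDegree = p := by
    intro i
    rw [hTP i, natDegree_prod _ _ (fun s _ => hlin0 i s)]
    simp only [natDegree_linear (hw0 i)]
    simp
  have hPlc : ∀ i, (toTop p (Pi i)).coeff p = w i ^ p := by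
    intro i
    have := hPnd i
    rw [show (toTop p (Pi i)).coeff p = (toTop p (Pi i)).leadingCoeff by
      rw [leadingCoeff, this], hTP i, leadingCoeff_prod]
    simp only [leadingCoeff_linear (hw0 i)]
    simp
  have hQ' : Q = h 0 * Pi 0 + h 1 * Pi 1 := by
    conv_lhs => rw [hQsum]
    rw [Finsupp.linearCombination_apply, Finsupp.sum_fintype _ _ (fun i => by simp),
      Fin.sum_univ_two]
    simp [Pi]
  have hnd : ∀ i, h i ≠ 0 → (toTop p (h i)).natDegree + p ≤ D := by
    intro i hi
    have h1 := hh i
    rw [← natDegree_toTop, map_mul, natDegree_mul] at h1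
    · have := hPnd i
      simp only [Pi] at this
      omega
    · intro h0
      have := hPnd i
      simp only [Pi] at this
      rw [h0] at this
      simp at this
      exact hp.ne_zero this.symm
    · exact toTop_ne_zero p hi
  have hpD : p ≤ D := by
    by_contra hlt
    apply hTQ0
    have h0 : ∀ i, h i = 0 := fun i => by
      by_contra hi
      have := hnd i hi
      omega
    rw [hQ', h0 0, h0 1]
    simp
  set F := (toTop p (h 0)).coeff (D - p) with hF
  set G := (toTop p (h 1)).coeff (D - p) with hG
  have hcoef : ∀ i, (toTop p (h i * Pi i)).coeff D = (toTop p (h i)).coeff (D - p) * w i ^ p := by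
    intro i
    by_cases hi : h i = 0
    · simp [hi]
    have hb := hnd i hi
    rw [map_mul]
    have hsplit : D = (D - p) + p := by omega
    conv_lhs => rw [hsplit]
    rw [coeff_mul_add_eq_of_natDegree_le (by omega) (hPnd i).le, hPlc i]
  have hmain : z * P1 = X ^ p * F + G := by
    rw [← hlead, hQ', map_add, coeff_add, hcoef 0, hcoef 1]
    simp [w, hF, hG]
    ring
  have hzd' := natDegree_toTop p Z
  exact ⟨z, F, G, (toTop p Z).natDegree, by omega, hz0, natDegree_coeff_toTop p Z _, by omega,
    (natDegree_coeff_toTop p _ _).trans (by omega),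
    (natDegree_coeff_toTop p _ _).trans (by omega), hmain⟩

/-- The dichotomy for a fully reducible lacunary polynomial. -/
theorem lacunary_roots (R : Multiset (ZMod p)) (z F G : (ZMod p)[X]) (K e : ℕ)
    (hKp : K < p) (hz0 : z ≠ 0) (hze : z.natDegree ≤ e)
    (hFd : F.natDegree ≤ K) (hGd : G.natDegree ≤ K)
    (hmain : z * (R.map (fun s => X - C s)).prod = X ^ p * F + G) :
    Multiset.card R ≤ 3 * K + 1 ∨
    (∃ t, p ≤ Multiset.card R + e ∧ Multiset.card R ≤ R.count t + K) ∨
    (p ≤ Multiset.card R + e ∧ Multiset.card R ≤ R.toFinset.card + K) := by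
  have hp : p.Prime := Fact.out
  set P1 := (R.map (fun s => X - C s)).prod with hP1'
  have hP10 : P1 ≠ 0 := Multiset.prod_ne_zero (by simp [X_sub_C_ne_zero])
  have hP1deg : P1.natDegree = Multiset.card R := natDegree_multiset_prod_X_sub_C_eq_card R
  have hdeg_of_dvd : ∀ T : (ZMod p)[X], T ≠ 0 →
      (∀ s, (X - C s) ^ R.count s ∣ T) → Multiset.card R ≤ T.natDegree := by
    intro T hT hd
    have hle : R ≤ T.roots := by
      rw [Multiset.le_iff_count]
      intro s
      rw [count_roots]
      exact (le_rootMultiplicity_iff hT).mpr (hd s)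
    exact (Multiset.card_le_card hle).trans (card_roots' T)
  set M := X ^ p * F + G with hM
  have hpow : ∀ s, (X - C s) ^ R.count s ∣ M := by
    intro s
    rw [← hmain]
    apply dvd_mul_of_dvd_right
    rw [hP1', Finset.prod_multiset_map_count]
    by_cases hs : s ∈ R.toFinset
    · exact Finset.dvd_prod_of_mem (fun t => (X - C t) ^ R.count t) hs
    · simp at hs
      rw [Multiset.count_eq_zero.mpr hs]
      simp
  have hroot : ∀ s, 0 < R.count s → (X - C s) ∣ X * F + G := by
    intro s hs
    have h1 : (X - C s) ∣ M := (dvd_pow_self _ (by omega)).trans (hpow s)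
    rw [dvd_iff_isRoot] at h1 ⊢
    simp [hM, ZMod.pow_card] at h1 ⊢
    exact h1
  have hwr : ∀ s, (X - C s) ^ (R.count s - 1) ∣ derivative G * F - G * derivative F := by
    intro s
    have h1 := hpow s
    have h2 := pow_sub_one_dvd_derivative_of_pow_dvd h1
    have h3 : derivative G * F - G * derivative F = F * derivative M - derivative F * M := by
      simp [hM, derivative_pow]
      ring
    rw [h3]
    exact dvd_sub (dvd_mul_of_dvd_right h2 _)
      (dvd_mul_of_dvd_right ((pow_dvd_pow _ (by omega)).trans h1) _)
  by_cases hW : derivative G * F - G * derivative F = 0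
  · have hw : derivative G * F = G * derivative F := sub_eq_zero.mp hW
    by_cases hF0 : F = 0
    · -- all but `K` lines are vertical
      left
      have hG0 : G ≠ 0 := by
        intro hG0
        rw [hM, hF0, hG0] at hmain
        simp at hmain
        tauto
      have : (Multiset.card R) ≤ G.natDegree := hdeg_of_dvd G hG0 fun s => by
        have := hpow s
        simpa [hM, hF0] using this
      omega
    · obtain ⟨F', G', hco, hFu, hGu⟩ :
          ∃ F' G', IsCoprime F' G' ∧ F = EuclideanDomain.gcd F G * F' ∧
            G = EuclideanDomain.gcd F G * G' := by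
        obtain ⟨F', hF'⟩ := EuclideanDomain.gcd_dvd_left F G
        obtain ⟨G', hG'⟩ := EuclideanDomain.gcd_dvd_right F G
        refine ⟨F', G', ⟨EuclideanDomain.gcdA F G, EuclideanDomain.gcdB F G, ?_⟩, hF', hG'⟩
        have hb := EuclideanDomain.gcd_eq_gcd_ab F G
        have hd : EuclideanDomain.gcd F G ≠ 0 := fun h => hF0 (by rw [hF', h, zero_mul])
        apply mul_left_cancel₀ hd
        conv_rhs => rw [mul_one, hb]
        linear_combination (-EuclideanDomain.gcdA F G) * hF' - EuclideanDomain.gcdB F G * hG'
      set u := EuclideanDomain.gcd F G with hu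
      have hu0 : u ≠ 0 := by
        intro h; exact hF0 (by rw [hFu, h, zero_mul])
      have hF'0 : F' ≠ 0 := by
        intro h; exact hF0 (by rw [hFu, h, mul_zero])
      have hw' : derivative G' * F' = G' * derivative F' := by
        have h := hw
        rw [hFu, hGu, derivative_mul, derivative_mul] at h
        have h' : u ^ 2 * (derivative G' * F') = u ^ 2 * (G' * derivative F') := by
          linear_combination h
        exact mul_left_cancel₀ (pow_ne_zero 2 hu0) h'
      have hud : u.natDegree ≤ K := by
        rw [hFu, natDegree_mul hu0 hF'0] at hFd; omega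
      have hF'd : F'.natDegree ≤ K := by
        rw [hFu, natDegree_mul hu0 hF'0] at hFd; omega
      have hG'd : G'.natDegree ≤ K := by
        by_cases hG'0 : G' = 0
        · simp [hG'0]
        rw [hGu, natDegree_mul hu0 hG'0] at hGd; omega
      obtain ⟨hcF, hcG⟩ := const_of_wronskian p hco (by omega) (by omega) hw'
      set a := F'.coeff 0
      set b := G'.coeff 0
      have ha : a ≠ 0 := by
        intro h; exact hF'0 (by rw [hcF, h]; simp)
      set t := -(b / a) with ht
      have hMeq : M = C a * u * (X - C t) ^ p := by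
        rw [sub_pow_char_of_commute _ (Commute.all _ _), ← C_pow, ZMod.pow_card, hM, hFu, hGu,
          hcF, hcG, ht]
        rw [map_neg, sub_neg_eq_add, mul_add]
        have : C a * u * C (b / a) = u * C b := by
          rw [mul_comm (C a) u, mul_assoc, ← C_mul, mul_div_cancel₀ b ha]
        rw [this]
        ring
      right; left
      refine ⟨t, ?_⟩
      have hdegM : (Multiset.card R) + z.natDegree = u.natDegree + p := by
        have h1 : (z * P1).natDegree = M.natDegree := by rw [hmain]
        rw [natDegree_mul hz0 hP10, hP1deg, hMeq, natDegree_mul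
          (mul_ne_zero (by simpa using ha) hu0) (pow_ne_zero _ (X_sub_C_ne_zero t)),
          natDegree_C_mul ha, natDegree_pow, natDegree_X_sub_C] at h1
        omega
      have hle : R.filter (fun s => s ≠ t) ≤ u.roots := by
        rw [Multiset.le_iff_count]
        intro s
        rw [Multiset.count_filter, count_roots]
        split_ifs with hs
        · rw [le_rootMultiplicity_iff hu0]
          have h := hpow s
          rw [hMeq] at h
          have hc : IsCoprime ((X - C s) ^ R.count s) ((X - C t) ^ p) :=
            (isCoprime_X_sub_C_of_isUnit_sub (sub_ne_zero.mpr hs).isUnit).pow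
          have h' := hc.dvd_of_dvd_mul_right h
          exact (isUnit_C.mpr ha.isUnit).dvd_mul_left.mp h'
        · exact Nat.zero_le _
      have h2 : Multiset.card (R.filter (fun s => s ≠ t)) ≤ u.natDegree :=
        (Multiset.card_le_card hle).trans (card_roots' u)
      have h3 : Multiset.card (R.filter (fun s => s ≠ t)) + R.count t = (Multiset.card R) := by
        rw [Multiset.count_eq_card_filter_eq, ← Multiset.card_add]
        congr 1
        rw [add_comm]
        convert Multiset.filter_add_not (fun s => t = s) R using 3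
        exact ne_comm
      omega
  · by_cases hXF : X * F + G = 0
    · -- almost all slopes are different
      right; right
      have hG' : G = -(X * F) := by linear_combination hXF
      have hMeq : M = F * (X ^ p - X) := by rw [hM, hG']; ring
      have hM0 : M ≠ 0 := by rw [← hmain]; exact mul_ne_zero hz0 hP10
      have hF0 : F ≠ 0 := by
        intro h; rw [hMeq, h, zero_mul] at hM0; exact hM0 rfl
      have hXp : (X ^ p - X : (ZMod p)[X]) ≠ 0 := FiniteField.X_pow_card_sub_X_ne_zero _ hp.one_lt
      have hdegM : (Multiset.card R) + z.natDegree = F.natDegree + p := by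
        have h1 : (z * P1).natDegree = M.natDegree := by rw [hmain]
        rw [natDegree_mul hz0 hP10, hP1deg, hMeq, natDegree_mul hF0 hXp,
          FiniteField.X_pow_card_sub_X_natDegree_eq _ hp.one_lt] at h1
        omega
      have hle : R - R.dedup ≤ F.roots := by
        rw [Multiset.le_iff_count]
        intro s
        rw [Multiset.count_sub, Multiset.count_dedup, count_roots]
        have h1 : R.count s ≤ rootMultiplicity s M :=
          (le_rootMultiplicity_iff hM0).mpr (hpow s)
        rw [hMeq, rootMultiplicity_mul (by rw [← hMeq]; exact hM0)] at h1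
        have h2 : rootMultiplicity s (X ^ p - X : (ZMod p)[X]) ≤ 1 := by
          rw [← count_roots]
          have hr := FiniteField.roots_X_pow_card_sub_X (ZMod p)
          rw [ZMod.card] at hr
          rw [hr]
          exact Multiset.nodup_iff_count_le_one.mp Finset.univ.nodup s
        split_ifs with hs
        · omega
        · rw [Multiset.count_eq_zero.mpr hs]; omega
      have h2 : Multiset.card (R - R.dedup) ≤ F.natDegree :=
        (Multiset.card_le_card hle).trans (card_roots' F)
      rw [Multiset.card_sub (Multiset.dedup_le R)] at h2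
      have h4 : Multiset.card R.dedup = R.toFinset.card := rfl
      omega
    · left
      have hne : (X * F + G) * (derivative G * F - G * derivative F) ≠ 0 := mul_ne_zero hXF hW
      have h1 := hdeg_of_dvd _ hne fun s => by
        by_cases hs : R.count s = 0
        · simp [hs]
        · have hs' : R.count s = 1 + (R.count s - 1) := by omega
          rw [hs', pow_add, pow_one]
          exact mul_dvd_mul (hroot s (by omega)) (hwr s)
      have h2 : (X * F + G).natDegree ≤ K + 1 := by
        refine (natDegree_add_le _ _).trans (max_le ?_ (by omega))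
        exact natDegree_mul_le.trans (by rw [natDegree_X]; omega)
      have h3 : (derivative G * F - G * derivative F).natDegree ≤ 2 * K := by
        refine (natDegree_sub_le _ _).trans (max_le ?_ ?_)
        · refine natDegree_mul_le.trans ?_
          have := natDegree_derivative_le G
          omega
        · refine natDegree_mul_le.trans ?_
          have := natDegree_derivative_le F
          omega
      have h4 := natDegree_mul_le (p := X * F + G) (q := derivative G * F - G * derivative F)
      omega

theorem lacunary (S : Finset (Lne p)) (U : Finset (ZMod p × ZMod p)) (m : ℕ)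
    (hcov : ∀ z, z ∉ U → ∃ l ∈ S, OnL p l z)
    (hU : U.card < (m + 1) ^ 2) (hsmall : S.card + 2 * m < 2 * p) :
    (∃ o, S.card ≤ slopeCount p S o + (3 * (S.card + 2 * m - p) + 1)) ∨
    (S.card ≤ (S.image Prod.fst).card + (2 * (S.card + 2 * m - p) + 1)) := by
  classical
  obtain ⟨z, F, G, e, hpn, hz0, hze, hem, hFd, hGd, hmain⟩ := top_identity p S U m hcov hU
  set P1 := ∏ l ∈ S, lead p l with hP1
  -- P1 and the slopes
  set Sn := S.filter (fun l => l.1 ≠ none) with hSn
  set Sv := S.filter (fun l => l.1 = none) with hSv
  have hsplitS : Sv.card + Sn.card = S.card := by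
    simp only [hSv, hSn]
    exact Finset.card_filter_add_card_filter_not _
  have hroots : P1 = ∏ l ∈ Sn, (X - C (l.1.getD 0)) := by
    rw [hP1, hSn, Finset.prod_filter]
    refine Finset.prod_congr rfl fun l _ => ?_
    obtain ⟨s, c⟩ := l
    cases s <;> simp [lead]
  set R : Multiset (ZMod p) := Sn.val.map (fun l => l.1.getD 0) with hR
  have hP1' : P1 = (R.map (fun s => X - C s)).prod := by
    rw [hroots, hR, Multiset.map_map]
    rfl
  have hcount : ∀ s, R.count s = slopeCount p S (some s) := by
    intro s
    rw [hR, Multiset.count_map, slopeCount, hSn, ← Finset.filter_val, Finset.filter_filter]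
    rw [Finset.card_val]
    congr 1
    ext l
    obtain ⟨o, c⟩ := l
    cases o <;> simp [eq_comm]
  have hRcard : Multiset.card R = Sn.card := by simp [hR]
  rw [hP1'] at hmain
  set K := S.card + 2 * m - p with hK
  have hvert : slopeCount p S none = Sv.card := rfl
  rcases lacunary_roots p R z F G K e (by omega) hz0 hze (by omega) (by omega) hmain with
    h | ⟨t, h1, h2⟩ | ⟨h1, h2⟩
  · left
    exact ⟨none, by omega⟩
  · left
    refine ⟨some t, ?_⟩
    rw [← hcount t]
    omega
  · right
    have h3 : R.toFinset.card ≤ (S.image Prod.fst).card := by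
      rw [← Finset.card_image_of_injective R.toFinset (Option.some_injective _)]
      apply Finset.card_le_card
      intro o ho
      rw [Finset.mem_image] at ho ⊢
      obtain ⟨s, hs, rfl⟩ := ho
      rw [Multiset.mem_toFinset, hR, Multiset.mem_map] at hs
      obtain ⟨l, hl, rfl⟩ := hs
      rw [Finset.mem_val, hSn, Finset.mem_filter] at hl
      refine ⟨l, hl.1, ?_⟩
      obtain ⟨o, c⟩ := l
      cases o with
      | none => exact absurd rfl hl.2
      | some s => rfl
    omega

end Vale.Agent.P045
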