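import Mathlib
import Vale.Agent.P045.Lacunary

/-!
Stability: about `p` lines covering almost all of the affine plane over a prime field contain
almost that many lines through one projective point.
-/

namespace Vale.Agent.P045

variable (p : ℕ) [Fact p.Prime]

/-- Parametrisation of the points of a line. -/
def linePt (l : Lne p) (x : ZMod p) : ZMod p × ZMod p :=
  match l.1 with
  | some s => (x, s * x + l.2)
  | none => (l.2, x)

lemma linePt_injective (l : Lne p) : Function.Injective (linePt p l) := by
  obtain ⟨s, c⟩ := l
  cases s <;> intro x y h <;> simp [linePt] at h <;> first | exact h | exact h.1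

lemma onL_iff (l : Lne p) (z : ZMod p × ZMod p) : OnL p l z ↔ ∃ x, linePt p l x = z := by
  obtain ⟨s, c⟩ := l
  cases s with
  | none =>
    constructor
    · intro h; exact ⟨z.2, Prod.ext h.symm rfl⟩
    · rintro ⟨x, rfl⟩; rfl
  | some s =>
    constructor
    · intro h; exact ⟨z.1, Prod.ext rfl h.symm⟩
    · rintro ⟨x, rfl⟩; rfl

lemma card_onL (l : Lne p) : (Finset.univ.filter fun z => OnL p l z).card = p := by
  have : (Finset.univ.filter fun z => OnL p l z) = Finset.univ.image (linePt p l) := by
    ext z
    simp [onL_iff]
  rw [this, Finset.card_image_of_injective _ (linePt_injective p l)]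
  simp

/-- Projective change of coordinates sending `l₀` to infinity, on lines. -/
def sendLine (l₀ l : Lne p) : Lne p :=
  match l₀.1, l.1 with
  | some s, some t =>
    if t = s then (none, (l.2 - l₀.2)⁻¹) else (some (-(l.2 - l₀.2) / (t - s)), (t - s)⁻¹)
  | some _, none => (some l.2, 0)
  | none, none => (none, (l.2 - l₀.2)⁻¹)
  | none, some t => (some (t * l₀.2 + l.2), t)

/-- The inverse change of coordinates on points. -/
def pullPt (l₀ : Lne p) (z : ZMod p × ZMod p) : ZMod p × ZMod p :=
  match l₀.1 with
  | some s => (z.2 / z.1, s * (z.2 / z.1) + l₀.2 + z.1⁻¹)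
  | none => (l₀.2 + z.1⁻¹, z.2 / z.1)

lemma onL_sendLine {l₀ l : Lne p} {z : ZMod p × ZMod p} (hne : l ≠ l₀) (hz : z.1 ≠ 0)
    (h : OnL p l (pullPt p l₀ z)) : OnL p (sendLine p l₀ l) z := by
  obtain ⟨o₀, c₀⟩ := l₀
  obtain ⟨o, c⟩ := l
  obtain ⟨x, y⟩ := z
  simp only [ne_eq] at hz
  cases o₀ with
  | none =>
    cases o with
    | none =>
      simp [OnL, pullPt] at h
      simp [OnL, sendLine, ← h]
    | some t =>
      simp [OnL, pullPt] at h
      simp [OnL, sendLine]
      field_simp at h
      linear_combination h
  | some s =>
    cases o with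
    | none =>
      simp [OnL, pullPt] at h
      simp [OnL, sendLine, ← h]
      field_simp
    | some t =>
      simp [OnL, pullPt] at h
      by_cases hts : t = s
      · subst hts
        have h' : c - c₀ = x⁻¹ := by linear_combination -h
        simp [OnL, sendLine, h']
      · have hd : t - s ≠ 0 := sub_ne_zero.mpr hts
        simp [OnL, sendLine, hts]
        field_simp at h ⊢
        linear_combination -h

lemma onL_pullPt_self {l₀ : Lne p} {z : ZMod p × ZMod p} (hz : z.1 ≠ 0) :
    ¬ OnL p l₀ (pullPt p l₀ z) := by
  obtain ⟨o, c⟩ := l₀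
  cases o <;> simp [OnL, pullPt, hz]

lemma sendLine_slope {l₀ l : Lne p} :
    match (sendLine p l₀ l).1 with
    | none => l.1 = l₀.1
    | some x => OnL p l (linePt p l₀ x) := by
  obtain ⟨o₀, c₀⟩ := l₀
  obtain ⟨o, c⟩ := l
  cases o₀ with
  | none =>
    cases o with
    | none => simp [sendLine]
    | some t => simp [sendLine, OnL, linePt]
  | some s =>
    cases o with
    | none => simp [sendLine, OnL, linePt]
    | some t =>
      by_cases hts : t = s
      · simp [sendLine, hts]
      · have hd : t - s ≠ 0 := sub_ne_zero.mpr hts
        simp [sendLine, hts, OnL, linePt]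
        field_simp
        ring

lemma sendLine_injOn (l₀ : Lne p) :
    Set.InjOn (sendLine p l₀) {l | l ≠ l₀} := by
  rintro ⟨o, c⟩ h ⟨o', c'⟩ h' he
  obtain ⟨o₀, c₀⟩ := l₀
  cases o₀ with
  | none =>
    cases o <;> cases o' <;> simp [sendLine] at he ⊢
    · exact he
    · obtain ⟨h1, rfl⟩ := he
      exact ⟨rfl, by linear_combination h1⟩
  | some s =>
    cases o with
    | none =>
      cases o' with
      | none => simp [sendLine] at he ⊢; exact he
      | some t =>
        by_cases hts : t = s
        · simp [sendLine, hts] at he
        · simp [sendLine, hts] at he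
          exact absurd he.2.symm (sub_ne_zero.mpr hts)
    | some t =>
      cases o' with
      | none =>
        by_cases hts : t = s
        · simp [sendLine, hts] at he
        · simp [sendLine, hts] at he
          exact absurd he.2 (sub_ne_zero.mpr hts)
      | some t' =>
        by_cases hts : t = s <;> by_cases hts' : t' = s <;> simp [sendLine, hts, hts'] at he
        · simp [hts, hts', he]
        · obtain ⟨h1, h2⟩ := he
          subst h2
          simp
          field_simp [sub_ne_zero.mpr hts] at h1
          linear_combination -h1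

/-- Number of lines of `S` through a point. -/
def pointCount (S : Finset (Lne p)) (z : ZMod p × ZMod p) : ℕ :=
  (S.filter fun l => OnL p l z).card

theorem stability (S : Finset (Lne p)) (U : Finset (ZMod p × ZMod p)) (m K : ℕ)
    (hcov : ∀ z, z ∉ U → ∃ l ∈ S, OnL p l z)
    (hU : U.card + p < (m + 1) ^ 2) (hsmall : S.card + 2 * m < 2 * p)
    (hK : S.card + 2 * m ≤ p + K)
    (hbig : S.card * (2 * p + 2 * K + 4) + 2 * U.card < 2 * p ^ 2 + S.card ^ 2) :
    (∃ o, S.card ≤ slopeCount p S o + (3 * K + 3)) ∨
    (∃ z, S.card ≤ pointCount p S z + (3 * K + 3)) := by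
  classical
  by_contra hno
  push Not at hno
  obtain ⟨hslope, hpoint⟩ := hno
  have hp : p.Prime := Fact.out
  have key : ∀ l₀ ∈ S,
      (Finset.univ.filter fun x => ∀ l ∈ S, OnL p l (linePt p l₀ x) → l = l₀).card + S.card
        ≤ p + (2 * K + 4) := by
    intro l₀ hl₀
    set S' := (S.erase l₀).image (sendLine p l₀) with hS'
    have hS'card : S'.card = S.card - 1 := by
      rw [hS', Finset.card_image_of_injOn, Finset.card_erase_of_mem hl₀]
      intro l hl l' hl'
      simp at hl hl'
      exact sendLine_injOn p l₀ hl.2 hl'.2
    set U' := (Finset.univ.filter fun z : ZMod p × ZMod p => z.1 = 0) ∪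
      (Finset.univ.filter fun z : ZMod p × ZMod p => z.1 ≠ 0 ∧ pullPt p l₀ z ∈ U) with hU'
    have hU'card : U'.card ≤ p + U.card := by
      refine (Finset.card_union_le _ _).trans (add_le_add ?_ ?_)
      · have := card_onL p ((none : Option (ZMod p)), 0)
        exact this.le
      · refine Finset.card_le_card_of_injOn (pullPt p l₀) (by intro z hz; simp at hz; exact hz.2) ?_
        intro z hz z' hz' he
        simp at hz hz'
        obtain ⟨o₀, c₀⟩ := l₀
        cases o₀ with
        | none =>
          simp [pullPt] at he
          obtain ⟨h1, h2⟩ := he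
          rw [← h1] at h2
          exact Prod.ext h1 ((div_left_inj' hz.1).mp h2)
        | some s =>
          simp [pullPt] at he
          obtain ⟨h1, h2⟩ := he
          rw [h1] at h2
          simp at h2
          rw [h2] at h1
          exact Prod.ext h2 (by field_simp [hz'.1] at h1; exact h1)
    have hcov' : ∀ z, z ∉ U' → ∃ l ∈ S', OnL p l z := by
      intro z hz
      simp [hU'] at hz
      obtain ⟨hz1, hz2⟩ := hz
      obtain ⟨l, hl, hon⟩ := hcov _ (hz2 hz1)
      have hne : l ≠ l₀ := by
        rintro rfl
        exact onL_pullPt_self p hz1 hon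
      exact ⟨_, Finset.mem_image_of_mem _ (Finset.mem_erase.mpr ⟨hne, hl⟩),
        onL_sendLine p hne hz1 hon⟩
    have hS0 : 1 ≤ S.card := Finset.card_pos.mpr ⟨l₀, hl₀⟩
    rcases lacunary p S' U' m hcov' (by omega) (by omega) with ⟨o, ho⟩ | hd
    · exfalso
      cases o with
      | none =>
        have : slopeCount p S' none ≤ slopeCount p S l₀.1 := by
          simp only [slopeCount, hS', Finset.filter_image]
          refine Finset.card_image_le.trans (Finset.card_le_card ?_)
          intro l hl
          simp at hl ⊢
          have h := sendLine_slope p (l₀ := l₀) (l := l)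
          rw [hl.2] at h
          exact ⟨hl.1.2, h⟩
        have := hslope l₀.1
        omega
      | some x =>
        have : slopeCount p S' (some x) ≤ pointCount p S (linePt p l₀ x) := by
          simp only [slopeCount, pointCount, hS', Finset.filter_image]
          refine Finset.card_image_le.trans (Finset.card_le_card ?_)
          intro l hl
          simp at hl ⊢
          have h := sendLine_slope p (l₀ := l₀) (l := l)
          rw [hl.2] at h
          exact ⟨hl.1.2, h⟩
        have := hpoint (linePt p l₀ x)
        omega
    · set A := Finset.univ.filter fun x => ∀ l ∈ S, OnL p l (linePt p l₀ x) → l = l₀ with hA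
      have hsub : S'.image Prod.fst ⊆ insert none ((Finset.univ \ A).image some) := by
        intro o ho
        cases o with
        | none => simp
        | some x =>
          simp only [hS', Finset.mem_image, Finset.mem_erase] at ho
          obtain ⟨l', ⟨l, ⟨hne, hl⟩, rfl⟩, hx⟩ := ho
          have h := sendLine_slope p (l₀ := l₀) (l := l)
          rw [hx] at h
          simp only [Finset.mem_insert, Finset.mem_image, Finset.mem_sdiff, Finset.mem_univ,
            true_and, hA, Finset.mem_filter]
          exact Or.inr ⟨x, fun hall => hne (hall l hl h), rfl⟩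
      have h1 := Finset.card_le_card hsub
      have h2 := (Finset.card_insert_le (none : Option (ZMod p))
        ((Finset.univ \ A).image some))
      rw [Finset.card_image_of_injective _ (Option.some_injective _),
        Finset.card_sdiff_of_subset (Finset.subset_univ _)] at h2
      have h3 : A.card ≤ (Finset.univ : Finset (ZMod p)).card :=
        Finset.card_le_card (Finset.subset_univ _)
      rw [Finset.card_univ, ZMod.card] at h2 h3
      omega
  -- double counting
  set one := Finset.univ.filter fun z : ZMod p × ZMod p => (S.filter fun l => OnL p l z).card = 1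
    with hone
  have h1 : 2 * (p ^ 2 - U.card) ≤
      (∑ z : ZMod p × ZMod p, (S.filter fun l => OnL p l z).card) + one.card := by
    have hcard : p ^ 2 - U.card = (Finset.univ \ U).card := by
      rw [Finset.card_sdiff_of_subset (Finset.subset_univ _)]
      simp [sq]
    rw [hcard, Finset.card_eq_sum_ones (Finset.univ \ U), Finset.mul_sum, hone,
      Finset.card_filter, ← Finset.sum_add_distrib]
    refine le_trans ?_ (Finset.sum_le_sum_of_subset (Finset.subset_univ (Finset.univ \ U)))
    refine Finset.sum_le_sum fun z hz => ?_
    simp at hz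
    obtain ⟨l, hl, hon⟩ := hcov z hz
    have : 1 ≤ (S.filter fun l => OnL p l z).card :=
      Finset.card_pos.mpr ⟨l, Finset.mem_filter.mpr ⟨hl, hon⟩⟩
    split_ifs <;> omega
  have h2 : (∑ z : ZMod p × ZMod p, (S.filter fun l => OnL p l z).card) = S.card * p := by
    simp only [Finset.card_filter]
    rw [Finset.sum_comm, Finset.card_eq_sum_ones S, Finset.sum_mul]
    refine Finset.sum_congr rfl fun l _ => ?_
    rw [← Finset.card_filter, card_onL, one_mul]
  have h3 : one.card + S.card * S.card ≤ S.card * (p + (2 * K + 4)) := by
    have hsub : one ⊆ S.biUnion fun l₀ =>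
        (Finset.univ.filter fun x => ∀ l ∈ S, OnL p l (linePt p l₀ x) → l = l₀).image
          (linePt p l₀) := by
      intro z hz
      simp only [hone, Finset.mem_filter, Finset.mem_univ, true_and, Finset.card_eq_one] at hz
      obtain ⟨l₀, hz⟩ := hz
      have hm : l₀ ∈ S.filter fun l => OnL p l z := by rw [hz]; simp
      simp only [Finset.mem_filter] at hm
      obtain ⟨x, rfl⟩ := (onL_iff p l₀ z).mp hm.2
      simp only [Finset.mem_biUnion, Finset.mem_image, Finset.mem_filter, Finset.mem_univ,
        true_and]
      refine ⟨l₀, hm.1, x, ?_, rfl⟩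
      intro l hl hon
      have : l ∈ S.filter fun l => OnL p l (linePt p l₀ x) := Finset.mem_filter.mpr ⟨hl, hon⟩
      rw [hz] at this
      simpa using this
    calc one.card + S.card * S.card
        ≤ (∑ l₀ ∈ S, (Finset.univ.filter fun x =>
            ∀ l ∈ S, OnL p l (linePt p l₀ x) → l = l₀).card) + S.card * S.card := by
          refine Nat.add_le_add_right ((Finset.card_le_card hsub).trans
            (Finset.card_biUnion_le.trans (Finset.sum_le_sum fun l _ => Finset.card_image_le))) _
      _ = ∑ l₀ ∈ S, ((Finset.univ.filter fun x =>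
            ∀ l ∈ S, OnL p l (linePt p l₀ x) → l = l₀).card + S.card) := by
          rw [Finset.sum_add_distrib, Finset.sum_const, smul_eq_mul]
      _ ≤ ∑ l₀ ∈ S, (p + (2 * K + 4)) := Finset.sum_le_sum key
      _ = S.card * (p + (2 * K + 4)) := by simp
  have hUle : U.card ≤ p ^ 2 := by
    have := Finset.card_le_univ U
    simpa [sq] using this
  have e1 : S.card ^ 2 = S.card * S.card := sq _
  have e2 : S.card * (2 * p + 2 * K + 4) = S.card * p + S.card * (p + (2 * K + 4)) := by ring
  omega

end Vale.Agent.P045
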