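import Mathlib
import Vale.Agent.P045.Stability
import Vale.Agent.P045.Count

/-!
A sparse subset of the affine plane that is not covered by `P` lines, other than full parallel
classes.
-/

namespace Vale.Agent.P045

open Finset

variable (p : ℕ) [Fact p.Prime]

/-- A point of the projective plane: a direction or an affine point. -/
abbrev PPt : Type := Option (ZMod p) ⊕ (ZMod p × ZMod p)

/-- Incidence with a projective point. -/
def Thru (q : PPt p) (l : Lne p) : Prop :=
  match q with
  | Sum.inl o => l.1 = o
  | Sum.inr z => OnL p l z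

instance (q : PPt p) (l : Lne p) : Decidable (Thru p q l) := by
  cases q <;> unfold Thru <;> infer_instance

/-- The pencil of a projective point. -/
def pencil (q : PPt p) : Finset (Lne p) := univ.filter (Thru p q)

/-- The point of a line, if any, shared with all other lines through a projective point. -/
def centre (q : PPt p) (z : ZMod p × ZMod p) : Prop := q = Sum.inr z

lemma line_eq_of_two_points {l l' : Lne p} {z z' : ZMod p × ZMod p} (hne : z ≠ z')
    (h1 : OnL p l z) (h2 : OnL p l z') (h3 : OnL p l' z) (h4 : OnL p l' z') : l = l' := by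
  obtain ⟨o, c⟩ := l
  obtain ⟨o', c'⟩ := l'
  obtain ⟨x, y⟩ := z
  obtain ⟨x', y'⟩ := z'
  cases o <;> cases o' <;> simp [OnL] at h1 h2 h3 h4
  · simp [← h1, ← h3]
  · subst h1 h2
    exact (hne (Prod.ext rfl (h3.trans h4.symm))).elim
  · subst h3 h4
    exact (hne (Prod.ext rfl (h1.trans h2.symm))).elim
  · rename_i s s'
    have hx : x ≠ x' := by
      intro h; subst h; exact hne (Prod.ext rfl (h1.trans h2.symm))
    have hs : (s - s') * (x - x') = 0 := by linear_combination h2 + h3 - h1 - h4
    rcases mul_eq_zero.mp hs with h | h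
    · have hs' := sub_eq_zero.mp h
      subst hs'
      simp
      linear_combination h3 - h1
    · exact absurd (sub_eq_zero.mp h) hx

lemma card_common_points {l l' : Lne p} (hne : l ≠ l') :
    (univ.filter fun z => OnL p l z ∧ OnL p l' z).card ≤ 1 := by
  rw [Finset.card_le_one]
  intro z hz z' hz'
  simp at hz hz'
  by_contra h
  exact hne (line_eq_of_two_points p h hz.1 hz'.1 hz.2 hz'.2)

lemma centre_of_thru {q : PPt p} {l l' : Lne p} {z : ZMod p × ZMod p} (hne : l ≠ l')
    (h : Thru p q l) (h' : Thru p q l') (hz : OnL p l z) (hz' : OnL p l' z) : centre p q z := by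
  cases q with
  | inl o =>
    exfalso
    apply hne
    obtain ⟨s, c⟩ := l
    obtain ⟨s', c'⟩ := l'
    simp [Thru] at h h'
    subst h h'
    cases s' <;> simp [OnL] at hz hz' <;> simp
    · rw [← hz, ← hz']
    · linear_combination hz' - hz
  | inr w =>
    simp [Thru] at h h'
    by_contra hc
    apply hne
    exact line_eq_of_two_points p (z := w) (z' := z) (fun e => hc (by rw [e]; rfl)) h hz h' hz'

lemma card_pencil_point (z : ZMod p × ZMod p) : p + 1 ≤ (pencil p (Sum.inr z)).card := by
  have hinj : Function.Injective fun o : Option (ZMod p) =>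
      ((o, match o with | none => z.1 | some s => z.2 - s * z.1) : Lne p) := by
    intro a b h; exact congrArg Prod.fst h
  have hsub : (univ : Finset (Option (ZMod p))).image
      (fun o => ((o, match o with | none => z.1 | some s => z.2 - s * z.1) : Lne p)) ⊆
      pencil p (Sum.inr z) := by
    intro l hl
    simp at hl
    obtain ⟨o, rfl⟩ := hl
    cases o <;> simp [pencil, Thru, OnL]
  have h := Finset.card_le_card hsub
  rw [Finset.card_image_of_injective _ hinj] at h
  simpa using h

lemma card_pencil_dir (o : Option (ZMod p)) : (pencil p (Sum.inl o)).card = p := by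
  have : pencil p (Sum.inl o) = (univ : Finset (ZMod p)).image fun c => ((o, c) : Lne p) := by
    ext ⟨o', c⟩
    simp [pencil, Thru, eq_comm]
  rw [this, Finset.card_image_of_injective _ (fun a b h => congrArg Prod.snd h)]
  simp

/-- Points not covered by a family of lines. -/
def uncov (S : Finset (Lne p)) : Finset (ZMod p × ZMod p) :=
  univ.filter fun z => ∀ l ∈ S, ¬ OnL p l z

lemma mem_uncov {S : Finset (Lne p)} {z : ZMod p × ZMod p} :
    z ∈ uncov p S ↔ ∀ l ∈ S, ¬ OnL p l z := by simp [uncov]

lemma uncov_lower (S : Finset (Lne p)) (q : PPt p) :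
    ((pencil p q) \ S).card * (p - 1 - (S \ pencil p q).card) ≤ (uncov p S).card := by
  classical
  set J := S \ pencil p q with hJ
  set g : Lne p → Finset (ZMod p × ZMod p) := fun l =>
    univ.filter fun z => OnL p l z ∧ ¬ centre p q z ∧ ∀ l' ∈ J, ¬ OnL p l' z with hg
  have hdisj : ((pencil p q \ S : Finset (Lne p)) : Set (Lne p)).PairwiseDisjoint g := by
    intro l hl l' hl' hne
    simp [pencil] at hl hl'
    simp only [Function.onFun, Finset.disjoint_left, hg, mem_filter, mem_univ, true_and]
    intro z hz hz'
    exact hz.2.1 (centre_of_thru p hne hl.1 hl'.1 hz.1 hz'.1)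
  have hcard : ∀ l ∈ pencil p q \ S, p - 1 - J.card ≤ (g l).card := by
    intro l hl
    have hsub : (univ.filter fun z => OnL p l z) ⊆
        g l ∪ ((univ.filter (centre p q)) ∪
          J.biUnion fun l' => univ.filter fun z => OnL p l z ∧ OnL p l' z) := by
      intro z hz
      simp at hz
      by_cases h1 : centre p q z
      · simp [h1]
      by_cases h2 : ∃ l' ∈ J, OnL p l' z
      · simp [hz, h2]
      · push Not at h2
        refine Finset.mem_union_left _ ?_
        simp only [hg, mem_filter, mem_univ, true_and]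
        exact ⟨hz, h1, h2⟩
    have h1 : (univ.filter (centre p q)).card ≤ 1 := by
      rw [Finset.card_le_one]
      intro a ha b hb
      simp [centre] at ha hb
      rw [ha] at hb
      exact Sum.inr.inj hb
    have h2 : (J.biUnion fun l' => univ.filter fun z => OnL p l z ∧ OnL p l' z).card ≤ J.card := by
      refine (Finset.card_biUnion_le).trans ?_
      rw [Finset.card_eq_sum_ones J]
      refine Finset.sum_le_sum fun l' hl' => card_common_points p ?_
      rintro rfl
      simp [hJ] at hl hl'
      exact hl.2 hl'.1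
    have h3 := (Finset.card_le_card hsub).trans ((Finset.card_union_le _ _).trans
      (Nat.add_le_add_left (Finset.card_union_le _ _) _))
    rw [card_onL] at h3
    omega
  calc ((pencil p q) \ S).card * (p - 1 - J.card)
      ≤ ∑ l ∈ pencil p q \ S, (g l).card := by
        rw [← smul_eq_mul]; exact Finset.card_nsmul_le_sum _ _ _ hcard
    _ = ((pencil p q \ S).biUnion g).card := (Finset.card_biUnion hdisj).symm
    _ ≤ (uncov p S).card := by
        refine Finset.card_le_card fun z hz => ?_
        simp only [mem_biUnion, hg, mem_filter, mem_univ, true_and] at hz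
        obtain ⟨l, hl, hon, hc, hJz⟩ := hz
        rw [mem_uncov]
        intro l' hl' hon'
        by_cases hp' : Thru p q l'
        · simp [pencil] at hl
          exact hc (centre_of_thru p (fun e => hl.2 (by rw [e]; exact hl')) hl.1 hp' hon hon')
        · exact hJz l' (by simp [hJ, pencil, hl', hp']) hon'

/-- Decode a finite family of lines. -/
def famOf {t : ℕ} (f : Fin t → Option (Lne p)) : Finset (Lne p) :=
  univ.filter fun l => ∃ i, f i = some l

lemma exists_famOf {t : ℕ} (S : Finset (Lne p)) (h : S.card ≤ t) :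
    ∃ f : Fin t → Option (Lne p), famOf p f = S := by
  classical
  refine ⟨fun i => if hi : (i : ℕ) < S.card then some (S.equivFin.symm ⟨i, hi⟩).1 else none, ?_⟩
  ext l
  simp only [famOf, mem_filter, mem_univ, true_and]
  constructor
  · rintro ⟨i, hi⟩
    split_ifs at hi with h'
    simp at hi
    exact hi ▸ (S.equivFin.symm ⟨i, h'⟩).2
  · intro hl
    refine ⟨⟨S.equivFin ⟨l, hl⟩, lt_of_lt_of_le (S.equivFin ⟨l, hl⟩).2 h⟩, ?_⟩
    simp

/-- Reassemble a family from a projective point, the missing and the additional lines. -/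
def decode (t : ℕ) (q : PPt p) (f g : Fin t → Option (Lne p)) : Finset (Lne p) :=
  ((pencil p q) \ famOf p f) ∪ famOf p g

theorem exists_R (N G0 : ℕ) (hp : 2 ^ 30 ≤ p) (hp2 : p ≤ 2 ^ 52) (hN : N = 32768 * p)
    (hG0 : G0 = 65536) :
    ∃ R : Finset (ZMod p × ZMod p), R.card ≤ N ∧
      (∀ l, (R.filter fun z => OnL p l z).card ≤ G0) ∧
      ∀ S : Finset (Lne p), S.card ≤ p → (∀ o, slopeCount p S o < p) →
        ∃ z ∈ R, ∀ l ∈ S, ¬ OnL p l z := by
  classical
  subst hN hG0
  have hLne : Fintype.card (Option (Lne p)) ≤ 2 ^ 105 := by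
    simp
    nlinarith [Nat.mul_le_mul hp2 hp2]
  have hpts : Fintype.card (PPt p) ≤ 2 ^ 105 := by
    simp
    nlinarith [Nat.mul_le_mul hp2 hp2]
  have hβ : Fintype.card (ZMod p × ZMod p) = p * p := by simp
  set Ω := Fintype.card (ZMod p × ZMod p) ^ Fintype.card (Fin (32768 * p)) with hΩ
  have hΩ' : (Fintype.card (ZMod p) * Fintype.card (ZMod p)) ^ (32768 * p) = Ω := by
    simp [hΩ]
  have hlog : (0.6931471803 : ℝ) < Real.log 2 := Real.log_two_gt_d9
  have hlog' : Real.log 2 < 0.6931471808 := Real.log_two_lt_d9
  have hpR : (0 : ℝ) < p := by exact_mod_cast (by omega : 0 < p)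
  have hmiss : ∀ (B : Finset (ZMod p × ZMod p)) (L : ℕ),
      (L : ℝ) * p ≤ 16384 * B.card →
      (univ.filter fun r : Fin (32768 * p) → ZMod p × ZMod p =>
        hits (fun _ => B) r ≤ 0).card * 2 ^ L ≤ Ω := by
    intro B L hL
    refine card_lower_tail (fun _ => B) (1/2) (by norm_num) (by norm_num) 0 L ?_
    rw [hβ]
    simp only [Finset.sum_const, Finset.card_univ, Fintype.card_fin, nsmul_eq_mul]
    push_cast
    have h0 : ((1:ℝ)/2 - 1) * (32768 * p * B.card) / (p * p) = -(16384 * B.card / p) := by
      field_simp; ring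
    rw [h0]
    have h1 : (L:ℝ) ≤ 16384 * B.card / p := by rw [le_div_iff₀ hpR]; exact hL
    nlinarith [Real.log_two_gt_d9, Real.log_two_lt_d9, (Nat.cast_nonneg L : (0:ℝ) ≤ L)]
  let Egen : (Fin p → Option (Lne p)) → (Fin (32768 * p) → ZMod p × ZMod p) → Prop :=
    fun f r => p * p ≤ 100 * (uncov p (famOf p f)).card ∧
      hits (fun _ => uncov p (famOf p f)) r ≤ 0
  let Est : (t : Fin (p + 2)) → (PPt p × (Fin t → Option (Lne p)) × (Fin t → Option (Lne p))) →
      (Fin (32768 * p) → ZMod p × ZMod p) → Prop :=
    fun t i r => (1 ≤ (t : ℕ) ∧ (t : ℕ) * (p / 5) ≤ (uncov p (decode p t i.1 i.2.1 i.2.2)).card) ∧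
      hits (fun _ => uncov p (decode p t i.1 i.2.1 i.2.2)) r ≤ 0
  let Eline : Lne p → (Fin (32768 * p) → ZMod p × ZMod p) → Prop :=
    fun l r => 65536 ≤ hits (fun _ => univ.filter fun z => OnL p l z) r
  have h2 : (univ.filter fun r => ∃ f, Egen f r).card * 2 ^ (163 * p) ≤ 2 ^ (105 * p) * Ω := by
    refine (card_union_bound Egen (163 * p) fun f => ?_).trans ?_
    · by_cases hc : p * p ≤ 100 * (uncov p (famOf p f)).card
      · refine le_trans (Nat.mul_le_mul_right _ (Finset.card_le_card ?_)) (le_trans
          (hmiss (uncov p (famOf p f)) (163 * p) ?_) (by simp [hΩ]))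
        · intro r hr; simp [Egen] at hr ⊢; exact hr.2
        · have hc' : (p : ℝ) * p ≤ 100 * (uncov p (famOf p f)).card := by exact_mod_cast hc
          push_cast
          nlinarith
      · simp [Egen, hc]
    · simp only [Fintype.card_fun, Fintype.card_fin, Fintype.card_prod, hΩ']
      refine Nat.mul_le_mul ?_ le_rfl
      rw [pow_mul]
      exact Nat.pow_le_pow_left hLne p
  have h3 : ∀ t : Fin (p + 2), (univ.filter fun r => ∃ i, Est t i r).card * 2 ^ 200 ≤ Ω := by
    intro t
    by_cases ht : 1 ≤ (t : ℕ)
    · have hu := card_union_bound (Est t) (1000 * t) fun i => ?_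
      · simp only [Fintype.card_prod, Fintype.card_fun, Fintype.card_fin] at hu
        rw [hΩ'] at hu
        have hcount : Fintype.card (PPt p) * (Fintype.card (Option (Lne p)) ^ (t : ℕ) *
            Fintype.card (Option (Lne p)) ^ (t : ℕ)) * 2 ^ 200 ≤ 2 ^ (1000 * (t : ℕ)) := by
          calc _ ≤ 2 ^ 105 * ((2 ^ 105) ^ (t : ℕ) * (2 ^ 105) ^ (t : ℕ)) * 2 ^ 200 := by
                gcongr
            _ = 2 ^ (305 + 210 * (t : ℕ)) := by
                rw [← pow_mul, ← pow_add, ← pow_add, ← pow_add]; congr 1; omega
            _ ≤ _ := Nat.pow_le_pow_right (by norm_num) (by omega)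
        have hpos : 0 < 2 ^ (1000 * (t : ℕ)) := by positivity
        refine Nat.le_of_mul_le_mul_right ?_ hpos
        calc (univ.filter fun r => ∃ i, Est t i r).card * 2 ^ 200 * 2 ^ (1000 * (t : ℕ))
            = (univ.filter fun r => ∃ i, Est t i r).card * 2 ^ (1000 * (t : ℕ)) * 2 ^ 200 := by ring
          _ ≤ _ := Nat.mul_le_mul_right _ hu
          _ = Fintype.card (PPt p) * (Fintype.card (Option (Lne p)) ^ (t : ℕ) *
            Fintype.card (Option (Lne p)) ^ (t : ℕ)) * 2 ^ 200 * Ω := by ring
          _ ≤ 2 ^ (1000 * (t : ℕ)) * Ω := Nat.mul_le_mul_right _ hcount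
          _ = _ := by ring
      · by_cases hc : (t : ℕ) * (p / 5) ≤ (uncov p (decode p t i.1 i.2.1 i.2.2)).card
        · refine le_trans (Nat.mul_le_mul_right _ (Finset.card_le_card ?_)) (le_trans
            (hmiss (uncov p (decode p t i.1 i.2.1 i.2.2)) (1000 * t) ?_) (by simp [hΩ]))
          · intro r hr; simp [Est] at hr ⊢; exact hr.2
          · have h5 : p ≤ 6 * (p / 5) := by omega
            have : 1000 * (t : ℕ) * p ≤ 16384 * (uncov p (decode p t i.1 i.2.1 i.2.2)).card := by
              nlinarith [Nat.mul_le_mul_left (t : ℕ) h5]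
            exact_mod_cast this
        · simp [Est, hc]
    · simp [Est, ht]
  have h4 : (univ.filter fun r => ∃ l, Eline l r).card * 2 ^ 200 ≤ Fintype.card (Lne p) * Ω := by
    refine (card_union_bound Eline 200 fun l => ?_).trans (by simp [hΩ])
    rw [Fintype.card_fun]
    refine card_upper_tail _ 2 (by norm_num) _ _ ?_
    rw [hβ]
    simp only [card_onL, Finset.sum_const, Finset.card_univ, Fintype.card_fin, nsmul_eq_mul]
    push_cast
    have h0 : ((2:ℝ) - 1) * (32768 * p * p) / (p * p) = 32768 := by field_simp; ring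
    rw [h0]
    nlinarith
  -- combine
  have hgood : ∃ r, (∀ f, ¬ Egen f r) ∧ (∀ t i, ¬ Est t i r) ∧ (∀ l, ¬ Eline l r) := by
    by_contra hno
    push Not at hno
    have hall : (univ : Finset (Fin (32768 * p) → ZMod p × ZMod p)) ⊆
        (univ.filter fun r => ∃ f, Egen f r) ∪
          (univ.biUnion fun t => univ.filter fun r => ∃ i, Est t i r) ∪
            (univ.filter fun r => ∃ l, Eline l r) := by
      intro r _
      simp only [mem_union, mem_filter, mem_univ, true_and, mem_biUnion]
      by_cases ha : ∃ f, Egen f r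
      · exact Or.inl (Or.inl ha)
      · by_cases hb : ∃ t i, Est t i r
        · exact Or.inl (Or.inr hb)
        · exact Or.inr (hno r (not_exists.mp ha) (fun t i h => hb ⟨t, i, h⟩))
    have hc := (Finset.card_le_card hall).trans ((Finset.card_union_le _ _).trans
      (Nat.add_le_add_right (Finset.card_union_le _ _) _))
    have hb : (univ.biUnion fun t => univ.filter fun r => ∃ i, Est t i r).card * 2 ^ 200 ≤
        (p + 2) * Ω := by
      refine (Nat.mul_le_mul_right _ Finset.card_biUnion_le).trans ?_
      rw [Finset.sum_mul]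
      refine (Finset.sum_le_sum fun t _ => h3 t).trans ?_
      simp
    have ha : (univ.filter fun r => ∃ f, Egen f r).card * 2 ^ 200 ≤ Ω := by
      refine Nat.le_of_mul_le_mul_right ?_ (by positivity : 0 < 2 ^ (163 * p))
      calc (univ.filter fun r => ∃ f, Egen f r).card * 2 ^ 200 * 2 ^ (163 * p)
          = (univ.filter fun r => ∃ f, Egen f r).card * 2 ^ (163 * p) * 2 ^ 200 := by ring
        _ ≤ 2 ^ (105 * p) * Ω * 2 ^ 200 := Nat.mul_le_mul_right _ h2
        _ = 2 ^ (105 * p + 200) * Ω := by rw [pow_add]; ring
        _ ≤ 2 ^ (163 * p) * Ω := Nat.mul_le_mul_right _ (Nat.pow_le_pow_right (by norm_num) (by omega))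
        _ = _ := by ring
    have hl : Fintype.card (Lne p) ≤ 2 ^ 105 := le_trans (by simp) hLne
    rw [Finset.card_univ, Fintype.card_fun, ← hΩ] at hc
    have hΩpos : 0 < Ω := by rw [hΩ, hβ]; positivity
    have := Nat.mul_le_mul_right (2 ^ 200) hc
    rw [add_mul, add_mul] at this
    have h5 : Ω * 2 ^ 200 ≤ (1 + (p + 2) + 2 ^ 105) * Ω := by
      have := Nat.mul_le_mul_right Ω hl
      nlinarith
    have h6 := Nat.le_of_mul_le_mul_left (by linarith : Ω * 2 ^ 200 ≤ Ω * (1 + (p + 2) + 2 ^ 105))
      hΩpos
    omega
  obtain ⟨r, hrg, hrs, hrl⟩ := hgood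
  refine ⟨univ.image r, ?_, ?_, ?_⟩
  · exact Finset.card_image_le.trans (by simp)
  · intro l
    have h := hrl l
    simp only [Eline, hits, mem_filter, mem_univ, true_and, not_le] at h
    rw [Finset.filter_image]
    exact Finset.card_image_le.trans h.le
  · intro S hS hpar
    have fin : ¬ hits (fun _ => uncov p S) r ≤ 0 → ∃ z ∈ univ.image r, ∀ l ∈ S, ¬ OnL p l z := by
      intro h
      simp only [hits, not_le, Finset.card_pos] at h
      obtain ⟨i, hi⟩ := h
      simp only [mem_filter, mem_univ, true_and, mem_uncov] at hi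
      exact ⟨r i, Finset.mem_image_of_mem _ (mem_univ i), hi⟩
    by_cases hgen : p * p ≤ 100 * (uncov p S).card
    · obtain ⟨f, hf⟩ := exists_famOf p S hS
      refine fin fun h => hrg f ?_
      exact ⟨by rw [hf]; exact hgen, by rw [hf]; exact h⟩
    · push Not at hgen
      have hst : ∃ q, S.card ≤ (S ∩ pencil p q).card + (3 * (2 * (p / 8)) + 3) := by
        have hdiv : 8 * (p / 8) ≤ p ∧ p < 8 * (p / 8) + 8 := by omega
        have hU : (uncov p S).card + p < (p / 8 + 1) ^ 2 := by nlinarith
        have hbig : S.card * (2 * p + 2 * (2 * (p / 8)) + 4) + 2 * (uncov p S).card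
            < 2 * p ^ 2 + S.card ^ 2 := by
          nlinarith [mul_le_mul hS (le_refl p) (Nat.zero_le p) (Nat.zero_le p)]
        rcases stability p S (uncov p S) (p / 8) (2 * (p / 8))
          (fun z hz => by simpa [mem_uncov] using hz) hU (by omega) (by omega) hbig with
          ⟨o, ho⟩ | ⟨z, hz⟩
        · refine ⟨Sum.inl o, ho.trans (Nat.add_le_add_right (Finset.card_le_card ?_) _)⟩
          intro l hl; simp [pencil, Thru] at hl ⊢; exact hl
        · refine ⟨Sum.inr z, hz.trans (Nat.add_le_add_right (Finset.card_le_card ?_) _)⟩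
          intro l hl; simp [pencil, Thru] at hl ⊢; exact hl
      obtain ⟨q, hq⟩ := hst
      have hsplit1 := Finset.card_sdiff_add_card_inter S (pencil p q)
      have hsplit2 := Finset.card_sdiff_add_card_inter (pencil p q) S
      rw [Finset.inter_comm] at hsplit2
      have hpen : p ≤ (pencil p q).card ∧ (pencil p q).card ≤ p + 1 ∧
          1 ≤ (pencil p q \ S).card := by
        cases q with
        | inl o =>
          have h1 := card_pencil_dir p o
          have h2 : (S ∩ pencil p (Sum.inl o)).card ≤ slopeCount p S o := by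
            apply Finset.card_le_card
            intro l hl; simp [pencil, Thru] at hl ⊢; exact hl
          have := hpar o
          omega
        | inr z =>
          have h1 := card_pencil_point p z
          refine ⟨by omega, ?_, by omega⟩
          have hinj : Set.InjOn Prod.fst (pencil p (Sum.inr z) : Set (Lne p)) := by
            intro a ha b hb he
            simp [pencil, Thru] at ha hb
            obtain ⟨o, c⟩ := a
            obtain ⟨o', c'⟩ := b
            simp at he
            subst he
            cases o <;> simp [OnL] at ha hb ⊢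
            · rw [← ha, ← hb]
            · linear_combination hb - ha
          have := Finset.card_le_card_of_injOn Prod.fst (fun a _ => Finset.mem_univ _) hinj
          simpa using this
      set t := (pencil p q \ S).card with ht
      have hlow := uncov_lower p S q
      have hu : t * (p / 5) ≤ (uncov p S).card :=
        le_trans (Nat.mul_le_mul_left _ (by omega)) hlow
      obtain ⟨f, hf⟩ := exists_famOf p (pencil p q \ S) (le_of_eq ht.symm)
      obtain ⟨g, hg⟩ := exists_famOf p (S \ pencil p q) (show _ ≤ t by omega)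
      have hdec : decode p t q f g = S := by
        rw [decode, hf, hg]
        ext l
        simp
        tauto
      refine fin fun h => hrs ⟨t, by omega⟩ (q, f, g) ?_
      simp only [Est, hdec]
      exact ⟨⟨hpen.2.2, hu⟩, h⟩

end Vale.Agent.P045
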