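import Mathlib
import Vale.Agent.P045.RSet

/-!
The intersecting `(q + 1 + W)`-partite hypergraph.

Its edges are almost all points `(a, b)` of the affine plane over `ZMod q`, together with a sparse
set `R` of labelled directions.
-/

namespace Vale.Agent.P045

variable (q W P : ℕ)

/-- The free data of the construction. -/
structure Data where
  /-- labelled directions -/
  R : Finset (ZMod P × ZMod P)
  /-- the direction carried by a label -/
  mu : ZMod P × ZMod P → ZMod q
  /-- the class hosting a hidden line of labels -/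
  zeta : Fin 2 × ZMod P → ZMod q
  /-- labels of the coordinates -/
  lam : ZMod q → ZMod W × ZMod W
  /-- slopes realised by repair classes -/
  sigma : ZMod W → ZMod P
  /-- the two hidden slopes -/
  eta : Fin 2 → ZMod P
  /-- repair classes with split diagonal blocks -/
  I : Finset (ZMod W)
  /-- three-colouring of each fibre -/
  col : ZMod W → ZMod q → ZMod 3

/-- Values of the vertices in one class. -/
inductive Val where
  | sl (s : ZMod q)
  | grp
  | pA (v : ZMod W)
  | pB (v : ZMod W)
  | hd (c : ZMod q)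
  | hv (x : ZMod P)
  | pr (u v : ZMod W) (k : ZMod 3)
  | rv (v : ZMod P)
  deriving DecidableEq

/-- The classes: one for each diagonal point, one for slope one, one for each repair slope. -/
abbrev Cls : Type := ZMod q ⊕ (Unit ⊕ ZMod W)

/-- A vertex of the hypergraph. -/
abbrev Blk : Type := Cls q W × Val q W P

/-- Elements from which edges are made. -/
abbrev Elt : Type := (ZMod q × ZMod q) ⊕ (ZMod P × ZMod P)

variable {q W P}
variable [Fact q.Prime] [Fact W.Prime] [Fact P.Prime]

/-- Intercept of a label in a given slope. -/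
def lfun {n : ℕ} (j : Option (ZMod n)) (z : ZMod n × ZMod n) : ZMod n :=
  match j with
  | none => z.1
  | some i => z.2 - i * z.1

lemma label_eq_of_two {n : ℕ} [Fact n.Prime] {i j : Option (ZMod n)} (hij : i ≠ j)
    {z z' : ZMod n × ZMod n} (h1 : lfun i z = lfun i z') (h2 : lfun j z = lfun j z') : z = z' := by
  obtain ⟨x, y⟩ := z
  obtain ⟨x', y'⟩ := z'
  cases i <;> cases j <;> simp [lfun] at h1 h2 hij ⊢
  · subst h1; exact ⟨rfl, by linear_combination h2⟩
  · subst h2; exact ⟨rfl, by linear_combination h1⟩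
  · rename_i a c
    have hx : (a - c) * (x - x') = 0 := by linear_combination h2 - h1
    rcases mul_eq_zero.mp hx with h | h
    · exact absurd (sub_eq_zero.mp h) hij
    · have hx' := sub_eq_zero.mp h
      subst hx'
      exact ⟨rfl, by linear_combination h1⟩

lemma exists_common_slope {n : ℕ} [Fact n.Prime] (z z' : ZMod n × ZMod n) :
    ∃ j : Option (ZMod n), lfun j z = lfun j z' := by
  by_cases h : z.1 = z'.1
  · exact ⟨none, h⟩
  · refine ⟨some ((z.2 - z'.2) / (z.1 - z'.1)), ?_⟩
    have : z.1 - z'.1 ≠ 0 := sub_ne_zero.mpr h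
    simp only [lfun]
    field_simp
    ring

variable (D : Data q W P)

/-- Intercept of the label of a coordinate. -/
def Data.phi (j : Option (ZMod W)) (a : ZMod q) : ZMod W := lfun j (D.lam a)

/-- Directions merged in the class of the diagonal point `θ`. -/
def Data.G (θ : ZMod q) : Finset (ZMod q) :=
  (D.R.filter fun z => ∃ j, D.zeta (j, lfun (some (D.eta j)) z) = θ).image D.mu

/-- Points left out of the hypergraph. -/
def Data.Om (a b : ZMod q) : Prop :=
  ∃ i ∈ D.I, D.phi (some i) a = D.phi (some i) b ∧ D.col i b ≠ D.col i a + 1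

instance (a b : ZMod q) : Decidable (D.Om a b) := by unfold Data.Om; infer_instance

/-- Colour part of the key in a repair class. -/
def Data.key (i : ZMod W) (a b : ZMod q) : ZMod 3 :=
  if i ∈ D.I ∧ D.phi (some i) a = D.phi (some i) b then D.col i a else 0

/-- The vertex of an element in each class. -/
def Data.val (e : Elt q P) (c : Cls q W) : Val q W P :=
  match e, c with
  | Sum.inl (a, b), Sum.inl θ =>
    if a = θ then .pA (D.phi none b)
    else if b = θ then .pB (D.phi none a)
    else if (b - θ) / (a - θ) ∈ D.G θ then .grp else .sl ((b - θ) / (a - θ))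
  | Sum.inl (a, b), Sum.inr (Sum.inl _) => .hd (a - b)
  | Sum.inl (a, b), Sum.inr (Sum.inr i) =>
    .pr (D.phi (some i) a) (D.phi (some i) b) (D.key i a b)
  | Sum.inr z, Sum.inl θ => if D.mu z ∈ D.G θ then .grp else .sl (D.mu z)
  | Sum.inr z, Sum.inr (Sum.inl _) => .hv z.1
  | Sum.inr z, Sum.inr (Sum.inr i) => .rv (lfun (some (D.sigma i)) z)

/-- The edges. -/
def Data.IsEdge (e : Elt q P) : Prop :=
  match e with
  | Sum.inl (a, b) => a ≠ b ∧ ¬ D.Om a b
  | Sum.inr z => z ∈ D.R

/-- Structural requirements on the data. -/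
structure Data.Wf : Prop where
  mu_inj : Set.InjOn D.mu D.R
  mu_ne_zero : ∀ z ∈ D.R, D.mu z ≠ 0
  mu_ne_one : ∀ z ∈ D.R, D.mu z ≠ 1
  zeta_inj : Function.Injective D.zeta
  eta_ne : D.eta 0 ≠ D.eta 1
  slopes : ∀ s : ZMod P, (∃ i, D.sigma i = s) ∨ (∃ j, D.eta j = s)

omit [Fact q.Prime] [Fact W.Prime] [Fact P.Prime] in
lemma Data.mem_G {θ t : ZMod q} :
    t ∈ D.G θ ↔ ∃ z ∈ D.R, (∃ j, D.zeta (j, lfun (some (D.eta j)) z) = θ) ∧ D.mu z = t := by
  simp [Data.G, and_assoc]

omit [Fact W.Prime] [Fact P.Prime] in
lemma Data.G_ne_zero (hD : D.Wf) {θ t : ZMod q} (h : t ∈ D.G θ) : t ≠ 0 ∧ t ≠ 1 := by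
  obtain ⟨z, hz, -, rfl⟩ := D.mem_G.mp h
  exact ⟨hD.mu_ne_zero z hz, hD.mu_ne_one z hz⟩

/-- Two edges always share a vertex. -/
theorem Data.intersecting (hD : D.Wf) (e e' : Elt q P) (he : D.IsEdge e) (he' : D.IsEdge e') :
    ∃ c, D.val e c = D.val e' c := by
  have hgr : ∀ (a b : ZMod q) (z : ZMod P × ZMod P), a ≠ b → z ∈ D.R →
      ∃ c, D.val (Sum.inl (a, b)) c = D.val (Sum.inr z) c := by
    intro a b z hab hz
    set t := D.mu z with ht
    have h1 : t - 1 ≠ 0 := sub_ne_zero.mpr (hD.mu_ne_one z hz)
    set θ := (t * a - b) / (t - 1) with hθ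
    have hθ' : θ * (t - 1) = t * a - b := by rw [hθ]; field_simp
    have ha : a ≠ θ := by
      intro h
      rw [← h] at hθ'
      exact hab (by linear_combination -hθ')
    have hb : b ≠ θ := by
      intro h
      rw [← h] at hθ'
      have : t * (a - b) = 0 := by linear_combination -hθ'
      rcases mul_eq_zero.mp this with h' | h'
      · exact hD.mu_ne_zero z hz h'
      · exact hab (sub_eq_zero.mp h')
    have hs : (b - θ) / (a - θ) = t := by
      rw [div_eq_iff (sub_ne_zero.mpr ha)]
      linear_combination hθ'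
    exact ⟨Sum.inl θ, by simp [Data.val, ha, hb, hs, ← ht]⟩
  match e, e', he, he' with
  | Sum.inl (a, b), Sum.inr z, he, he' => exact hgr a b z he.1 he'
  | Sum.inr z, Sum.inl (a, b), he, he' =>
    obtain ⟨c, hc⟩ := hgr a b z he'.1 he
    exact ⟨c, hc.symm⟩
  | Sum.inr z, Sum.inr z', he, he' =>
    obtain ⟨j, hj⟩ := exists_common_slope z z'
    cases j with
    | none => exact ⟨Sum.inr (Sum.inl ()), by simp [Data.val]; exact hj⟩
    | some s =>
      rcases hD.slopes s with ⟨i, rfl⟩ | ⟨k, rfl⟩
      · exact ⟨Sum.inr (Sum.inr i), by simp [Data.val, hj]⟩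
      · refine ⟨Sum.inl (D.zeta (k, lfun (some (D.eta k)) z)), ?_⟩
        have h1 : D.mu z ∈ D.G (D.zeta (k, lfun (some (D.eta k)) z)) :=
          D.mem_G.mpr ⟨z, he, ⟨k, rfl⟩, rfl⟩
        have h2 : D.mu z' ∈ D.G (D.zeta (k, lfun (some (D.eta k)) z)) :=
          D.mem_G.mpr ⟨z', he', ⟨k, by rw [hj]⟩, rfl⟩
        simp [Data.val, h1, h2]
  | Sum.inl (a, b), Sum.inl (a', b'), he, he' =>
    obtain ⟨hab, hom⟩ := he
    obtain ⟨hab', hom'⟩ := he'
    by_cases haa : a = a'
    · subst haa
      obtain ⟨j, hj⟩ := exists_common_slope (D.lam b) (D.lam b')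
      cases j with
      | none => exact ⟨Sum.inl a, by simp [Data.val, Data.phi, hj]⟩
      | some i =>
        refine ⟨Sum.inr (Sum.inr i), ?_⟩
        have hu : D.phi (some i) b = D.phi (some i) b' := hj
        simp only [Data.val, Data.key, hu]
    by_cases hbb : b = b'
    · subst hbb
      obtain ⟨j, hj⟩ := exists_common_slope (D.lam a) (D.lam a')
      cases j with
      | none => exact ⟨Sum.inl b, by simp [Data.val, Data.phi, hj, hab, hab']⟩
      | some i =>
        refine ⟨Sum.inr (Sum.inr i), ?_⟩
        have hu : D.phi (some i) a = D.phi (some i) a' := hj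
        have hk : D.key i a b = D.key i a' b := by
          by_cases hc : i ∈ D.I ∧ D.phi (some i) a = D.phi (some i) b
          · have hc' : i ∈ D.I ∧ D.phi (some i) a' = D.phi (some i) b := ⟨hc.1, hu ▸ hc.2⟩
            have e1 : D.col i b = D.col i a + 1 := by
              by_contra h; exact hom ⟨i, hc.1, hc.2, h⟩
            have e2 : D.col i b = D.col i a' + 1 := by
              by_contra h; exact hom' ⟨i, hc'.1, hc'.2, h⟩
            simp only [Data.key, if_pos hc, if_pos hc']
            exact add_right_cancel (e1.symm.trans e2)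
          · have hc' : ¬ (i ∈ D.I ∧ D.phi (some i) a' = D.phi (some i) b) := by
              rwa [← hu]
            simp only [Data.key, if_neg hc, if_neg hc']
        simp [Data.val, hu, hk]
    by_cases hd : a - b = a' - b'
    · exact ⟨Sum.inr (Sum.inl ()), by simp [Data.val, hd]⟩
    have hden : a' - b' - (a - b) ≠ 0 := sub_ne_zero.mpr (Ne.symm hd)
    set θ := (b * a' - a * b') / (a' - b' - (a - b)) with hθ
    have hθ' : θ * (a' - b' - (a - b)) = b * a' - a * b' := by rw [hθ]; field_simp
    have h1 : a ≠ θ := by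
      intro h
      rw [← h] at hθ'
      have : (a - b) * (a' - a) = 0 := by linear_combination hθ'
      rcases mul_eq_zero.mp this with h' | h'
      · exact hab (sub_eq_zero.mp h')
      · exact haa (sub_eq_zero.mp h').symm
    have h2 : a' ≠ θ := by
      intro h
      rw [← h] at hθ'
      have : (a' - b') * (a' - a) = 0 := by linear_combination hθ'
      rcases mul_eq_zero.mp this with h' | h'
      · exact hab' (sub_eq_zero.mp h')
      · exact haa (sub_eq_zero.mp h').symm
    have h3 : b ≠ θ := by
      intro h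
      rw [← h] at hθ'
      have : (a - b) * (b' - b) = 0 := by linear_combination hθ'
      rcases mul_eq_zero.mp this with h' | h'
      · exact hab (sub_eq_zero.mp h')
      · exact hbb (sub_eq_zero.mp h').symm
    have h4 : b' ≠ θ := by
      intro h
      rw [← h] at hθ'
      have : (a' - b') * (b' - b) = 0 := by linear_combination hθ'
      rcases mul_eq_zero.mp this with h' | h'
      · exact hab' (sub_eq_zero.mp h')
      · exact hbb (sub_eq_zero.mp h').symm
    have hs : (b - θ) / (a - θ) = (b' - θ) / (a' - θ) := by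
      rw [div_eq_div_iff (sub_ne_zero.mpr h1) (sub_ne_zero.mpr h2)]
      linear_combination -hθ'
    exact ⟨Sum.inl θ, by simp [Data.val, h1, h2, h3, h4, hs]⟩

end Vale.Agent.P045
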