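import Mathlib
import Vale.Agent.P045.Construction

/-!
Vertices as lines, exceptional point sets and label lines.
-/

set_option linter.unusedSectionVars false

namespace Vale.Agent.P045

open Finset

variable {q W P : ℕ} [Fact q.Prime] [Fact W.Prime] [Fact P.Prime]

/-- The line of slope `s` through the diagonal point `θ`. -/
def dline (θ s : ZMod q) : Lne q := (some s, θ - s * θ)

lemma onL_dline {θ s a b : ZMod q} : OnL q (dline θ s) (a, b) ↔ b - θ = s * (a - θ) := by
  simp only [OnL, dline]
  constructor <;> intro h <;> linear_combination h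

variable (D : Data q W P)

/-- The lines contained in a vertex. -/
def Data.lines (B : Blk q W P) : Finset (Lne q) :=
  match B with
  | (Sum.inl θ, .sl s) => if s = 0 ∨ s = 1 ∨ s ∈ D.G θ then ∅ else {dline θ s}
  | (Sum.inl θ, .grp) => (D.G θ).image (dline θ)
  | (Sum.inr (Sum.inl _), .hd c) => if c = 0 then ∅ else {(some 1, -c)}
  | _ => ∅

/-- The points of a vertex outside its lines. -/
def Data.extra (B : Blk q W P) : Finset (ZMod q × ZMod q) :=
  match B with
  | (Sum.inl θ, .pA v) => (univ.filter fun b => D.phi none b = v).image fun b => (θ, b)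
  | (Sum.inl θ, .pB v) => (univ.filter fun a => D.phi none a = v).image fun a => (a, θ)
  | (Sum.inr (Sum.inr i), .pr u v k) =>
    ((univ.filter fun a => D.phi (some i) a = u) ×ˢ (univ.filter fun b => D.phi (some i) b = v)).filter
      fun z => D.key i z.1 z.2 = k
  | _ => ∅

/-- The vertex containing a given line. -/
def Data.blk (l : Lne q) : Blk q W P :=
  match l with
  | (some s, c) =>
    if s = 1 then (Sum.inr (Sum.inl ()), .hd (-c))
    else (Sum.inl (c / (1 - s)), if s ∈ D.G (c / (1 - s)) then .grp else .sl s)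
  | (none, _) => (Sum.inr (Sum.inl ()), .hd 0)

/-- Lines occurring in vertices: neither axis-parallel nor the diagonal. -/
def IsOrd (l : Lne q) : Prop := ∃ s, l.1 = some s ∧ s ≠ 0 ∧ (s = 1 → l.2 ≠ 0)

instance (l : Lne q) : Decidable (IsOrd l) := by unfold IsOrd; infer_instance

lemma isOrd_dline {θ s : ZMod q} (h0 : s ≠ 0) (h1 : s ≠ 1) : IsOrd (dline θ s) :=
  ⟨s, rfl, h0, fun h => absurd h h1⟩

lemma blk_dline {θ s : ZMod q} (h1 : s ≠ 1) :
    D.blk (dline θ s) = (Sum.inl θ, if s ∈ D.G θ then .grp else .sl s) := by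
  have h : (1 : ZMod q) - s ≠ 0 := sub_ne_zero.mpr (Ne.symm h1)
  have e : (θ - s * θ) / (1 - s) = θ := by
    rw [show θ - s * θ = θ * (1 - s) by ring, mul_div_assoc, div_self h, mul_one]
  simp [Data.blk, dline, h1, e]

lemma dline_eq {l : Lne q} {s : ZMod q} (hl : l.1 = some s) (h1 : s ≠ 1) :
    dline (l.2 / (1 - s)) s = l := by
  obtain ⟨o, c⟩ := l
  simp at hl
  subst hl
  have h : (1 : ZMod q) - s ≠ 0 := sub_ne_zero.mpr (Ne.symm h1)
  simp [dline]
  field_simp

variable {D}

lemma isOrd_of_mem_lines (hD : D.Wf) {B : Blk q W P} {l : Lne q} (h : l ∈ D.lines B) :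
    IsOrd l := by
  obtain ⟨c, v⟩ := B
  rcases c with θ | u | i <;> cases v <;> simp [Data.lines] at h
  · split_ifs at h with hs
    · exact absurd h (List.not_mem_nil)
    · simp at h
      subst h
      push Not at hs
      exact isOrd_dline hs.1 hs.2.1
  · obtain ⟨s, hs, rfl⟩ := h
    exact isOrd_dline (D.G_ne_zero hD hs).1 (D.G_ne_zero hD hs).2
  · split_ifs at h with hs
    · exact absurd h (List.not_mem_nil)
    · simp at h
      subst h
      exact ⟨1, rfl, one_ne_zero, fun _ => neg_ne_zero.mpr hs⟩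

lemma lines_blk {l : Lne q} (h : IsOrd l) : l ∈ D.lines (D.blk l) := by
  obtain ⟨s, hs, h0, h1⟩ := h
  obtain ⟨o, c⟩ := l
  simp at hs
  subst hs
  by_cases hs1 : s = 1
  · subst hs1
    have hc : c ≠ 0 := h1 rfl
    simp [Data.blk, Data.lines, hc]
  · rw [← dline_eq (l := ((some s, c) : Lne q)) rfl hs1, blk_dline D hs1]
    by_cases hG : s ∈ D.G (c / (1 - s))
    · simp [hG, Data.lines]
      exact ⟨s, hG, rfl⟩
    · simp [hG, Data.lines, h0, hs1]

lemma blk_extra (l : Lne q) : D.extra (D.blk l) = ∅ := by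
  obtain ⟨o, c⟩ := l
  cases o with
  | none => rfl
  | some s =>
    simp only [Data.blk]
    split_ifs <;> rfl

lemma blk_of_mem_lines (hD : D.Wf) {B : Blk q W P} {l : Lne q} (h : l ∈ D.lines B) :
    D.blk l = B := by
  obtain ⟨c, v⟩ := B
  rcases c with θ | u | i <;> cases v <;> simp [Data.lines] at h
  · split_ifs at h with hs
    · exact absurd h (List.not_mem_nil)
    · simp at h
      subst h
      push Not at hs
      rw [blk_dline D hs.2.1, if_neg hs.2.2]
  · obtain ⟨s, hs, rfl⟩ := h
    rw [blk_dline D (D.G_ne_zero hD hs).2, if_pos hs]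
  · split_ifs at h with hs
    · exact absurd h (List.not_mem_nil)
    · simp at h
      subst h
      simp [Data.blk]

lemma lines_blk_eq {l : Lne q} (h : IsOrd l)
    (hg : ∀ θ, D.blk l ≠ (Sum.inl θ, .grp)) : D.lines (D.blk l) = {l} := by
  have hmem := lines_blk (D := D) h
  have hcard : (D.lines (D.blk l)).card ≤ 1 := by
    generalize hB : D.blk l = B
    obtain ⟨c, v⟩ := B
    rcases c with θ | u | i <;> cases v <;> simp [Data.lines]
    · split_ifs <;> simp
    · exact absurd hB (hg θ)
    · split_ifs <;> simp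
  exact ((Finset.eq_singleton_iff_unique_mem).mpr
    ⟨hmem, fun x hx => Finset.card_le_one.mp hcard x hx l hmem⟩)

/-- An element in a vertex lies on one of its lines or in its exceptional set. -/
lemma covered_point {a b : ZMod q} (h : a ≠ b) (c : Cls q W) :
    (∃ l ∈ D.lines (c, D.val (Sum.inl (a, b)) c), OnL q l (a, b)) ∨
      (a, b) ∈ D.extra (c, D.val (Sum.inl (a, b)) c) := by
  rcases c with θ | u | i
  · simp only [Data.val]
    by_cases h1 : a = θ
    · subst h1; right; simp [Data.extra]
    by_cases h2 : b = θ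
    · subst h2; right; simp [Data.extra, h]
    left
    have ha : a - θ ≠ 0 := sub_ne_zero.mpr h1
    have hon : OnL q (dline θ ((b - θ) / (a - θ))) (a, b) := by
      rw [onL_dline, div_mul_cancel₀ _ ha]
    simp only [if_neg h1, if_neg h2]
    by_cases hG : (b - θ) / (a - θ) ∈ D.G θ
    · refine ⟨_, ?_, hon⟩
      simp only [if_pos hG, Data.lines]
      exact Finset.mem_image_of_mem _ hG
    · refine ⟨_, ?_, hon⟩
      have h0 : (b - θ) / (a - θ) ≠ 0 := div_ne_zero (sub_ne_zero.mpr h2) ha
      have h1' : (b - θ) / (a - θ) ≠ 1 := by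
        intro e
        rw [div_eq_one_iff_eq ha] at e
        exact h (by linear_combination -e)
      simp [hG, Data.lines, h0, h1']
  · left
    refine ⟨(some 1, -(a - b)), ?_, ?_⟩
    · simp [Data.val, Data.lines, sub_ne_zero.mpr h]
    · simp [OnL]
  · right
    simp [Data.val, Data.extra]

variable (D)

/-- The label line contained in a vertex, if any. -/
noncomputable def Data.rlines (B : Blk q W P) : Finset (Lne P) :=
  match B with
  | (Sum.inl _, .sl t) => by
    classical exact if h : ∃ z ∈ D.R, D.mu z = t then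
      {(some (D.eta 0), lfun (some (D.eta 0)) h.choose)} else ∅
  | (Sum.inl θ, .grp) => by
    classical exact if h : ∃ jc, D.zeta jc = θ then {(some (D.eta h.choose.1), h.choose.2)} else ∅
  | (Sum.inr (Sum.inl _), .hv x) => {(none, x)}
  | (Sum.inr (Sum.inr i), .rv v) => {(some (D.sigma i), v)}
  | _ => ∅

lemma card_rlines_le (B : Blk q W P) : (D.rlines B).card ≤ 1 := by
  obtain ⟨c, v⟩ := B
  rcases c with θ | u | i <;> cases v <;> simp [Data.rlines] <;> split_ifs <;> simp

omit [Fact q.Prime] [Fact W.Prime] in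
lemma onL_some_lfun (s : ZMod P) (z : ZMod P × ZMod P) :
    OnL P (some s, lfun (some s) z) z := by
  simp [OnL, lfun]

variable {D}

lemma covered_label (hD : D.Wf) {z : ZMod P × ZMod P} (hz : z ∈ D.R) (c : Cls q W) :
    ∃ l ∈ D.rlines (c, D.val (Sum.inr z) c), OnL P l z := by
  classical
  rcases c with θ | u | i
  · simp only [Data.val]
    split_ifs with hG
    · obtain ⟨z', hz', ⟨j, hj⟩, hmu⟩ := D.mem_G.mp hG
      have := hD.mu_inj hz' hz hmu
      subst this
      have hex : ∃ jc, D.zeta jc = θ := ⟨_, hj⟩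
      have he : hex.choose = (j, lfun (some (D.eta j)) z') := by
        apply hD.zeta_inj
        rw [hex.choose_spec, hj]
      refine ⟨_, ?_, onL_some_lfun (D.eta j) z'⟩
      simp only [Data.rlines, dif_pos hex, Finset.mem_singleton, he]
    · have hex : ∃ z' ∈ D.R, D.mu z' = D.mu z := ⟨z, hz, rfl⟩
      have he : hex.choose = z := hD.mu_inj hex.choose_spec.1 hz hex.choose_spec.2
      refine ⟨_, ?_, onL_some_lfun (D.eta 0) z⟩
      simp only [Data.rlines, dif_pos hex, Finset.mem_singleton, he]
  · exact ⟨(none, z.1), by simp [Data.val, Data.rlines], rfl⟩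
  · exact ⟨_, by simp [Data.val, Data.rlines], onL_some_lfun (D.sigma i) z⟩

end Vale.Agent.P045
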