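import Mathlib
import Vale.Agent.P045.Blocks

/-!
Quantitative requirements on the data, and elementary bounds on vertices.
-/

set_option linter.unusedSectionVars false

namespace Vale.Agent.P045

open Finset

variable {q W P : ℕ} [Fact q.Prime] [Fact W.Prime] [Fact P.Prime]

/-- Second coordinates, on the vertical line through `(a₀, b₀)`, of points on merged lines
whose vertex also contains a line through `(a₀, b₀)`. -/
def Data.strayA (D : Data q W P) (a₀ b₀ : ZMod q) : Finset (ZMod q) :=
  univ.filter fun b => ∃ θ, (∃ s ∈ D.G θ, OnL q (dline θ s) (a₀, b₀)) ∧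
    ∃ s ∈ D.G θ, OnL q (dline θ s) (a₀, b)

/-- The analogue of `strayA` on the horizontal line. -/
def Data.strayB (D : Data q W P) (a₀ b₀ : ZMod q) : Finset (ZMod q) :=
  univ.filter fun a => ∃ θ, (∃ s ∈ D.G θ, OnL q (dline θ s) (a₀, b₀)) ∧
    ∃ s ∈ D.G θ, OnL q (dline θ s) (a, b₀)

/-- Counting properties of the data. -/
structure Data.Good (D : Data q W P) (f m0 m1 T2 : ℕ) : Prop where
  wf : D.Wf
  card_I : D.I.card = 65536
  card_R : D.R.card ≤ 32768 * P
  line_R : ∀ l, (D.R.filter fun z => OnL P l z).card ≤ 65536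
  cover_R : ∀ S : Finset (Lne P), S.card ≤ P → (∀ o, slopeCount P S o < P) →
    ∃ z ∈ D.R, ∀ l ∈ S, ¬ OnL P l z
  fib_le : ∀ j v, (univ.filter fun a => D.phi j a = v).card ≤ f
  fib_ge : ∀ j v, m0 ≤ (univ.filter fun a => D.phi j a = v).card
  mult : ∀ z, (univ.filter fun a => D.lam a = z).card ≤ 40
  overlap : ∀ s c : ZMod q, s ≠ 0 → (s = 1 → c ≠ 0) → ∀ i u v,
    (univ.filter fun a => D.phi (some i) a = u ∧ D.phi (some i) (s * a + c) = v).card ≤ 400
  col_ge : ∀ i v k, m1 ≤ (univ.filter fun b => D.phi (some i) b = v ∧ D.col i b = k).card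
  stray_A : ∀ a₀ b₀ j v, ((D.strayA a₀ b₀).filter fun b => D.phi j b = v).card ≤ T2
  stray_B : ∀ a₀ b₀ j v, ((D.strayB a₀ b₀).filter fun a => D.phi j a = v).card ≤ T2

/-- Bound for the number of vertices without lines in a small cover. -/
def E0 (W P : ℕ) : ℕ := 2 * (W + 65536 * P + 1) + 65536 * W

/-- Bound for the number of uncovered points. -/
def U0 (q W P f : ℕ) : ℕ := q + 65536 * W * (f * f) + E0 W P * (f * f)

/-- Numerical requirements. -/
structure Num (q W P f m0 m1 T2 m A0 : ℕ) : Prop where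
  hP : P = W + 2
  f_sq : 2 * (f * f) ≤ q
  f_pos : 1 ≤ f
  hU : U0 q W P f + q < (m + 1) ^ 2
  hU' : U0 q W P f ≤ (W + 65536 * P + 2 * m) * q
  hK : 100 * (W + 65536 * P + 2 * m) ≤ q
  hbig : 2000 * (65536 * W + 65536 * P + 65536) ≤ q
  hm0 : f + 1 ≤ 2 * (m0 - 2621481)
  hA0 : 262148 * m0 + 2 * (W + 65537 + 65536 * P) <
    (A0 + 1) * (2 * (m0 - 2621481) - f)
  hm01 : m1 ≤ m0
  hm1 : 2621481 + A0 * 65577 + T2 < m1

variable {D : Data q W P} {f m0 m1 T2 : ℕ}

lemma card_G_le (h : D.Good f m0 m1 T2) (θ : ZMod q) : (D.G θ).card ≤ 65536 := by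
  refine Finset.card_image_le.trans ?_
  by_cases hne : (D.R.filter fun z => ∃ j, D.zeta (j, lfun (some (D.eta j)) z) = θ).Nonempty
  · obtain ⟨z₀, hz₀⟩ := hne
    simp only [mem_filter] at hz₀
    obtain ⟨j, hj⟩ := hz₀.2
    refine le_trans (Finset.card_le_card ?_)
      (h.line_R (some (D.eta j), lfun (some (D.eta j)) z₀))
    intro z hz
    simp only [mem_filter] at hz ⊢
    obtain ⟨k, hk⟩ := hz.2
    have e := h.wf.zeta_inj (hk.trans hj.symm)
    simp only [Prod.mk.injEq] at e
    obtain ⟨rfl, e⟩ := e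
    exact ⟨hz.1, e ▸ onL_some_lfun (D.eta k) z⟩
  · rw [Finset.not_nonempty_iff_eq_empty.mp hne]
    simp

lemma sum_card_G (h : D.Good f m0 m1 T2) : ∑ θ : ZMod q, (D.G θ).card ≤ 65536 * P := by
  calc ∑ θ : ZMod q, (D.G θ).card
      ≤ ∑ θ : ZMod q, (D.R.filter fun z => ∃ j, D.zeta (j, lfun (some (D.eta j)) z) = θ).card :=
        Finset.sum_le_sum fun θ _ => Finset.card_image_le
    _ = ∑ z ∈ D.R,
          (univ.filter fun θ => ∃ j, D.zeta (j, lfun (some (D.eta j)) z) = θ).card := by
        simp only [Finset.card_filter]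
        exact Finset.sum_comm
    _ ≤ ∑ _z ∈ D.R, 2 := by
        refine Finset.sum_le_sum fun z _ => ?_
        refine le_trans (Finset.card_le_card (t := (univ : Finset (Fin 2)).image
          fun j => D.zeta (j, lfun (some (D.eta j)) z)) ?_) (Finset.card_image_le.trans (by simp))
        intro θ hθ
        simpa using hθ
    _ ≤ 65536 * P := by
        have := h.card_R
        simp
        omega

variable (D) in
/-- All merged lines. -/
def Data.merged : Finset (Lne q) := univ.biUnion fun θ => (D.G θ).image (dline θ)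

lemma card_merged (h : D.Good f m0 m1 T2) : D.merged.card ≤ 65536 * P :=
  (Finset.card_biUnion_le.trans (Finset.sum_le_sum fun _ _ => Finset.card_image_le)).trans
    (sum_card_G h)

lemma mem_merged_of_grp {θ : ZMod q} {l : Lne q} (hl : l ∈ D.lines (Sum.inl θ, .grp)) :
    l ∈ D.merged := by
  simp only [Data.lines] at hl
  exact Finset.mem_biUnion.mpr ⟨θ, Finset.mem_univ _, hl⟩

lemma card_lines_le (B : Blk q W P) : (D.lines B \ D.merged).card ≤ 1 := by
  obtain ⟨c, v⟩ := B
  rcases c with θ | u | i <;> cases v <;>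
    first
    | (simp [Data.lines]; done)
    | skip
  · refine (Finset.card_le_card Finset.sdiff_subset).trans ?_
    simp only [Data.lines]
    split_ifs <;> simp
  · rw [Finset.sdiff_eq_empty_iff_subset.mpr fun l hl => mem_merged_of_grp hl]
    simp
  · refine (Finset.card_le_card Finset.sdiff_subset).trans ?_
    simp only [Data.lines]
    split_ifs <;> simp

lemma card_biUnion_lines (T : Finset (Blk q W P)) :
    (T.biUnion D.lines \ D.merged).card ≤ T.card := by
  have : T.biUnion D.lines \ D.merged ⊆ T.biUnion fun B => D.lines B \ D.merged := by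
    intro l hl
    simp only [mem_sdiff, mem_biUnion] at hl ⊢
    obtain ⟨⟨B, hB, hl⟩, hm⟩ := hl
    exact ⟨B, hB, hl, hm⟩
  refine (Finset.card_le_card this).trans (Finset.card_biUnion_le.trans ?_)
  rw [Finset.card_eq_sum_ones T]
  exact Finset.sum_le_sum fun B _ => card_lines_le B

lemma card_lines_le' (h : D.Good f m0 m1 T2) (B : Blk q W P) :
    (D.lines B).card ≤ 65537 := by
  obtain ⟨c, v⟩ := B
  rcases c with θ | u | i <;> cases v <;> simp [Data.lines]
  · split_ifs <;> simp
  · exact Finset.card_image_le.trans ((card_G_le h θ).trans (by norm_num))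
  · split_ifs <;> simp

lemma card_extra_le (h : D.Good f m0 m1 T2) (hf : 1 ≤ f) (B : Blk q W P) :
    (D.extra B).card ≤ f * f := by
  obtain ⟨c, v⟩ := B
  rcases c with θ | u | i <;> cases v <;> simp only [Data.extra, Finset.card_empty, Nat.zero_le]
  · exact Finset.card_image_le.trans ((h.fib_le none _).trans (Nat.le_mul_of_pos_left f hf))
  · exact Finset.card_image_le.trans ((h.fib_le none _).trans (Nat.le_mul_of_pos_left f hf))
  · refine (Finset.card_filter_le _ _).trans ?_
    rw [Finset.card_product]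
    exact Nat.mul_le_mul (h.fib_le _ _) (h.fib_le _ _)

lemma lines_eq_empty_of_extra {B : Blk q W P} (hB : D.extra B ≠ ∅) : D.lines B = ∅ := by
  obtain ⟨c, v⟩ := B
  rcases c with θ | u | i <;> cases v <;> simp [Data.lines, Data.extra] at hB ⊢

variable (D) in
/-- The omitted points. -/
def Data.omSet : Finset (ZMod q × ZMod q) := univ.filter fun z => D.Om z.1 z.2

lemma card_omSet (h : D.Good f m0 m1 T2) : D.omSet.card ≤ 65536 * W * (f * f) := by
  have hs : D.omSet ⊆ (D.I ×ˢ (univ : Finset (ZMod W))).biUnion fun iu =>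
      (univ.filter fun a => D.phi (some iu.1) a = iu.2) ×ˢ
        (univ.filter fun b => D.phi (some iu.1) b = iu.2) := by
    rintro ⟨a, b⟩ hab
    simp only [Data.omSet, mem_filter, mem_univ, true_and] at hab
    obtain ⟨i, hi, he, -⟩ := hab
    simp
    exact ⟨i, hi, he.symm⟩
  refine (Finset.card_le_card hs).trans (Finset.card_biUnion_le.trans ?_)
  refine le_trans (Finset.sum_le_sum (g := fun _ => f * f) fun iu _ => ?_) ?_
  · rw [Finset.card_product]
    exact Nat.mul_le_mul (h.fib_le _ _) (h.fib_le _ _)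
  · simp [h.card_I]

end Vale.Agent.P045
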