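import Mathlib
import Vale.Agent.P045.Bounds

/-!
A small cover consists, up to few vertices, of all lines through one projective point.
-/

set_option linter.unusedSectionVars false

namespace Vale.Agent.P045

open Finset

variable {q W P : ℕ} [Fact q.Prime] [Fact W.Prime] [Fact P.Prime]
variable {D : Data q W P} {f m0 m1 T2 m A0 : ℕ}

variable (D) in
/-- `C` meets every edge. -/
def Data.IsCover (C : Finset (Blk q W P)) : Prop :=
  ∀ e, D.IsEdge e → ∃ c, (c, D.val e c) ∈ C

/-- The admissible lines through a projective point. -/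
def ordPencil (x : PPt q) : Finset (Lne q) := (pencil q x).filter fun l => IsOrd l

lemma card_onL_filter_le_one {l : Lne q} (hl : IsOrd l) (θ : ZMod q) :
    (univ.filter fun z => OnL q l z ∧ (z.1 = θ ∨ z.2 = θ)).card ≤ 2 := by
  obtain ⟨s, hs, h0, -⟩ := hl
  obtain ⟨o, c⟩ := l
  simp at hs
  subst hs
  refine le_trans (Finset.card_le_card (t := {(θ, s * θ + c), ((θ - c) / s, θ)}) ?_)
    Finset.card_le_two
  rintro ⟨x, y⟩ hz
  simp only [mem_filter] at hz
  simp [OnL] at hz ⊢
  obtain ⟨h1, rfl | rfl⟩ := hz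
  · exact Or.inl ⟨rfl, h1⟩
  · refine Or.inr ⟨?_, rfl⟩
    field_simp
    linear_combination -h1

lemma card_diag_onL {l : Lne q} (hl : IsOrd l) :
    (univ.filter fun z => OnL q l z ∧ z.1 = z.2).card ≤ 1 := by
  obtain ⟨s, hs, h0, h1⟩ := hl
  obtain ⟨o, c⟩ := l
  simp at hs
  subst hs
  rw [Finset.card_le_one]
  rintro ⟨x, y⟩ hz ⟨x', y'⟩ hz'
  simp only [mem_filter] at hz hz'
  simp [OnL] at hz hz' h1 ⊢
  obtain ⟨e1, rfl⟩ := hz
  obtain ⟨e2, rfl⟩ := hz'
  have : (s - 1) * (x - x') = 0 := by linear_combination e2 - e1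
  rcases mul_eq_zero.mp this with h | h
  · have hs := sub_eq_zero.mp h
    subst hs
    exact absurd (by linear_combination -e1) (h1 rfl)
  · exact ⟨sub_eq_zero.mp h, sub_eq_zero.mp h⟩

lemma card_om_onL (h : D.Good f m0 m1 T2) {l : Lne q} (hl : IsOrd l) :
    (univ.filter fun z => OnL q l z ∧ D.Om z.1 z.2).card ≤ 65536 * W * 400 := by
  obtain ⟨s, hs, h0, h1⟩ := hl
  obtain ⟨o, c⟩ := l
  simp at hs
  subst hs
  have hsub : (univ.filter fun z => OnL q ((some s, c) : Lne q) z ∧ D.Om z.1 z.2) ⊆
      (D.I ×ˢ (univ : Finset (ZMod W))).biUnion fun iu =>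
        (univ.filter fun a => D.phi (some iu.1) a = iu.2 ∧
          D.phi (some iu.1) (s * a + c) = iu.2).image fun a => (a, s * a + c) := by
    rintro ⟨a, b⟩ hz
    simp only [mem_filter, mem_univ, true_and] at hz
    simp only [OnL] at hz
    obtain ⟨rfl, i, hi, he, -⟩ := hz
    simp
    exact ⟨i, hi, he.symm⟩
  refine (Finset.card_le_card hsub).trans (Finset.card_biUnion_le.trans ?_)
  refine le_trans (Finset.sum_le_sum (g := fun _ => 400) fun iu _ => ?_) ?_
  · exact Finset.card_image_le.trans (h.overlap s c h0 h1 _ _ _)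
  · simp [h.card_I]

lemma card_extra_onL (h : D.Good f m0 m1 T2) {l : Lne q} (hl : IsOrd l) (B : Blk q W P) :
    ((D.extra B).filter fun z => OnL q l z).card ≤ 400 := by
  obtain ⟨c, v⟩ := B
  have key : ∀ θ : ZMod q, ∀ X : Finset (ZMod q × ZMod q), (∀ z ∈ X, z.1 = θ ∨ z.2 = θ) →
      (X.filter fun z => OnL q l z).card ≤ 400 := by
    intro θ X hX
    refine le_trans (Finset.card_le_card ?_) (le_trans (card_onL_filter_le_one hl θ) (by norm_num))
    intro z hz
    simp only [mem_filter] at hz ⊢
    exact ⟨Finset.mem_univ _, hz.2, hX z hz.1⟩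
  rcases c with θ | u | i <;> cases v <;>
    first
    | (simp [Data.extra]; done)
    | skip
  · exact key θ _ fun z hz => by simp [Data.extra] at hz; obtain ⟨b, -, rfl⟩ := hz; simp
  · exact key θ _ fun z hz => by simp [Data.extra] at hz; obtain ⟨b, -, rfl⟩ := hz; simp
  · rename_i u v k
    obtain ⟨s, hs, h0, h1⟩ := hl
    obtain ⟨o, cc⟩ := l
    simp at hs
    subst hs
    refine le_trans (Finset.card_le_card (t := (univ.filter fun a => D.phi (some i) a = u ∧
      D.phi (some i) (s * a + cc) = v).image fun a => (a, s * a + cc)) ?_)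
      (Finset.card_image_le.trans (h.overlap s cc h0 h1 i u v))
    rintro ⟨a, b⟩ hz
    simp only [mem_filter] at hz
    simp [Data.extra, OnL] at hz ⊢
    obtain ⟨⟨⟨ha, hb⟩, -⟩, rfl⟩ := hz
    exact ⟨⟨ha, hb⟩, rfl⟩

variable {C : Finset (Blk q W P)}

lemma cover_point (hC : D.IsCover C) {a b : ZMod q} (hab : a ≠ b) (hom : ¬ D.Om a b) :
    (∃ l ∈ C.biUnion D.lines, OnL q l (a, b)) ∨ ∃ B ∈ C, (a, b) ∈ D.extra B := by
  obtain ⟨c, hc⟩ := hC (Sum.inl (a, b)) ⟨hab, hom⟩
  rcases covered_point (D := D) hab c with ⟨l, hl, hon⟩ | h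
  · exact Or.inl ⟨l, Finset.mem_biUnion.mpr ⟨_, hc, hl⟩, hon⟩
  · exact Or.inr ⟨_, hc, h⟩

/-- The lines of a small cover are almost all concurrent. -/
theorem exists_centre (h : D.Good f m0 m1 T2) (hN : Num q W P f m0 m1 T2 m A0)
    (hC : D.IsCover C) (hs : C.card ≤ q + W) :
    ∃ x : PPt q,
      q ≤ (C.biUnion D.lines ∩ ordPencil x).card + 5 * (W + 65536 * P + 2 * m) + 3 ∧
      ∀ z, x = Sum.inl z → ∃ s, z = some s ∧ s ≠ 0 := by
  classical
  set S := C.biUnion D.lines with hS
  set Ce := C.filter fun B => D.extra B ≠ ∅ with hCe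
  set U := uncov q S with hUdef
  have hUsub : U ⊆ (univ.filter fun z : ZMod q × ZMod q => z.1 = z.2) ∪ D.omSet ∪
      Ce.biUnion D.extra := by
    rintro ⟨a, b⟩ hz
    rw [hUdef, mem_uncov] at hz
    by_cases hab : a = b
    · simp [hab]
    by_cases hom : D.Om a b
    · simp [Data.omSet, hom]
    rcases cover_point hC hab hom with ⟨l, hl, hon⟩ | ⟨B, hB, hx⟩
    · exact absurd hon (hz l hl)
    · refine Finset.mem_union_right _ (Finset.mem_biUnion.mpr ⟨B, ?_, hx⟩)
      simp [hCe, hB]
      intro he; rw [he] at hx; simp at hx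
  have hdiag : (univ.filter fun z : ZMod q × ZMod q => z.1 = z.2).card ≤ q := by
    refine le_trans (Finset.card_le_card
      (t := (univ : Finset (ZMod q)).image fun a => (a, a)) ?_) (Finset.card_image_le.trans ?_)
    · intro z hz
      simp at hz ⊢
      exact ⟨z.1, Prod.ext rfl hz⟩
    · simp
  have hUcard : U.card ≤ q + 65536 * W * (f * f) + Ce.card * (f * f) := by
    refine (Finset.card_le_card hUsub).trans ((Finset.card_union_le _ _).trans ?_)
    refine add_le_add ((Finset.card_union_le _ _).trans (add_le_add hdiag (card_omSet h))) ?_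
    refine Finset.card_biUnion_le.trans ?_
    rw [← smul_eq_mul, ← Finset.sum_const]
    exact Finset.sum_le_sum fun B _ => card_extra_le h hN.f_pos B
  -- few vertices without lines
  have hSsub : S ⊆ ((C \ Ce).biUnion D.lines \ D.merged) ∪ D.merged := by
    intro l hl
    by_cases hm : l ∈ D.merged
    · simp [hm]
    simp only [hS, mem_biUnion] at hl
    obtain ⟨B, hB, hlB⟩ := hl
    refine Finset.mem_union_left _ (Finset.mem_sdiff.mpr ⟨Finset.mem_biUnion.mpr ⟨B, ?_, hlB⟩, hm⟩)
    simp [hCe, hB]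
    by_contra he
    rw [lines_eq_empty_of_extra he] at hlB
    simp at hlB
  have hn : S.card + Ce.card ≤ q + W + 65536 * P := by
    have h1 := (Finset.card_le_card hSsub).trans ((Finset.card_union_le _ _).trans
      (add_le_add (card_biUnion_lines (C \ Ce)) (card_merged h)))
    have hsub : Ce ⊆ C := Finset.filter_subset _ _
    rw [Finset.card_sdiff_of_subset hsub] at h1
    have := Finset.card_le_card hsub
    omega
  have hlow : q * q ≤ S.card * q + U.card := by
    have hsub : (univ : Finset (ZMod q × ZMod q)) ⊆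
        (S.biUnion fun l => univ.filter fun z => OnL q l z) ∪ U := by
      intro z _
      by_cases hz : z ∈ U
      · simp [hz]
      · refine Finset.mem_union_left _ ?_
        simpa [hUdef, mem_uncov] using hz
    have h1 := (Finset.card_le_card hsub).trans ((Finset.card_union_le _ _).trans
      (Nat.add_le_add_right (Finset.card_biUnion_le) _))
    simp only [card_onL, Finset.sum_const, smul_eq_mul] at h1
    simpa using h1
  have hE : Ce.card ≤ E0 W P := by
    have hW : 1 ≤ W := (Fact.out : W.Prime).one_lt.le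
    have := hN.f_sq
    have hq : 0 < q := (Fact.out : q.Prime).pos
    have key : Ce.card * q ≤ E0 W P * q := by
      have := Nat.mul_le_mul_left Ce.card this
      have := Nat.mul_le_mul_right q hn
      have := Nat.mul_le_mul_left (65536 * W) hN.f_sq
      unfold E0
      nlinarith
    exact Nat.le_of_mul_le_mul_right key hq
  have hU0 : U.card ≤ U0 q W P f := by
    refine hUcard.trans ?_
    unfold U0
    exact add_le_add le_rfl (Nat.mul_le_mul_right _ hE)
  set K := W + 65536 * P + 2 * m with hKdef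
  have hnq : q ≤ S.card + K := by
    have hq : 0 < q := (Fact.out : q.Prime).pos
    refine Nat.le_of_mul_le_mul_right ?_ hq
    rw [add_mul]
    exact hlow.trans (Nat.add_le_add_left (hU0.trans hN.hU') _)
  have hK := hN.hK
  rw [← hKdef] at hK
  have hU' := hN.hU'
  rw [← hKdef] at hU'
  have hq0 : 0 < q := (Fact.out : q.Prime).pos
  have hsmallS : S.card ≤ q + W + 65536 * P := by omega
  have hbig : S.card * (2 * q + 2 * K + 4) + 2 * U.card < 2 * q ^ 2 + S.card ^ 2 := by
    have hW : 2 ≤ W := (Fact.out : W.Prime).two_le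
    have h1 : S.card ≤ 2 * q := by omega
    have h2 : S.card * (2 * K + 4) ≤ 2 * q * (2 * K + 4) := Nat.mul_le_mul_right _ h1
    nlinarith [sq_nonneg ((S.card : ℤ) - q)]
  have key := stability q S U m K
    (fun z hz => by simpa [hUdef, mem_uncov] using hz)
    (lt_of_le_of_lt (Nat.add_le_add_right hU0 q) hN.hU)
    (by omega) (by omega) hbig
  have hord : ∀ l ∈ S, IsOrd l := by
    intro l hl
    obtain ⟨B, -, hlB⟩ := Finset.mem_biUnion.mp hl
    exact isOrd_of_mem_lines h.wf hlB
  have hW : 2 ≤ W := (Fact.out : W.Prime).two_le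
  rcases key with ⟨o, ho⟩ | ⟨z, hz⟩
  · have hsub : (S.filter fun l => l.1 = o).card ≤ (S ∩ ordPencil (Sum.inl o)).card := by
      apply Finset.card_le_card
      intro l hl
      simp [ordPencil, pencil, Thru] at hl ⊢
      exact ⟨hl.1, hl.2, hord l hl.1⟩
    refine ⟨Sum.inl o, ?_, ?_⟩
    · simp only [slopeCount] at ho
      omega
    · intro z hz
      simp at hz
      subst hz
      have hne : (S.filter fun l => l.1 = o).Nonempty := by
        rw [← Finset.card_pos]
        simp only [slopeCount] at ho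
        omega
      obtain ⟨l, hl⟩ := hne
      simp at hl
      obtain ⟨s, hs, h0, -⟩ := hord l hl.1
      exact ⟨s, hl.2 ▸ hs, h0⟩
  · have hsub : (S.filter fun l => OnL q l z).card ≤ (S ∩ ordPencil (Sum.inr z)).card := by
      apply Finset.card_le_card
      intro l hl
      simp [ordPencil, pencil, Thru] at hl ⊢
      exact ⟨hl.1, hl.2, hord l hl.1⟩
    refine ⟨Sum.inr z, ?_, by simp⟩
    simp only [pointCount] at hz
    omega

end Vale.Agent.P045
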