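import Mathlib
import Vale.Agent.P045.Cover

/-!
A small cover contains every line through its centre; centres at infinity are impossible.
-/

set_option linter.unusedSectionVars false

namespace Vale.Agent.P045

open Finset

variable {q W P : ℕ} [Fact q.Prime] [Fact W.Prime] [Fact P.Prime]
variable {D : Data q W P} {f m0 m1 T2 m A0 : ℕ}

/-- Two lines through a common point of the pencil have different vertices, except at a diagonal
centre. -/
lemma blk_inj {x : PPt q} (hx : ∀ θ, x ≠ Sum.inr (θ, θ)) :
    Set.InjOn D.blk (ordPencil x : Set (Lne q)) := by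
  intro l hl l' hl' he
  simp only [Finset.mem_coe, ordPencil, pencil, mem_filter, mem_univ, true_and] at hl hl'
  obtain ⟨s, hs, h0, h1⟩ := hl.2
  obtain ⟨s', hs', h0', h1'⟩ := hl'.2
  obtain ⟨o, c⟩ := l
  obtain ⟨o', c'⟩ := l'
  simp at hs hs'
  subst hs hs'
  by_cases e1 : s = 1
  · subst e1
    by_cases e2 : s' = 1
    · subst e2
      simp [Data.blk] at he
      rw [he]
    · simp [Data.blk, e2] at he
  · by_cases e2 : s' = 1
    · subst e2
      simp [Data.blk, e1] at he
    · simp [Data.blk, e1, e2] at he
      obtain ⟨hθ, he⟩ := he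
      set θ := c / (1 - s) with hθd
      have d1 : ((some s, c) : Lne q) = dline θ s := (dline_eq rfl e1).symm
      have d2 : ((some s', c') : Lne q) = dline θ s' := by
        rw [hθ]; exact (dline_eq rfl e2).symm
      cases x with
      | inl o =>
        have a1 := hl.1
        have a2 := hl'.1
        simp [Thru] at a1 a2
        have e3 : s = s' := Option.some.inj (a1.trans a2.symm)
        rw [d1, d2, e3]
      | inr z =>
        by_contra hne
        have hc := centre_of_thru q (q := Sum.inr z) (z := (θ, θ)) hne hl.1 hl'.1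
          (by rw [d1, onL_dline]; ring) (by rw [d2, onL_dline]; ring)
        exact hx θ hc

/-- At a diagonal centre only the merged lines share a vertex. -/
lemma card_pencil_le_image (h : D.Good f m0 m1 T2) (x : PPt q) :
    (ordPencil x).card ≤ ((ordPencil x).image D.blk).card + 65535 ∧
      ((∀ θ, x ≠ Sum.inr (θ, θ)) → (ordPencil x).card ≤ ((ordPencil x).image D.blk).card) := by
  have hinj : (∀ θ, x ≠ Sum.inr (θ, θ)) →
      (ordPencil x).card ≤ ((ordPencil x).image D.blk).card := fun hx =>
    le_of_eq (Finset.card_image_of_injOn (blk_inj hx)).symm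
  refine ⟨?_, hinj⟩
  by_cases hx : ∀ θ, x ≠ Sum.inr (θ, θ)
  · have := hinj hx; omega
  push Not at hx
  obtain ⟨θ, rfl⟩ := hx
  have hform : ∀ l ∈ ordPencil (Sum.inr (θ, θ)), ∃ s : ZMod q, l = dline θ s ∧ s ≠ 1 := by
    intro l hl
    simp only [ordPencil, pencil, mem_filter, mem_univ, true_and, Thru] at hl
    obtain ⟨hon, s, hs, h0, h1⟩ := hl
    obtain ⟨o, c⟩ := l
    simp at hs
    subst hs
    simp [OnL] at hon
    refine ⟨s, ?_, ?_⟩
    · simp [dline]; linear_combination -hon
    · intro e; subst e; exact h1 rfl (show c = 0 by linear_combination -hon)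
  set g : Blk q W P := (Sum.inl θ, .grp)
  set M := ordPencil (Sum.inr (θ, θ) : PPt q)
  have hsub : M.filter (fun l => D.blk l = g) ⊆ (D.G θ).image (dline θ) := by
    intro l hl
    simp only [mem_filter] at hl
    obtain ⟨s, rfl, hs⟩ := hform l hl.1
    have e := hl.2
    rw [blk_dline D hs] at e
    by_cases hG : s ∈ D.G θ
    · exact Finset.mem_image_of_mem _ hG
    · simp [g, hG] at e
  have h1 : (M.filter (fun l => D.blk l = g)).card ≤ 65536 :=
    (Finset.card_le_card hsub).trans (Finset.card_image_le.trans (card_G_le h θ))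
  have h2 : (M.filter (fun l => ¬ D.blk l = g)).card ≤ ((M.image D.blk).erase g).card := by
    refine Finset.card_le_card_of_injOn D.blk ?_ ?_
    · intro l hl
      simp only [Finset.mem_coe, mem_filter] at hl
      exact Finset.mem_erase.mpr ⟨hl.2, Finset.mem_image_of_mem _ hl.1⟩
    · intro l hl l' hl' e
      simp only [Finset.mem_coe, mem_filter] at hl hl'
      obtain ⟨s, rfl, hs⟩ := hform l hl.1
      obtain ⟨s', rfl, hs'⟩ := hform l' hl'.1
      have e1 := hl.2
      have e2 := hl'.2
      rw [blk_dline D hs] at e e1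
      rw [blk_dline D hs'] at e e2
      by_cases hG : s ∈ D.G θ
      · simp [g, hG] at e1
      by_cases hG' : s' ∈ D.G θ
      · simp [g, hG'] at e2
      simp [hG, hG'] at e
      rw [e]
  have h3 := Finset.card_filter_add_card_filter_not (s := M) (fun l => D.blk l = g)
  by_cases hg : g ∈ M.image D.blk
  · rw [Finset.card_erase_of_mem hg] at h2
    have : 0 < (M.image D.blk).card := Finset.card_pos.mpr ⟨g, hg⟩
    omega
  · have h4 : M.filter (fun l => D.blk l = g) = ∅ := by
      rw [Finset.filter_eq_empty_iff]
      intro l hl e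
      exact hg (e ▸ Finset.mem_image_of_mem _ hl)
    rw [Finset.erase_eq_of_notMem hg] at h2
    rw [h4, Finset.card_empty] at h3
    omega

/-- Number of admissible lines through a centre. -/
lemma card_ordPencil (x : PPt q) (hx : ∀ z, x = Sum.inl z → ∃ s, z = some s ∧ s ≠ 0) :
    q ≤ (ordPencil x).card + 2 ∧ (ordPencil x).card ≤ q + 1 ∧
    (∀ a b, x = Sum.inr (a, b) → a ≠ b → q ≤ (ordPencil x).card + 1) ∧
    (∀ s, x = Sum.inl (some s) → q ≤ (ordPencil x).card + 1 ∧
      (s ≠ 1 → q ≤ (ordPencil x).card)) := by
  cases x with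
  | inl z =>
    obtain ⟨s, rfl, hs⟩ := hx z rfl
    have heq : (ordPencil (Sum.inl (some s) : PPt q)) =
        ((univ : Finset (ZMod q)).filter fun c => s = 1 → c ≠ 0).image
          fun c => ((some s, c) : Lne q) := by
      ext ⟨o, c⟩
      simp only [ordPencil, pencil, mem_filter, mem_univ, true_and]
      simp [Thru, IsOrd]
      constructor
      · rintro ⟨rfl, s', hs', -, h1⟩
        simp at hs'
        subst hs'
        exact ⟨h1, rfl⟩
      · rintro ⟨h1, rfl⟩
        exact ⟨rfl, s, rfl, hs, h1⟩
    have hc : (ordPencil (Sum.inl (some s) : PPt q)).card =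
        ((univ : Finset (ZMod q)).filter fun c => s = 1 → c ≠ 0).card := by
      rw [heq, Finset.card_image_of_injective _ (fun a b h => congrArg Prod.snd h)]
    have h1 : ((univ : Finset (ZMod q)).filter fun c => s = 1 → c ≠ 0).card ≤ q := by
      refine (Finset.card_filter_le _ _).trans (by simp)
    have h2 : q ≤ ((univ : Finset (ZMod q)).filter fun c => s = 1 → c ≠ 0).card + 1 := by
      have hsub : (univ : Finset (ZMod q)) ⊆
          insert 0 ((univ : Finset (ZMod q)).filter fun c => s = 1 → c ≠ 0) := by
        intro c _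
        by_cases hc : c = 0 <;> simp [hc]
      have := (Finset.card_le_card hsub).trans (Finset.card_insert_le _ _)
      simpa using this
    refine ⟨by omega, by omega, by simp, ?_⟩
    intro t ht
    simp at ht
    subst ht
    refine ⟨by omega, fun h => ?_⟩
    rw [hc]
    simp [h]
  | inr z =>
    obtain ⟨a, b⟩ := z
    set bad : Finset (ZMod q) := if a = b then {0, 1} else {0}
    have hsub : ((univ : Finset (ZMod q)) \ bad).image
        (fun s => ((some s, b - s * a) : Lne q)) ⊆ ordPencil (Sum.inr (a, b)) := by
      intro l hl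
      simp at hl
      obtain ⟨s, hs, rfl⟩ := hl
      simp only [ordPencil, pencil, mem_filter, mem_univ, true_and]
      simp [Thru, IsOrd, OnL]
      refine ⟨?_, ?_⟩
      · rintro rfl; apply hs; simp [bad]; split_ifs <;> simp
      · intro e
        subst e
        intro hc
        have hab : a = b := by linear_combination -hc
        exact hs (by simp [bad, hab])
    have h1 := Finset.card_le_card hsub
    rw [Finset.card_image_of_injective _ (fun s t e => Option.some.inj (congrArg Prod.fst e)),
      Finset.card_sdiff_of_subset (Finset.subset_univ _), Finset.card_univ, ZMod.card] at h1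
    have h2 : bad.card ≤ 2 := by
      simp only [bad]; split_ifs
      · exact Finset.card_le_two
      · simp
    have h3 : (ordPencil (Sum.inr (a, b))).card ≤ q + 1 := by
      have hinj : Set.InjOn Prod.fst (ordPencil (Sum.inr (a, b)) : Set (Lne q)) := by
        intro l hl l' hl' he
        simp [ordPencil, pencil, Thru] at hl hl'
        obtain ⟨o, c⟩ := l
        obtain ⟨o', c'⟩ := l'
        simp at he
        subst he
        cases o <;> simp [OnL] at hl hl' ⊢
        · rw [← hl.1, ← hl'.1]
        · linear_combination hl'.1 - hl.1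
      have := Finset.card_le_card_of_injOn Prod.fst (t := (univ : Finset (Option (ZMod q))))
        (fun l _ => Finset.mem_univ _) hinj
      simpa using this
    refine ⟨by omega, h3, ?_, by simp⟩
    intro a' b' e hne
    simp at e
    obtain ⟨rfl, rfl⟩ := e
    have : bad.card = 1 := by simp [bad, hne]
    omega

variable {C : Finset (Blk q W P)}

/-- Every admissible line through the centre lies in the cover. -/
theorem no_holes (h : D.Good f m0 m1 T2) (hN : Num q W P f m0 m1 T2 m A0)
    (hC : D.IsCover C) (hs : C.card ≤ q + W) (x : PPt q)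
    (hx : ∀ z, x = Sum.inl z → ∃ s, z = some s ∧ s ≠ 0)
    (hbig : q ≤ (C.biUnion D.lines ∩ ordPencil x).card + 5 * (W + 65536 * P + 2 * m) + 3) :
    ordPencil x ⊆ C.biUnion D.lines := by
  classical
  set S := C.biUnion D.lines with hS
  set M := ordPencil x with hM
  set Hs := M \ S with hHs
  set off := C \ M.image D.blk with hoff
  set other := S \ M with hother
  have hM1 : q ≤ M.card + 2 := (card_ordPencil x hx).1
  have hM2 : M.card ≤ q + 1 := (card_ordPencil x hx).2.1
  have hcap : M.card ≤ (M.image D.blk).card + 65535 := (card_pencil_le_image h x).1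
  have hHcard : Hs.card + (S ∩ M).card = M.card := by
    rw [hHs, Finset.inter_comm]
    exact Finset.card_sdiff_add_card_inter M S
  have hoffc : off.card + M.card ≤ q + W + 65535 + Hs.card := by
    have h1 : (M.image D.blk).card ≤ (C ∩ M.image D.blk).card + Hs.card := by
      have hsub : M.image D.blk ⊆ (C ∩ M.image D.blk) ∪ Hs.image D.blk := by
        intro B hB
        obtain ⟨l, hl, rfl⟩ := Finset.mem_image.mp hB
        by_cases hlS : l ∈ S
        · obtain ⟨B', hB', hlB'⟩ := Finset.mem_biUnion.mp hlS
          rw [← blk_of_mem_lines h.wf hlB'] at hB'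
          exact Finset.mem_union_left _ (Finset.mem_inter.mpr ⟨hB', hB⟩)
        · exact Finset.mem_union_right _ (Finset.mem_image_of_mem _
            (Finset.mem_sdiff.mpr ⟨hl, hlS⟩))
      exact (Finset.card_le_card hsub).trans ((Finset.card_union_le _ _).trans
        (Nat.add_le_add_left Finset.card_image_le _))
    have h2 := Finset.card_sdiff_add_card_inter C (M.image D.blk)
    rw [← hoff] at h2
    omega
  have hotherc : other.card ≤ off.card + 65536 * P := by
    have hsub : other ⊆ (off.biUnion D.lines \ D.merged) ∪ D.merged := by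
      intro l hl
      simp only [hother, mem_sdiff] at hl
      by_cases hm : l ∈ D.merged
      · simp [hm]
      refine Finset.mem_union_left _ (Finset.mem_sdiff.mpr ⟨?_, hm⟩)
      obtain ⟨B, hB, hlB⟩ := Finset.mem_biUnion.mp hl.1
      refine Finset.mem_biUnion.mpr ⟨B, ?_, hlB⟩
      refine Finset.mem_sdiff.mpr ⟨hB, fun hBi => ?_⟩
      obtain ⟨l₀, hl₀, rfl⟩ := Finset.mem_image.mp hBi
      by_cases hg : ∃ θ, D.blk l₀ = (Sum.inl θ, .grp)
      · obtain ⟨θ, hθ⟩ := hg
        rw [hθ] at hlB
        exact hm (mem_merged_of_grp hlB)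
      · have hl₀' : IsOrd l₀ := by
          simp only [hM, ordPencil, mem_filter] at hl₀; exact hl₀.2
        rw [lines_blk_eq hl₀' (not_exists.mp hg), Finset.mem_singleton] at hlB
        exact hl.2 (hlB ▸ hl₀)
    exact (Finset.card_le_card hsub).trans ((Finset.card_union_le _ _).trans
      (add_le_add (card_biUnion_lines off) (card_merged h)))
  -- points of a hole
  set pts : Lne q → Finset (ZMod q × ZMod q) := fun l =>
    univ.filter fun z => OnL q l z ∧ ¬ centre q x z with hpts
  have hhole : ∀ l ∈ Hs, q ≤ 2 + 65536 * W * 400 + other.card +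
      ((off.biUnion D.extra).filter fun z => z ∈ pts l).card := by
    intro l hl
    simp only [hHs, mem_sdiff, hM, ordPencil, mem_filter, pencil, mem_univ, true_and] at hl
    obtain ⟨⟨hthru, hord⟩, hlS⟩ := hl
    have hsub : (univ.filter fun z => OnL q l z) ⊆
        (univ.filter (centre q x)) ∪ (univ.filter fun z => OnL q l z ∧ z.1 = z.2) ∪
        (univ.filter fun z => OnL q l z ∧ D.Om z.1 z.2) ∪
        (other.biUnion fun l' => univ.filter fun z => OnL q l z ∧ OnL q l' z) ∪
        ((off.biUnion D.extra).filter fun z => z ∈ pts l) := by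
      rintro ⟨a, b⟩ hz
      simp only [mem_filter, mem_univ, true_and] at hz
      by_cases hc : centre q x (a, b)
      · simp [hc]
      by_cases hab : a = b
      · simp [hab] at hz ⊢
        simp [hz]
      by_cases hom : D.Om a b
      · simp [hz, hom]
      rcases cover_point hC hab hom with ⟨l', hl', hon⟩ | ⟨B, hB, hB'⟩
      · refine Finset.mem_union_left _ (Finset.mem_union_right _ ?_)
        refine Finset.mem_biUnion.mpr ⟨l', Finset.mem_sdiff.mpr ⟨hl', fun hl'M => ?_⟩, ?_⟩
        · simp only [hM, ordPencil, mem_filter, pencil, mem_univ, true_and] at hl'M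
          exact hc (centre_of_thru q (fun e => hlS (by rw [e]; exact hl')) hthru hl'M.1 hz hon)
        · simp [hz, hon]
      · refine Finset.mem_union_right _ (Finset.mem_filter.mpr
          ⟨Finset.mem_biUnion.mpr ⟨B, Finset.mem_sdiff.mpr ⟨hB, fun hBi => ?_⟩, hB'⟩, ?_⟩)
        · obtain ⟨l₀, -, rfl⟩ := Finset.mem_image.mp hBi
          rw [blk_extra] at hB'
          simp at hB'
        · simp [hpts, hz, hc]
    have e1 : (univ.filter (centre q x)).card ≤ 1 := by
      rw [Finset.card_le_one]
      intro a ha b hb
      simp [centre] at ha hb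
      rw [ha] at hb
      exact Sum.inr.inj hb
    have e2 : (other.biUnion fun l' => univ.filter fun z => OnL q l z ∧ OnL q l' z).card
        ≤ other.card := by
      refine Finset.card_biUnion_le.trans ?_
      rw [Finset.card_eq_sum_ones other]
      refine Finset.sum_le_sum fun l' hl' => card_common_points q ?_
      intro e
      simp only [hother, mem_sdiff] at hl'
      exact hlS (e ▸ hl'.1)
    have := (Finset.card_le_card hsub).trans ((Finset.card_union_le _ _).trans
      (add_le_add ((Finset.card_union_le _ _).trans (add_le_add ((Finset.card_union_le _ _).trans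
        (add_le_add ((Finset.card_union_le _ _).trans (add_le_add e1 (card_diag_onL hord)))
          (card_om_onL h hord))) e2)) le_rfl))
    rw [card_onL] at this
    omega
  have hsum : (∑ l ∈ Hs, ((off.biUnion D.extra).filter fun z => z ∈ pts l).card)
      ≤ off.card * (f * f) := by
    rw [← Finset.card_biUnion]
    · refine le_trans (Finset.card_le_card (t := off.biUnion D.extra) ?_) ?_
      · intro z hz
        simp only [mem_biUnion, mem_filter] at hz ⊢
        obtain ⟨l, -, hz, -⟩ := hz
        exact hz
      · refine Finset.card_biUnion_le.trans ?_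
        rw [← smul_eq_mul, ← Finset.sum_const]
        exact Finset.sum_le_sum fun B _ => card_extra_le h hN.f_pos B
    · intro l hl l' hl' hne
      simp only [Function.onFun, Finset.disjoint_left, mem_filter, hpts]
      intro z hz hz'
      simp only [Finset.mem_coe, hHs, mem_sdiff, hM, ordPencil, mem_filter, pencil, mem_univ,
        true_and] at hl hl'
      exact hz.2.2.2 (centre_of_thru q hne hl.1.1 hl'.1.1 hz.2.2.1 hz'.2.2.1)
  have hper : ∀ l ∈ Hs, ((off.biUnion D.extra).filter fun z => z ∈ pts l).card
      ≤ off.card * 400 := by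
    intro l hl
    simp only [hHs, mem_sdiff, hM, ordPencil, mem_filter] at hl
    rw [Finset.filter_biUnion]
    refine Finset.card_biUnion_le.trans ?_
    rw [← smul_eq_mul, ← Finset.sum_const]
    refine Finset.sum_le_sum fun B _ => le_trans (Finset.card_le_card ?_)
      (card_extra_onL h hl.1.2 B)
    intro z hz
    simp [hpts] at hz ⊢
    exact ⟨hz.1, hz.2.1⟩
  intro l hlM
  by_contra hlS
  have hl : l ∈ Hs := Finset.mem_sdiff.mpr ⟨hlM, hlS⟩
  have hpos : 0 < Hs.card := Finset.card_pos.mpr ⟨l, hl⟩
  set Y := 2 + 65536 * W * 400 + other.card with hY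
  have hS2 : Hs.card * q ≤ Hs.card * Y + off.card * (f * f) := by
    calc Hs.card * q = ∑ _l ∈ Hs, q := by simp
      _ ≤ ∑ l ∈ Hs, (Y + ((off.biUnion D.extra).filter fun z => z ∈ pts l).card) :=
          Finset.sum_le_sum hhole
      _ ≤ _ := by rw [Finset.sum_add_distrib, Finset.sum_const, smul_eq_mul]; omega
  have hone := (hhole l hl).trans (Nat.add_le_add_left (hper l hl) _)
  have hb := hN.hbig
  have hK := hN.hK
  have hP := hN.hP
  have hW : 2 ≤ W := (Fact.out : W.Prime).two_le
  have hY10 : 10 * Y ≤ 2 * q := by omega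
  have h3W : Hs.card ≤ 2 * (W + 65537) := by
    have h5 := Nat.mul_le_mul_left Hs.card hY10
    have h6 := Nat.mul_le_mul_left off.card hN.f_sq
    have hb' : off.card ≤ W + 65537 + Hs.card := by omega
    have h7 := Nat.mul_le_mul_right q hb'
    by_contra hlt
    push Not at hlt
    have hq : 0 < q := (Fact.out : q.Prime).pos
    have h8 := Nat.mul_lt_mul_of_pos_right hlt hq
    nlinarith
  omega

/-- Once nothing is missing, the remaining vertices are few. -/
theorem off_bound (h : D.Good f m0 m1 T2) (hs : C.card ≤ q + W) (x : PPt q)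
    (hsub : ordPencil x ⊆ C.biUnion D.lines) :
    (C \ (ordPencil x).image D.blk).card + ((ordPencil x).image D.blk).card ≤ q + W := by
  have hsub' : (ordPencil x).image D.blk ⊆ C := by
    intro B hB
    obtain ⟨l, hl, rfl⟩ := Finset.mem_image.mp hB
    obtain ⟨B', hB', hlB'⟩ := Finset.mem_biUnion.mp (hsub hl)
    rwa [← blk_of_mem_lines h.wf hlB'] at hB'
  rw [Finset.card_sdiff_add_card_eq_card hsub']
  exact hs

/-- The centre is not at infinity. -/
theorem centre_finite (h : D.Good f m0 m1 T2) (hN : Num q W P f m0 m1 T2 m A0)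
    (hC : D.IsCover C) (hs : C.card ≤ q + W) (s : ZMod q) (h0 : s ≠ 0)
    (hsub : ordPencil (Sum.inl (some s)) ⊆ C.biUnion D.lines) : False := by
  classical
  set M := ordPencil (Sum.inl (some s) : PPt q) with hM
  set off := C \ M.image D.blk with hoff
  have hb : off.card + (M.image D.blk).card ≤ q + W := off_bound h hs _ hsub
  have hcap : M.card ≤ (M.image D.blk).card :=
    (card_pencil_le_image h (Sum.inl (some s) : PPt q)).2 (by simp)
  obtain ⟨-, -, -, hcard⟩ := card_ordPencil (Sum.inl (some s) : PPt q)
    (fun z hz => ⟨s, by simpa using hz.symm, h0⟩)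
  have hc1 : q ≤ M.card + 1 := (hcard s rfl).1
  have hc2 : s ≠ 1 → q ≤ M.card := (hcard s rfl).2
  have hP := hN.hP
  have hfam : (off.biUnion D.rlines).card ≤ off.card := by
    refine Finset.card_biUnion_le.trans ?_
    rw [Finset.card_eq_sum_ones off]
    exact Finset.sum_le_sum fun B _ => card_rlines_le D B
  set H : Finset (Lne P) := (D.R.filter fun z => s ≠ 1 ∧ D.mu z = s).biUnion fun z =>
    (univ : Finset (Fin 2)).image fun j =>
      ((some (D.eta j), lfun (some (D.eta j)) z) : Lne P) with hH
  have hone : (D.R.filter fun z => s ≠ 1 ∧ D.mu z = s).card ≤ 1 := by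
    rw [Finset.card_le_one]
    intro z hz z' hz'
    simp at hz hz'
    exact h.wf.mu_inj hz.1 hz'.1 (hz.2.2.trans hz'.2.2.symm)
  have hcov : ∀ z ∈ D.R, ∃ l ∈ off.biUnion D.rlines ∪ H, OnL P l z := by
    intro z hz
    obtain ⟨c, hc⟩ := hC (Sum.inr z) hz
    obtain ⟨l, hl, hon⟩ := covered_label h.wf hz c
    by_cases hBi : (c, D.val (Sum.inr z) c) ∈ M.image D.blk
    · obtain ⟨⟨o, cc⟩, hl₀, he⟩ := Finset.mem_image.mp hBi
      simp only [hM, ordPencil, pencil, mem_filter, mem_univ, true_and, Thru] at hl₀
      obtain ⟨ho, -⟩ := hl₀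
      subst ho
      rw [← he] at hl
      refine ⟨l, Finset.mem_union_right _ ?_, hon⟩
      by_cases h1 : s = 1
      · simp [Data.blk, h1, Data.rlines] at hl
      simp only [Data.blk, if_neg h1] at hl
      by_cases hG : s ∈ D.G (cc / (1 - s))
      · obtain ⟨z₀, hz₀, ⟨j, hj⟩, hmu⟩ := D.mem_G.mp hG
        have hex : ∃ jc, D.zeta jc = cc / (1 - s) := ⟨_, hj⟩
        have hce : hex.choose = (j, lfun (some (D.eta j)) z₀) := by
          apply h.wf.zeta_inj
          rw [hex.choose_spec, hj]
        simp only [if_pos hG, Data.rlines, dif_pos hex, hce, Finset.mem_singleton] at hl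
        subst hl
        exact Finset.mem_biUnion.mpr ⟨z₀, Finset.mem_filter.mpr ⟨hz₀, h1, hmu⟩,
          Finset.mem_image_of_mem _ (Finset.mem_univ j)⟩
      · simp only [if_neg hG, Data.rlines] at hl
        split_ifs at hl with hex
        · simp only [Finset.mem_singleton] at hl
          subst hl
          exact Finset.mem_biUnion.mpr ⟨hex.choose,
            Finset.mem_filter.mpr ⟨hex.choose_spec.1, h1, hex.choose_spec.2⟩,
            Finset.mem_image_of_mem _ (Finset.mem_univ (0 : Fin 2))⟩
        · simp at hl
    · exact ⟨l, Finset.mem_union_left _ (Finset.mem_biUnion.mpr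
        ⟨_, Finset.mem_sdiff.mpr ⟨hc, hBi⟩, hl⟩), hon⟩
  set fam := off.biUnion D.rlines ∪ H with hfamdef
  have hfc : fam.card ≤ off.card + H.card :=
    (Finset.card_union_le _ _).trans (Nat.add_le_add_right hfam _)
  have hcard2 : fam.card ≤ P ∧ ∀ o, slopeCount P fam o < P := by
    by_cases hne : (D.R.filter fun z => s ≠ 1 ∧ D.mu z = s).Nonempty
    · obtain ⟨z₀, hz₀⟩ := hne
      have hs1 : s ≠ 1 := (Finset.mem_filter.mp hz₀).2.1
      have hHc : H.card ≤ 2 := by
        refine Finset.card_biUnion_le.trans ?_
        refine le_trans (Finset.sum_le_sum (g := fun _ => 2)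
          fun z _ => Finset.card_image_le.trans (by simp)) ?_
        simp
        omega
      have := hc2 hs1
      have hoffW : off.card ≤ W := by omega
      refine ⟨by omega, fun o => ?_⟩
      obtain ⟨j, hj⟩ : ∃ j, some (D.eta j) ≠ o := by
        by_contra hall
        push Not at hall
        exact h.wf.eta_ne (Option.some.inj ((hall 0).trans (hall 1).symm))
      have hmem : ((some (D.eta j), lfun (some (D.eta j)) z₀) : Lne P) ∈ fam := by
        exact Finset.mem_union_right _ (Finset.mem_biUnion.mpr
          ⟨z₀, hz₀, Finset.mem_image_of_mem _ (Finset.mem_univ j)⟩)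
      have : slopeCount P fam o ≤ (fam.erase (some (D.eta j), lfun (some (D.eta j)) z₀)).card := by
        apply Finset.card_le_card
        intro l hl
        simp at hl ⊢
        exact ⟨fun e => hj (by rw [← hl.2, e]), hl.1⟩
      rw [Finset.card_erase_of_mem hmem] at this
      have : 0 < fam.card := Finset.card_pos.mpr ⟨_, hmem⟩
      omega
    · have hHe : H = ∅ := by
        rw [hH, Finset.not_nonempty_iff_eq_empty.mp hne]
        rfl
      have hHc : H.card = 0 := by simp [hHe]
      refine ⟨by omega, fun o => ?_⟩
      have : slopeCount P fam o ≤ fam.card := Finset.card_filter_le _ _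
      omega
  obtain ⟨z, hz, hzl⟩ := h.cover_R fam hcard2.1 hcard2.2
  obtain ⟨l, hl, hon⟩ := hcov z hz
  exact hzl l hl hon

end Vale.Agent.P045
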