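import Mathlib
import Vale.Agent.P045.Holes

/-!
An affine centre is impossible: every slope of labels through the centre needs its own vertex,
and these vertices are too many.
-/

set_option linter.unusedSectionVars false

namespace Vale.Agent.P045

open Finset

variable {q W P : ℕ} [Fact q.Prime] [Fact W.Prime] [Fact P.Prime]
variable {D : Data q W P} {f m0 m1 T2 m A0 : ℕ}

/-- Two different slopes determine the label. -/
lemma card_two_slopes (h : D.Good f m0 m1 T2) {i j : Option (ZMod W)} (hij : i ≠ j)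
    (u v : ZMod W) : (univ.filter fun a => D.phi i a = u ∧ D.phi j a = v).card ≤ 40 := by
  rcases (univ.filter fun a => D.phi i a = u ∧ D.phi j a = v).eq_empty_or_nonempty with he | hne
  · rw [he]; simp
  obtain ⟨a₀, ha₀⟩ := hne
  refine le_trans (Finset.card_le_card ?_) (h.mult (D.lam a₀))
  intro a ha
  simp at ha ha₀ ⊢
  exact label_eq_of_two hij (ha.1.trans ha₀.1.symm) (ha.2.trans ha₀.2.symm)

/-- One side of a centre: points `pt b`, the sets `ret j` they form slope by slope, and the
vertices `Qf j` expected to contain them. -/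
structure Side (D : Data q W P) (off Q : Finset (Blk q W P)) (f T2 : ℕ) where
  /-- parametrisation of the axis line -/
  pt : ZMod q → ZMod q × ZMod q
  /-- points needing the slope `j` -/
  ret : Option (ZMod W) → Finset (ZMod q)
  /-- the vertex of slope `j` -/
  Qf : Option (ZMod W) → Blk q W P
  /-- points met by merged lines -/
  stray : Finset (ZMod q)
  mem_Q : ∀ j, Qf j ∈ Q
  disj : ∀ j j', j ≠ j' → Disjoint (ret j) (ret j')
  line_one : ∀ l, IsOrd l → (univ.filter fun b => OnL q l (pt b)).card ≤ 1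
  stray_le : ∀ j, (stray ∩ ret j).card ≤ T2
  stray_merged : ∀ b ∈ stray, ∃ l ∈ D.merged, OnL q l (pt b)
  cov : ∀ j, ∀ b ∈ ret j, (∃ l ∈ off.biUnion D.lines, OnL q l (pt b)) ∨ b ∈ stray ∨
    ∃ B ∈ off, pt b ∈ D.extra B
  extra_small : ∀ B j, B ≠ Qf j → ((ret j).filter fun b => pt b ∈ D.extra B).card ≤ 40
  extra_Q : ∀ B ∈ Q, ∀ j, ∀ b ∈ ret j, pt b ∈ D.extra B → B = Qf j
  extra_all : ∀ B, (univ.filter fun b => pt b ∈ D.extra B).card ≤ f

variable {off Q : Finset (Blk q W P)}

lemma lines_of_Q (hQ : ∀ B ∈ Q, D.lines B = ∅) :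
    off.biUnion D.lines = (off \ Q).biUnion D.lines := by
  ext l
  simp only [mem_biUnion, mem_sdiff]
  constructor
  · rintro ⟨B, hB, hl⟩
    refine ⟨B, ⟨hB, fun hBQ => ?_⟩, hl⟩
    rw [hQ B hBQ] at hl
    simp at hl
  · rintro ⟨B, ⟨hB, -⟩, hl⟩
    exact ⟨B, hB, hl⟩

lemma Side.small (h : D.Good f m0 m1 T2) (X : Side D off Q f T2)
    (hQ : ∀ B ∈ Q, D.lines B = ∅) (j : Option (ZMod W)) (hj : X.Qf j ∉ off) :
    (X.ret j).card ≤ T2 + (off \ Q).card * 65577 := by
  have hsub : X.ret j ⊆ (X.stray ∩ X.ret j) ∪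
      (off \ Q).biUnion fun B => ((D.lines B).biUnion fun l =>
        univ.filter fun b => OnL q l (X.pt b)) ∪
          (X.ret j).filter fun b => X.pt b ∈ D.extra B := by
    intro b hb
    rcases X.cov j b hb with ⟨l, hl, hon⟩ | hs | ⟨B, hB, hx⟩
    · rw [lines_of_Q hQ] at hl
      obtain ⟨B, hB, hlB⟩ := Finset.mem_biUnion.mp hl
      exact Finset.mem_union_right _ (Finset.mem_biUnion.mpr ⟨B, hB, Finset.mem_union_left _
        (Finset.mem_biUnion.mpr ⟨l, hlB, by simp [hon]⟩)⟩)
    · exact Finset.mem_union_left _ (Finset.mem_inter.mpr ⟨hs, hb⟩)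
    · refine Finset.mem_union_right _ (Finset.mem_biUnion.mpr ⟨B, ?_, Finset.mem_union_right _
        (Finset.mem_filter.mpr ⟨hb, hx⟩)⟩)
      exact Finset.mem_sdiff.mpr ⟨hB, fun hBQ => hj (X.extra_Q B hBQ j b hb hx ▸ hB)⟩
  refine (Finset.card_le_card hsub).trans ((Finset.card_union_le _ _).trans
    (add_le_add (X.stray_le j) (Finset.card_biUnion_le.trans ?_)))
  rw [← smul_eq_mul, ← Finset.sum_const]
  refine Finset.sum_le_sum fun B hB => ?_
  refine (Finset.card_union_le _ _).trans ?_
  have hne : B ≠ X.Qf j := fun e => (Finset.mem_sdiff.mp hB).2 (e ▸ X.mem_Q j)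
  have h1 : ((D.lines B).biUnion fun l => univ.filter fun b => OnL q l (X.pt b)).card ≤ 65537 := by
    refine Finset.card_biUnion_le.trans ?_
    refine le_trans (Finset.sum_le_sum (g := fun _ => 1) fun l hl => ?_) ?_
    · exact X.line_one l (isOrd_of_mem_lines h.wf hl)
    · simpa using card_lines_le' h B
  have h2 := X.extra_small B j hne
  omega

lemma Side.large (h : D.Good f m0 m1 T2) (X : Side D off Q f T2) :
    (∑ j ∈ univ.filter (fun j => X.Qf j ∉ off), (X.ret j).card) ≤
      off.card + 65536 * P +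
        ((off \ Q).filter fun B => ∃ j, ∃ b ∈ X.ret j, X.pt b ∈ D.extra B).card * f := by
  rw [← Finset.card_biUnion (fun j _ j' _ hne => X.disj j j' hne)]
  have hsub : (univ.filter (fun j => X.Qf j ∉ off)).biUnion X.ret ⊆
      ((off.biUnion D.lines \ D.merged) ∪ D.merged).biUnion
        (fun l => univ.filter fun b => IsOrd l ∧ OnL q l (X.pt b)) ∪
      ((off \ Q).filter fun B => ∃ j, ∃ b ∈ X.ret j, X.pt b ∈ D.extra B).biUnion
        (fun B => univ.filter fun b => X.pt b ∈ D.extra B) := by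
    intro b hb
    simp only [mem_biUnion, mem_filter, mem_univ, true_and] at hb
    obtain ⟨j, hj, hb⟩ := hb
    have hord : ∀ l ∈ D.merged, IsOrd l := by
      intro l hl
      obtain ⟨θ, -, hl⟩ := Finset.mem_biUnion.mp hl
      exact isOrd_of_mem_lines h.wf (B := (Sum.inl θ, .grp)) (by simpa [Data.lines] using hl)
    rcases X.cov j b hb with ⟨l, hl, hon⟩ | hs | ⟨B, hB, hx⟩
    · refine Finset.mem_union_left _ (Finset.mem_biUnion.mpr ⟨l, ?_, ?_⟩)
      · by_cases hm : l ∈ D.merged
        · exact Finset.mem_union_right _ hm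
        · exact Finset.mem_union_left _ (Finset.mem_sdiff.mpr ⟨hl, hm⟩)
      · obtain ⟨B, -, hlB⟩ := Finset.mem_biUnion.mp hl
        simp [hon, isOrd_of_mem_lines h.wf hlB]
    · obtain ⟨l, hl, hon⟩ := X.stray_merged b hs
      refine Finset.mem_union_left _ (Finset.mem_biUnion.mpr
        ⟨l, Finset.mem_union_right _ hl, ?_⟩)
      simp [hon, hord l hl]
    · refine Finset.mem_union_right _ (Finset.mem_biUnion.mpr ⟨B, Finset.mem_filter.mpr
        ⟨Finset.mem_sdiff.mpr ⟨hB, fun hBQ => hj (X.extra_Q B hBQ j b hb hx ▸ hB)⟩,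
          j, b, hb, hx⟩, by simp [hx]⟩)
  refine (Finset.card_le_card hsub).trans ((Finset.card_union_le _ _).trans (add_le_add ?_ ?_))
  · refine Finset.card_biUnion_le.trans ?_
    refine le_trans (Finset.sum_le_sum (g := fun _ => 1) fun l _ => ?_) ?_
    · by_cases hl : IsOrd l
      · simpa [hl] using X.line_one l hl
      · simp [hl]
    · simp only [Finset.sum_const, smul_eq_mul, mul_one]
      exact (Finset.card_union_le _ _).trans (add_le_add (card_biUnion_lines off) (card_merged h))
  · refine Finset.card_biUnion_le.trans ?_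
    rw [← smul_eq_mul, ← Finset.sum_const]
    exact Finset.sum_le_sum fun B _ => X.extra_all B

variable (D) in
/-- Vertex expected to cover the slope `j` on the vertical line through the centre. -/
def Data.QA (a₀ b₀ : ZMod q) : Option (ZMod W) → Blk q W P
  | none => (Sum.inl a₀, .pA (D.phi none b₀))
  | some i => (Sum.inr (Sum.inr i), .pr (D.phi (some i) a₀) (D.phi (some i) b₀)
      (if i ∈ D.I ∧ D.phi (some i) a₀ = D.phi (some i) b₀ then D.col i a₀ else 0))

variable (D) in
/-- Vertex expected to cover the slope `j` on the horizontal line through the centre. -/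
def Data.QB (a₀ b₀ : ZMod q) : Option (ZMod W) → Blk q W P
  | none => (Sum.inl b₀, .pB (D.phi none a₀))
  | some i => (Sum.inr (Sum.inr i), .pr (D.phi (some i) a₀) (D.phi (some i) b₀)
      (if i ∈ D.I ∧ D.phi (some i) a₀ = D.phi (some i) b₀ then D.col i b₀ - 1 else 0))

variable (D) in
/-- Points of the vertical line whose slope `j` vertex is forced. -/
def Data.retA (a₀ b₀ : ZMod q) (j : Option (ZMod W)) : Finset (ZMod q) :=
  univ.filter fun b => D.phi j b = D.phi j b₀ ∧ b ≠ a₀ ∧ ¬ D.Om a₀ b ∧ D.lam b ≠ D.lam b₀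

variable (D) in
/-- Points of the horizontal line whose slope `j` vertex is forced. -/
def Data.retB (a₀ b₀ : ZMod q) (j : Option (ZMod W)) : Finset (ZMod q) :=
  univ.filter fun a => D.phi j a = D.phi j a₀ ∧ a ≠ b₀ ∧ ¬ D.Om a b₀ ∧ D.lam a ≠ D.lam a₀

variable (D) in
/-- Slopes along which a diagonal block is split at the centre. -/
def Data.split (a₀ b₀ : ZMod q) : Finset (Option (ZMod W)) :=
  (D.I.filter fun i => D.phi (some i) a₀ = D.phi (some i) b₀).image some

lemma card_split (h : D.Good f m0 m1 T2) (a₀ b₀ : ZMod q) :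
    (D.split a₀ b₀).card ≤ 65536 :=
  Finset.card_image_le.trans ((Finset.card_filter_le _ _).trans h.card_I.le)

/-- Lower bound for the forced points, on either side. -/
lemma ret_ge (h : D.Good f m0 m1 T2) (c₀ d₀ : ZMod q) (j : Option (ZMod W))
    (δ : ZMod 3) (bad : ZMod q → Prop) [DecidablePred bad]
    (hbad : ∀ b, bad b → ∃ i ∈ D.I, D.phi (some i) c₀ = D.phi (some i) b ∧
      D.col i b ≠ D.col i c₀ + δ) :
    (if ∃ i ∈ D.I, j = some i ∧ D.phi (some i) c₀ = D.phi (some i) d₀ then m1 else m0) ≤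
      (univ.filter fun b => D.phi j b = D.phi j d₀ ∧ b ≠ c₀ ∧ ¬ bad b ∧
        D.lam b ≠ D.lam d₀).card + 2621481 := by
  classical
  set Ej : Finset (ZMod q) := if h : ∃ i ∈ D.I, j = some i ∧ D.phi (some i) c₀ = D.phi (some i) d₀
    then univ.filter fun b => D.phi (some h.choose) b = D.phi (some h.choose) d₀ ∧
      D.col h.choose b = D.col h.choose c₀ + δ
    else univ.filter fun b => D.phi j b = D.phi j d₀ with hEj
  have hge : (if ∃ i ∈ D.I, j = some i ∧ D.phi (some i) c₀ = D.phi (some i) d₀ then m1 else m0)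
      ≤ Ej.card := by
    rw [hEj]
    split_ifs with hc
    · exact h.col_ge _ _ _
    · exact h.fib_ge _ _
  have hsub : Ej ⊆ (univ.filter fun b => D.phi j b = D.phi j d₀ ∧ b ≠ c₀ ∧ ¬ bad b ∧
        D.lam b ≠ D.lam d₀) ∪ ({c₀} ∪ (univ.filter fun b => D.lam b = D.lam d₀) ∪
      ((D.I.filter fun i => j ≠ some i).biUnion fun i => univ.filter fun b =>
        D.phi j b = D.phi j d₀ ∧ D.phi (some i) b = D.phi (some i) c₀)) := by
    intro b hb
    have hbj : D.phi j b = D.phi j d₀ ∧ ∀ i ∈ D.I, j = some i →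
        D.phi (some i) c₀ = D.phi (some i) b → D.col i b = D.col i c₀ + δ := by
      rw [hEj] at hb
      split_ifs at hb with hc
      · obtain ⟨-, hji, -⟩ := hc.choose_spec
        simp only [mem_filter, mem_univ, true_and] at hb
        refine ⟨by rw [hji]; exact hb.1, fun i _ e _ => ?_⟩
        have e' : i = hc.choose := Option.some.inj (e.symm.trans hji)
        rw [e']; exact hb.2
      · simp only [mem_filter, mem_univ, true_and] at hb
        refine ⟨hb, fun i hi e hu => absurd ⟨i, hi, e, ?_⟩ hc⟩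
        rw [hu]; subst e; exact hb
    by_cases h1 : b = c₀
    · simp [h1]
    by_cases h2 : D.lam b = D.lam d₀
    · simp [h2]
    by_cases h3 : bad b
    · obtain ⟨i, hi, he, hcol⟩ := hbad b h3
      refine Finset.mem_union_right _ (Finset.mem_union_right _ ?_)
      simp only [mem_biUnion, mem_filter, mem_univ, true_and]
      exact ⟨i, ⟨hi, fun e => hcol (hbj.2 i hi e he)⟩, hbj.1, he.symm⟩
    · exact Finset.mem_union_left _ (by simp [hbj.1, h1, h2, h3])
  have h3 : ((D.I.filter fun i => j ≠ some i).biUnion fun i => univ.filter fun b =>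
      D.phi j b = D.phi j d₀ ∧ D.phi (some i) b = D.phi (some i) c₀).card ≤ 65536 * 40 := by
    refine Finset.card_biUnion_le.trans ?_
    refine le_trans (Finset.sum_le_sum (g := fun _ => 40) fun i hi => ?_) ?_
    · exact card_two_slopes h (Finset.mem_filter.mp hi).2 _ _
    · simp only [Finset.sum_const, smul_eq_mul]
      exact Nat.mul_le_mul_right _ ((Finset.card_filter_le _ _).trans h.card_I.le)
  have := hge.trans ((Finset.card_le_card hsub).trans ((Finset.card_union_le _ _).trans
    (Nat.add_le_add_left ((Finset.card_union_le _ _).trans (add_le_add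
      ((Finset.card_union_le _ _).trans (add_le_add (Finset.card_singleton c₀).le (h.mult _)))
      h3)) _)))
  omega

lemma retA_ge (h : D.Good f m0 m1 T2) (a₀ b₀ : ZMod q) (j : Option (ZMod W)) :
    (if j ∈ D.split a₀ b₀ then m1 else m0) ≤ (D.retA a₀ b₀ j).card + 2621481 := by
  refine le_trans (le_of_eq ?_) (ret_ge h a₀ b₀ j 1 (fun b => D.Om a₀ b) fun b hb => hb)
  congr 1
  simp [Data.split, eq_comm]
  exact ⟨fun ⟨i, a, b, c⟩ => ⟨i, ⟨a, c⟩, b⟩, fun ⟨i, ⟨a, c⟩, b⟩ => ⟨i, a, b, c⟩⟩

lemma retB_ge (h : D.Good f m0 m1 T2) (a₀ b₀ : ZMod q) (j : Option (ZMod W)) :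
    (if j ∈ D.split a₀ b₀ then m1 else m0) ≤ (D.retB a₀ b₀ j).card + 2621481 := by
  refine le_trans (le_of_eq ?_) (ret_ge h b₀ a₀ j (-1) (fun a => D.Om a b₀) ?_)
  · congr 1
    simp [Data.split, eq_comm]
    exact ⟨fun ⟨i, a, b, c⟩ => ⟨i, ⟨a, c⟩, b⟩, fun ⟨i, ⟨a, c⟩, b⟩ => ⟨i, a, b, c⟩⟩
  · rintro a ⟨i, hi, he, hc⟩
    refine ⟨i, hi, he.symm, fun e => hc ?_⟩
    rw [e]; ring

variable {C : Finset (Blk q W P)}

lemma covA (hC : D.IsCover C) (a₀ b₀ : ZMod q) (b : ZMod q)
    (hb1 : b ≠ a₀) (hb2 : b ≠ b₀) (hom : ¬ D.Om a₀ b) :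
    let off := C \ (ordPencil (Sum.inr (a₀, b₀) : PPt q)).image D.blk
    (∃ l ∈ off.biUnion D.lines, OnL q l (a₀, b)) ∨ b ∈ D.strayA a₀ b₀ ∨
      ∃ B ∈ off, (a₀, b) ∈ D.extra B := by
  intro off
  rcases cover_point hC (Ne.symm hb1) hom with ⟨l, hl, hon⟩ | ⟨B, hB, hx⟩
  · obtain ⟨B, hB, hlB⟩ := Finset.mem_biUnion.mp hl
    by_cases hBi : B ∈ (ordPencil (Sum.inr (a₀, b₀) : PPt q)).image D.blk
    · obtain ⟨l₀, hl₀, rfl⟩ := Finset.mem_image.mp hBi
      simp only [ordPencil, pencil, mem_filter, mem_univ, true_and, Thru] at hl₀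
      by_cases hg : ∃ θ, D.blk l₀ = (Sum.inl θ, .grp)
      · obtain ⟨θ, hθ⟩ := hg
        right; left
        have h0 := lines_blk (D := D) hl₀.2
        rw [hθ] at h0 hlB
        simp only [Data.lines, mem_image] at h0 hlB
        obtain ⟨s, hs, rfl⟩ := h0
        obtain ⟨s', hs', rfl⟩ := hlB
        simp only [Data.strayA, mem_filter, mem_univ, true_and]
        exact ⟨θ, ⟨s, hs, hl₀.1⟩, s', hs', hon⟩
      · exfalso
        rw [lines_blk_eq hl₀.2 (not_exists.mp hg), Finset.mem_singleton] at hlB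
        subst hlB
        obtain ⟨hl1, s, hs, -⟩ := hl₀
        obtain ⟨o, c⟩ := l
        simp at hs
        subst hs
        simp [OnL] at hl1 hon
        exact hb2 (hon.trans hl1.symm)
    · exact Or.inl ⟨l, Finset.mem_biUnion.mpr ⟨B, Finset.mem_sdiff.mpr ⟨hB, hBi⟩, hlB⟩, hon⟩
  · refine Or.inr (Or.inr ⟨B, Finset.mem_sdiff.mpr ⟨hB, fun hBi => ?_⟩, hx⟩)
    obtain ⟨l₀, -, rfl⟩ := Finset.mem_image.mp hBi
    rw [blk_extra] at hx
    simp at hx

lemma covB (hC : D.IsCover C) (a₀ b₀ : ZMod q) (a : ZMod q)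
    (ha1 : a ≠ b₀) (ha2 : a ≠ a₀) (hom : ¬ D.Om a b₀) :
    let off := C \ (ordPencil (Sum.inr (a₀, b₀) : PPt q)).image D.blk
    (∃ l ∈ off.biUnion D.lines, OnL q l (a, b₀)) ∨ a ∈ D.strayB a₀ b₀ ∨
      ∃ B ∈ off, (a, b₀) ∈ D.extra B := by
  intro off
  rcases cover_point hC ha1 hom with ⟨l, hl, hon⟩ | ⟨B, hB, hx⟩
  · obtain ⟨B, hB, hlB⟩ := Finset.mem_biUnion.mp hl
    by_cases hBi : B ∈ (ordPencil (Sum.inr (a₀, b₀) : PPt q)).image D.blk
    · obtain ⟨l₀, hl₀, rfl⟩ := Finset.mem_image.mp hBi
      simp only [ordPencil, pencil, mem_filter, mem_univ, true_and, Thru] at hl₀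
      by_cases hg : ∃ θ, D.blk l₀ = (Sum.inl θ, .grp)
      · obtain ⟨θ, hθ⟩ := hg
        right; left
        have h0 := lines_blk (D := D) hl₀.2
        rw [hθ] at h0 hlB
        simp only [Data.lines, mem_image] at h0 hlB
        obtain ⟨s, hs, rfl⟩ := h0
        obtain ⟨s', hs', rfl⟩ := hlB
        simp only [Data.strayB, mem_filter, mem_univ, true_and]
        exact ⟨θ, ⟨s, hs, hl₀.1⟩, s', hs', hon⟩
      · exfalso
        rw [lines_blk_eq hl₀.2 (not_exists.mp hg), Finset.mem_singleton] at hlB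
        subst hlB
        obtain ⟨hl1, s, hs, h0, -⟩ := hl₀
        obtain ⟨o, c⟩ := l
        simp at hs
        subst hs
        simp [OnL] at hl1 hon
        exact ha2 (mul_left_cancel₀ h0 (by linear_combination hl1 - hon))
    · exact Or.inl ⟨l, Finset.mem_biUnion.mpr ⟨B, Finset.mem_sdiff.mpr ⟨hB, hBi⟩, hlB⟩, hon⟩
  · refine Or.inr (Or.inr ⟨B, Finset.mem_sdiff.mpr ⟨hB, fun hBi => ?_⟩, hx⟩)
    obtain ⟨l₀, -, rfl⟩ := Finset.mem_image.mp hBi
    rw [blk_extra] at hx
    simp at hx

lemma extraA_cases {B : Blk q W P} {a₀ b : ZMod q} (hx : (a₀, b) ∈ D.extra B) :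
    B = (Sum.inl a₀, .pA (D.phi none b)) ∨ B = (Sum.inl b, .pB (D.phi none a₀)) ∨
    ∃ i, B = (Sum.inr (Sum.inr i),
      .pr (D.phi (some i) a₀) (D.phi (some i) b) (D.key i a₀ b)) := by
  obtain ⟨c, v⟩ := B
  rcases c with θ | u | i <;> cases v <;> simp [Data.extra] at hx ⊢
  · obtain ⟨rfl, h⟩ := And.intro hx.2 hx.1; simp [h]
  · obtain ⟨rfl, h⟩ := And.intro hx.2 hx.1; simp [h]
  · obtain ⟨⟨h1, h2⟩, h3⟩ := hx; simp [h1, h2, h3]

lemma key_eq_QA {a₀ b₀ b : ZMod q} {i : ZMod W} (hv : D.phi (some i) b = D.phi (some i) b₀) :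
    D.key i a₀ b = if i ∈ D.I ∧ D.phi (some i) a₀ = D.phi (some i) b₀ then D.col i a₀ else 0 := by
  simp only [Data.key, hv]

lemma key_eq_QB {a₀ b₀ a : ZMod q} {i : ZMod W} (hu : D.phi (some i) a = D.phi (some i) a₀)
    (hom : ¬ D.Om a b₀) :
    D.key i a b₀ =
      if i ∈ D.I ∧ D.phi (some i) a₀ = D.phi (some i) b₀ then D.col i b₀ - 1 else 0 := by
  simp only [Data.key, hu]
  split_ifs with hc
  · by_contra he
    exact hom ⟨i, hc.1, hu.trans hc.2, fun e => he (by rw [e]; ring)⟩
  · rfl

/-- The side of the centre along the vertical line. -/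
def sideA (h : D.Good f m0 m1 T2) (hf : 40 ≤ f) (hC : D.IsCover C) (a₀ b₀ : ZMod q) :
    Side D (C \ (ordPencil (Sum.inr (a₀, b₀) : PPt q)).image D.blk)
      (univ.image (D.QA a₀ b₀) ∪ univ.image (D.QB a₀ b₀)) f T2 where
  pt b := (a₀, b)
  ret := D.retA a₀ b₀
  Qf := D.QA a₀ b₀
  stray := D.strayA a₀ b₀
  mem_Q j := Finset.mem_union_left _ (Finset.mem_image_of_mem _ (Finset.mem_univ j))
  disj j j' hne := by
    rw [Finset.disjoint_left]
    intro b hb hb'
    simp [Data.retA] at hb hb'
    exact hb.2.2.2 (label_eq_of_two hne hb.1 hb'.1)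
  line_one l hl := by
    obtain ⟨s, hs, -⟩ := hl
    obtain ⟨o, c⟩ := l
    simp at hs
    subst hs
    rw [Finset.card_le_one]
    intro b hb b' hb'
    simp only [mem_filter] at hb hb'
    exact (hb.2 : _ = _).trans (hb'.2 : _ = _).symm
  stray_le j := by
    refine le_trans (Finset.card_le_card ?_) (h.stray_A a₀ b₀ j (D.phi j b₀))
    intro b hb
    simp [Data.retA] at hb ⊢
    exact ⟨hb.1, hb.2.1⟩
  stray_merged b hb := by
    simp only [Data.strayA, mem_filter, mem_univ, true_and] at hb
    obtain ⟨θ, -, s, hs, hon⟩ := hb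
    exact ⟨_, Finset.mem_biUnion.mpr
      ⟨θ, Finset.mem_univ _, Finset.mem_image_of_mem _ hs⟩, hon⟩
  cov j b hb := by
    simp [Data.retA] at hb
    exact covA hC a₀ b₀ b hb.2.1 (fun e => hb.2.2.2 (by rw [e])) hb.2.2.1
  extra_small B j hne := by
    rcases ((D.retA a₀ b₀ j).filter fun b => (a₀, b) ∈ D.extra B).eq_empty_or_nonempty with
      he | ⟨b₁, hb₁⟩
    · rw [he]; simp
    simp only [mem_filter, Data.retA, mem_univ, true_and] at hb₁
    rcases extraA_cases hb₁.2 with hB | hB | ⟨i, hB⟩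
    · by_cases hj : j = none
      · subst hj
        exact absurd (by rw [hB, hb₁.1.1]; rfl) hne
      · refine le_trans (Finset.card_le_card ?_)
          (card_two_slopes h hj (D.phi j b₀) (D.phi none b₁))
        intro b hb
        simp [Data.retA, hB, Data.extra] at hb ⊢
        exact ⟨hb.1.1, hb.2⟩
    · refine le_trans (Finset.card_le_card (t := {b₁}) ?_) (by simp)
      intro b hb
      simp [hB, Data.extra] at hb ⊢
      exact hb.2.symm
    · by_cases hj : j = some i
      · subst hj
        exact absurd (by rw [hB, key_eq_QA hb₁.1.1, hb₁.1.1]; rfl) hne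
      · refine le_trans (Finset.card_le_card ?_)
          (card_two_slopes h hj (D.phi j b₀) (D.phi (some i) b₁))
        intro b hb
        simp [Data.retA, hB, Data.extra] at hb ⊢
        exact ⟨hb.1.1, hb.2.1⟩
  extra_Q B hB j b hb hx := by
    simp [Data.retA] at hb
    simp only [mem_union, mem_image, mem_univ, true_and] at hB
    have two : ∀ j', D.phi j' b = D.phi j' b₀ → j' = j := fun j' e => by
      by_contra hne
      exact hb.2.2.2 (label_eq_of_two hne e hb.1)
    rcases extraA_cases hx with e | e | ⟨i, e⟩ <;> rcases hB with ⟨j', rfl⟩ | ⟨j', rfl⟩ <;>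
      cases j' <;> simp [Data.QA, Data.QB] at e
    · rw [← two none e.symm]
    · exact absurd (congrArg D.lam e.symm) hb.2.2.2
    · obtain ⟨rfl, -, e1, -⟩ := e
      rw [← two (some _) e1.symm]
    · obtain ⟨rfl, -, e1, e2⟩ := e
      rw [← two (some _) e1.symm]
      simp only [Data.QA, Data.QB, e2, key_eq_QA e1.symm]
  extra_all B := by
    rcases (univ.filter fun b => (a₀, b) ∈ D.extra B).eq_empty_or_nonempty with he | ⟨b₁, hb₁⟩
    · rw [he]; simp
    simp only [mem_filter, mem_univ, true_and] at hb₁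
    rcases extraA_cases hb₁ with hB | hB | ⟨i, hB⟩
    · refine le_trans (Finset.card_le_card ?_) (h.fib_le none (D.phi none b₁))
      intro b hb
      simp [hB, Data.extra] at hb ⊢
      exact hb
    · refine le_trans (Finset.card_le_card (t := {b₁}) ?_) (by simp; omega)
      intro b hb
      simp [hB, Data.extra] at hb ⊢
      exact hb.symm
    · refine le_trans (Finset.card_le_card ?_) (h.fib_le (some i) (D.phi (some i) b₁))
      intro b hb
      simp [hB, Data.extra] at hb ⊢
      exact hb.1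

/-- The side of the centre along the horizontal line. -/
def sideB (h : D.Good f m0 m1 T2) (hf : 40 ≤ f) (hC : D.IsCover C) (a₀ b₀ : ZMod q) :
    Side D (C \ (ordPencil (Sum.inr (a₀, b₀) : PPt q)).image D.blk)
      (univ.image (D.QA a₀ b₀) ∪ univ.image (D.QB a₀ b₀)) f T2 where
  pt a := (a, b₀)
  ret := D.retB a₀ b₀
  Qf := D.QB a₀ b₀
  stray := D.strayB a₀ b₀
  mem_Q j := Finset.mem_union_right _ (Finset.mem_image_of_mem _ (Finset.mem_univ j))
  disj j j' hne := by
    rw [Finset.disjoint_left]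
    intro b hb hb'
    simp [Data.retB] at hb hb'
    exact hb.2.2.2 (label_eq_of_two hne hb.1 hb'.1)
  line_one l hl := by
    obtain ⟨s, hs, h0, -⟩ := hl
    obtain ⟨o, c⟩ := l
    simp at hs
    subst hs
    rw [Finset.card_le_one]
    intro b hb b' hb'
    simp only [mem_filter] at hb hb'
    exact mul_left_cancel₀ h0
      (add_right_cancel ((hb.2 : _ = _).symm.trans (hb'.2 : _ = _)))
  stray_le j := by
    refine le_trans (Finset.card_le_card ?_) (h.stray_B a₀ b₀ j (D.phi j a₀))
    intro b hb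
    simp [Data.retB] at hb ⊢
    exact ⟨hb.1, hb.2.1⟩
  stray_merged b hb := by
    simp only [Data.strayB, mem_filter, mem_univ, true_and] at hb
    obtain ⟨θ, -, s, hs, hon⟩ := hb
    exact ⟨_, Finset.mem_biUnion.mpr
      ⟨θ, Finset.mem_univ _, Finset.mem_image_of_mem _ hs⟩, hon⟩
  cov j a hb := by
    simp [Data.retB] at hb
    exact covB hC a₀ b₀ a hb.2.1 (fun e => hb.2.2.2 (by rw [e])) hb.2.2.1
  extra_small B j hne := by
    rcases ((D.retB a₀ b₀ j).filter fun a => (a, b₀) ∈ D.extra B).eq_empty_or_nonempty with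
      he | ⟨a₁, ha₁⟩
    · rw [he]; simp
    simp only [mem_filter, Data.retB, mem_univ, true_and] at ha₁
    rcases extraA_cases ha₁.2 with hB | hB | ⟨i, hB⟩
    · refine le_trans (Finset.card_le_card (t := {a₁}) ?_) (by simp)
      intro a ha
      simp [hB, Data.extra] at ha ⊢
      exact ha.2.symm
    · by_cases hj : j = none
      · subst hj
        exact absurd (by rw [hB, ha₁.1.1]; rfl) hne
      · refine le_trans (Finset.card_le_card ?_)
          (card_two_slopes h hj (D.phi j a₀) (D.phi none a₁))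
        intro a ha
        simp [Data.retB, hB, Data.extra] at ha ⊢
        exact ⟨ha.1.1, ha.2⟩
    · by_cases hj : j = some i
      · subst hj
        exact absurd (by rw [hB, key_eq_QB ha₁.1.1 ha₁.1.2.2.1, ha₁.1.1]; rfl) hne
      · refine le_trans (Finset.card_le_card ?_)
          (card_two_slopes h hj (D.phi j a₀) (D.phi (some i) a₁))
        intro a ha
        simp [Data.retB, hB, Data.extra] at ha ⊢
        exact ⟨ha.1.1, ha.2.1⟩
  extra_Q B hB j a ha hx := by
    simp [Data.retB] at ha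
    simp only [mem_union, mem_image, mem_univ, true_and] at hB
    have two : ∀ j', D.phi j' a = D.phi j' a₀ → j' = j := fun j' e => by
      by_contra hne
      exact ha.2.2.2 (label_eq_of_two hne e ha.1)
    rcases extraA_cases hx with e | e | ⟨i, e⟩ <;> rcases hB with ⟨j', rfl⟩ | ⟨j', rfl⟩ <;>
      cases j' <;> simp [Data.QA, Data.QB] at e
    · exact absurd (congrArg D.lam e.symm) ha.2.2.2
    · rw [← two none e.symm]
    · obtain ⟨rfl, e1, e2⟩ := e
      rw [← two (some _) e1.symm]
      simp only [Data.QA, Data.QB, e2, key_eq_QB e1.symm ha.2.2.1]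
    · obtain ⟨rfl, e1, -⟩ := e
      rw [← two (some _) e1.symm]
  extra_all B := by
    rcases (univ.filter fun a => (a, b₀) ∈ D.extra B).eq_empty_or_nonempty with he | ⟨a₁, ha₁⟩
    · rw [he]; simp
    simp only [mem_filter, mem_univ, true_and] at ha₁
    rcases extraA_cases ha₁ with hB | hB | ⟨i, hB⟩
    · refine le_trans (Finset.card_le_card (t := {a₁}) ?_) (by simp; omega)
      intro a ha
      simp [hB, Data.extra] at ha ⊢
      exact ha.symm
    · refine le_trans (Finset.card_le_card ?_) (h.fib_le none (D.phi none a₁))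
      intro a ha
      simp [hB, Data.extra] at ha ⊢
      exact ha
    · refine le_trans (Finset.card_le_card ?_) (h.fib_le (some i) (D.phi (some i) a₁))
      intro a ha
      simp [hB, Data.extra] at ha ⊢
      exact ha.1

/-- Both sides are never served by one vertex outside `Q`. -/
lemma not_both {B : Blk q W P} {a₀ b₀ a b : ZMod q} {j j' : Option (ZMod W)}
    (hb : b ∈ D.retA a₀ b₀ j) (ha : a ∈ D.retB a₀ b₀ j')
    (hxA : (a₀, b) ∈ D.extra B) (hxB : (a, b₀) ∈ D.extra B) :
    B ∈ univ.image (D.QA a₀ b₀) := by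
  simp [Data.retA] at hb
  simp [Data.retB] at ha
  rcases extraA_cases hxA with rfl | rfl | ⟨i, rfl⟩ <;>
    rcases extraA_cases hxB with e | e | ⟨i', e⟩ <;> simp at e
  · exact absurd (congrArg D.lam e.1.symm) ha.2.2.2
  · exact absurd (congrArg D.lam e.1) hb.2.2.2
  · obtain ⟨rfl, e1, e2, -⟩ := e
    refine Finset.mem_image.mpr ⟨some i, Finset.mem_univ _, ?_⟩
    simp only [Data.QA, key_eq_QA e2, e2]

/-- The arithmetic behind `centre_affine_false`. -/
lemma missing_bound {a x tA tB cA cB sA sB sp b P' n M f A0 : ℕ}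
    (hA : a ≤ cA + sp) (hB : a ≤ cB + sp) (hsp : sp ≤ 65537)
    (hsA : cA * n ≤ sA + sp * n) (hsB : cB * n ≤ sB + sp * n)
    (hlA : sA ≤ b + P' + tA * f) (hlB : sB ≤ b + P' + tB * f) (hT : tA + tB ≤ x) (hx : x < a)
    (hn : f + 1 ≤ 2 * n) (hM : n ≤ M)
    (hA0 : 262148 * M + 2 * (b + P') < (A0 + 1) * (2 * n - f)) : a ≤ A0 := by
  by_contra hlt
  push Not at hlt
  obtain ⟨d, hd⟩ : ∃ d, 2 * n = f + d := ⟨2 * n - f, by omega⟩
  rw [show 2 * n - f = d by omega] at hA0
  have e1 : a * (2 * n) ≤ (cA + cB) * n + 2 * sp * n := by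
    have := Nat.mul_le_mul_right n (add_le_add hA hB)
    nlinarith
  have e2 : (tA + tB) * f ≤ a * f := Nat.mul_le_mul_right f (by omega)
  have e3 : (A0 + 1) * d ≤ a * d := Nat.mul_le_mul_right d hlt
  have e4 : sp * n ≤ 65537 * M := Nat.mul_le_mul hsp hM
  rw [hd, mul_add] at e1
  nlinarith

theorem centre_affine_false (h : D.Good f m0 m1 T2) (hN : Num q W P f m0 m1 T2 m A0)
    (hf : 40 ≤ f) (hC : D.IsCover C) (hs : C.card ≤ q + W) (a₀ b₀ : ZMod q)
    (hsub : ordPencil (Sum.inr (a₀, b₀)) ⊆ C.biUnion D.lines) : False := by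
  classical
  set M := ordPencil (Sum.inr (a₀, b₀) : PPt q) with hM
  set off := C \ M.image D.blk with hoff
  set Q := univ.image (D.QA a₀ b₀) ∪ univ.image (D.QB a₀ b₀) with hQ
  have hoffb : off.card + (M.image D.blk).card ≤ q + W := off_bound h hs _ hsub
  have hgap : M.card ≤ (M.image D.blk).card + 65535 :=
    (card_pencil_le_image h (Sum.inr (a₀, b₀) : PPt q)).1
  have hinj : a₀ ≠ b₀ → M.card ≤ (M.image D.blk).card := fun hne =>
    (card_pencil_le_image h (Sum.inr (a₀, b₀) : PPt q)).2 fun θ e => by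
      simp at e; exact hne (e.1.trans e.2.symm)
  have hcard := card_ordPencil (Sum.inr (a₀, b₀) : PPt q) (by simp)
  have hM1 : q ≤ M.card + 2 := hcard.1
  have hM2 : a₀ ≠ b₀ → q ≤ M.card + 1 := fun hne => hcard.2.2.1 a₀ b₀ rfl hne
  have hW : Fintype.card (Option (ZMod W)) = W + 1 := by simp
  have hQAinj : Function.Injective (D.QA a₀ b₀) := by
    intro i j e
    cases i <;> cases j <;> simp [Data.QA] at e ⊢
    exact e.1
  have hQBinj : Function.Injective (D.QB a₀ b₀) := by
    intro i j e
    cases i <;> cases j <;> simp [Data.QB] at e ⊢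
    exact e.1
  -- `Q` is large
  have hQnone : D.QB a₀ b₀ none ∉ univ.image (D.QA a₀ b₀) := by
    simp only [mem_image, mem_univ, true_and, not_exists]
    intro j e
    cases j <;> simp [Data.QA, Data.QB] at e
  have hQlow : (a₀ ≠ b₀ → W + 2 ≤ Q.card) ∧ (a₀ = b₀ → W + 2 + 65536 ≤ Q.card) := by
    have hcA : (univ.image (D.QA a₀ b₀)).card = W + 1 := by
      rw [Finset.card_image_of_injective _ hQAinj, Finset.card_univ, hW]
    refine ⟨fun _ => ?_, fun hab => ?_⟩
    · have hsub' : insert (D.QB a₀ b₀ none) (univ.image (D.QA a₀ b₀)) ⊆ Q := by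
        intro B hB
        simp at hB
        rcases hB with rfl | hB
        · simp [hQ]
        · obtain ⟨x, rfl⟩ := hB; simp [hQ]
      have := Finset.card_le_card hsub'
      rw [Finset.card_insert_of_notMem hQnone, hcA] at this
      omega
    · set X := insert none (D.I.image some) with hX
      have hXc : X.card = 65537 := by
        rw [hX, Finset.card_insert_of_notMem (by simp),
          Finset.card_image_of_injective _ (Option.some_injective _), h.card_I]
      have hd : Disjoint (univ.image (D.QA a₀ b₀)) (X.image (D.QB a₀ b₀)) := by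
        rw [Finset.disjoint_left]
        intro B hB hB'
        simp only [mem_image, mem_univ, true_and] at hB hB'
        obtain ⟨j, rfl⟩ := hB
        obtain ⟨j', hj', e⟩ := hB'
        cases j' with
        | none => cases j <;> simp [Data.QA, Data.QB] at e
        | some i =>
          have hi : i ∈ D.I := by simpa [hX] using hj'
          cases j with
          | none => simp [Data.QA, Data.QB] at e
          | some k =>
            simp [Data.QA, Data.QB, hab] at e
            obtain ⟨rfl, e⟩ := e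
            simp [hi] at e
      have hsub' : univ.image (D.QA a₀ b₀) ∪ X.image (D.QB a₀ b₀) ⊆ Q :=
        Finset.union_subset_union le_rfl (Finset.image_subset_image (Finset.subset_univ _))
      have h1 : (univ.image (D.QA a₀ b₀)).card + (X.image (D.QB a₀ b₀)).card ≤ Q.card := by
        rw [← Finset.card_union_of_disjoint hd]
        exact Finset.card_le_card hsub'
      have h2 : (X.image (D.QB a₀ b₀)).card = X.card :=
        Finset.card_image_of_injective _ hQBinj
      have key : ∀ w u v y z g : ℕ, u = w + 1 → v = y → y = g → g = 65537 → u + v ≤ z →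
          w + 2 + 65536 ≤ z := by omega
      exact key W _ _ X.card Q.card _ hcA h2 hXc rfl h1
  have hQb : off.card < Q.card ∧ off.card ≤ W + 65537 := by
    by_cases hab : a₀ = b₀
    · have := hQlow.2 hab; omega
    · have := hQlow.1 hab; have := hinj hab; have := hM2 hab; omega
  have hQlines : ∀ B ∈ Q, D.lines B = ∅ := by
    intro B hB
    simp only [hQ, mem_union, mem_image, mem_univ, true_and] at hB
    rcases hB with ⟨j, rfl⟩ | ⟨j, rfl⟩ <;> cases j <;> rfl
  -- missing vertices
  set a := (Q \ off).card with ha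
  set x := (off \ Q).card with hx
  have hax : x < a := by
    have h1 := Finset.card_sdiff_add_card_inter off Q
    have h2 := Finset.card_sdiff_add_card_inter Q off
    rw [Finset.inter_comm] at h2
    omega
  let XA := sideA h hf hC a₀ b₀
  let XB := sideB h hf hC a₀ b₀
  set MA := univ.filter (fun j => XA.Qf j ∉ off) with hMA
  set MB := univ.filter (fun j => XB.Qf j ∉ off) with hMB
  set sp := insert none (D.split a₀ b₀) with hsp
  have hspc : sp.card ≤ 65537 :=
    (Finset.card_insert_le _ _).trans (Nat.add_le_add_right (card_split h a₀ b₀) _)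
  have hshared : ∀ j, j ∉ sp → D.QA a₀ b₀ j = D.QB a₀ b₀ j := by
    intro j hj
    cases j with
    | none => simp [hsp] at hj
    | some i =>
      have : ¬ (i ∈ D.I ∧ D.phi (some i) a₀ = D.phi (some i) b₀) := by
        intro hc; apply hj; simp [hsp, Data.split, hc]
      simp only [Data.QA, Data.QB, if_neg this]
  have haA : a ≤ MA.card + sp.card := by
    have hsub' : Q \ off ⊆ MA.image (D.QA a₀ b₀) ∪ sp.image (D.QB a₀ b₀) := by
      intro B hB
      simp only [hQ, mem_sdiff, mem_union, mem_image, mem_univ, true_and] at hB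
      obtain ⟨⟨j, rfl⟩ | ⟨j, rfl⟩, hB⟩ := hB
      · exact Finset.mem_union_left _ (Finset.mem_image_of_mem _ (by simp [hMA]; exact hB))
      · by_cases hj : j ∈ sp
        · exact Finset.mem_union_right _ (Finset.mem_image_of_mem _ hj)
        · rw [← hshared j hj] at hB ⊢
          exact Finset.mem_union_left _ (Finset.mem_image_of_mem _ (by simp [hMA]; exact hB))
    exact (Finset.card_le_card hsub').trans ((Finset.card_union_le _ _).trans
      (add_le_add Finset.card_image_le Finset.card_image_le))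
  have haB : a ≤ MB.card + sp.card := by
    have hsub' : Q \ off ⊆ MB.image (D.QB a₀ b₀) ∪ sp.image (D.QA a₀ b₀) := by
      intro B hB
      simp only [hQ, mem_sdiff, mem_union, mem_image, mem_univ, true_and] at hB
      obtain ⟨⟨j, rfl⟩ | ⟨j, rfl⟩, hB⟩ := hB
      · by_cases hj : j ∈ sp
        · exact Finset.mem_union_right _ (Finset.mem_image_of_mem _ hj)
        · rw [hshared j hj] at hB ⊢
          exact Finset.mem_union_left _ (Finset.mem_image_of_mem _ (by simp [hMB]; exact hB))
      · exact Finset.mem_union_left _ (Finset.mem_image_of_mem _ (by simp [hMB]; exact hB))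
    exact (Finset.card_le_card hsub').trans ((Finset.card_union_le _ _).trans
      (add_le_add Finset.card_image_le Finset.card_image_le))
  -- the missing vertices would need many others
  have hA1 := XA.large h
  have hB1 := XB.large h
  set TA := (off \ Q).filter fun B => ∃ j, ∃ b ∈ XA.ret j, XA.pt b ∈ D.extra B with hTA
  set TB := (off \ Q).filter fun B => ∃ j, ∃ b ∈ XB.ret j, XB.pt b ∈ D.extra B with hTB
  have hT : TA.card + TB.card ≤ x := by
    rw [← Finset.card_union_of_disjoint]
    · exact Finset.card_le_card (Finset.union_subset (Finset.filter_subset _ _)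
        (Finset.filter_subset _ _))
    · rw [Finset.disjoint_left]
      intro B hB hB'
      simp only [hTA, hTB, mem_filter, mem_sdiff] at hB hB'
      obtain ⟨⟨-, hBQ⟩, j, b, hb, hxA⟩ := hB
      obtain ⟨-, j', a', ha', hxB⟩ := hB'
      exact hBQ (Finset.mem_union_left _ (not_both hb ha' hxA hxB))
  set n := m0 - 2621481 with hn
  have hsum : ∀ (Mi : Finset (Option (ZMod W))) (r : Option (ZMod W) → Finset (ZMod q)),
      (∀ j, (if j ∈ D.split a₀ b₀ then m1 else m0) ≤ (r j).card + 2621481) →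
      Mi.card * n ≤ (∑ j ∈ Mi, (r j).card) + sp.card * n := by
    intro Mi r hr
    have h1 : (Mi.filter fun j => j ∉ sp).card * n ≤ ∑ j ∈ Mi.filter (fun j => j ∉ sp),
        (r j).card := by
      rw [← smul_eq_mul, ← Finset.sum_const]
      refine Finset.sum_le_sum fun j hj => ?_
      have := hr j
      rw [if_neg (fun hc => (Finset.mem_filter.mp hj).2 (Finset.mem_insert_of_mem hc))] at this
      omega
    have h2 : ∑ j ∈ Mi.filter (fun j => j ∉ sp), (r j).card ≤ ∑ j ∈ Mi, (r j).card :=
      Finset.sum_le_sum_of_subset (Finset.filter_subset _ _)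
    have h3 : Mi.card ≤ (Mi.filter fun j => j ∉ sp).card + sp.card := by
      refine (Finset.card_le_card ?_).trans (Finset.card_union_le _ _)
      intro j hj
      by_cases hjs : j ∈ sp <;> simp [hj, hjs]
    have := Nat.mul_le_mul_right n h3
    rw [add_mul] at this
    omega
  have hsA := hsum MA XA.ret (retA_ge h a₀ b₀)
  have hsB := hsum MB XB.ret (retB_ge h a₀ b₀)
  have haA0 : a ≤ A0 := by
    have hn0 := hN.hm0
    have hA0 := hN.hA0
    rw [← hn] at hn0 hA0
    refine missing_bound (b := off.card) (P' := 65536 * P) haA haB hspc hsA hsB hA1 hB1 hT hax hn0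
      (Nat.sub_le m0 2621481) ?_
    refine lt_of_le_of_lt ?_ hA0
    have hW1 : 65537 ≤ 2 * W + 65537 := by omega
    omega
  -- but some slope misses its vertex
  have hpos : (Q \ off).Nonempty := Finset.card_pos.mp (by omega)
  obtain ⟨B, hB⟩ := hpos
  simp only [hQ, mem_sdiff, mem_union, mem_image, mem_univ, true_and] at hB
  have hm1 := hN.hm1
  have hm01 := hN.hm01
  have hmul : x * 65577 ≤ A0 * 65577 := Nat.mul_le_mul_right _ (by omega)
  obtain ⟨⟨j, rfl⟩ | ⟨j, rfl⟩, hB⟩ := hB
  · have h1 : (XA.ret j).card ≤ T2 + x * 65577 := XA.small h hQlines j hB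
    have h2 := retA_ge h a₀ b₀ j
    have h3 : (D.retA a₀ b₀ j).card = (XA.ret j).card := rfl
    split_ifs at h2 <;> omega
  · have h1 : (XB.ret j).card ≤ T2 + x * 65577 := XB.small h hQlines j hB
    have h2 := retB_ge h a₀ b₀ j
    have h3 : (D.retB a₀ b₀ j).card = (XB.ret j).card := rfl
    split_ifs at h2 <;> omega

/-- Every cover has more than `q + W` vertices. -/
theorem no_small_cover (h : D.Good f m0 m1 T2) (hN : Num q W P f m0 m1 T2 m A0)
    (hf : 40 ≤ f) (hC : D.IsCover C) : q + W < C.card := by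
  by_contra hlt
  push Not at hlt
  obtain ⟨x, hx1, hx2⟩ := exists_centre h hN hC hlt
  have hsub := no_holes h hN hC hlt x hx2 hx1
  cases x with
  | inl z =>
    obtain ⟨s, rfl, h0⟩ := hx2 z rfl
    exact centre_finite h hN hC hlt s h0 hsub
  | inr z =>
    exact centre_affine_false h hN hf hC hlt z.1 z.2 hsub

end Vale.Agent.P045
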