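import Mathlib
import Vale.Agent.P045.Pencil

/-!
Existence of good labels, by counting all labellings.
-/

set_option linter.unusedSectionVars false

namespace Vale.Agent.P045

open Finset

variable {q W : ℕ} [Fact q.Prime] [Fact W.Prime]

lemma card_lfun (j : Option (ZMod W)) (v : ZMod W) :
    (univ.filter fun z => lfun j z = v).card = W := by
  cases j with
  | none =>
    have e : (univ.filter fun z => lfun (none : Option (ZMod W)) z = v) =
        (univ.filter fun z => OnL W (none, v) z) := by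
      refine Finset.filter_congr fun z _ => ?_
      simp [lfun, OnL]
    rw [e]; exact card_onL W _
  | some i =>
    have e : (univ.filter fun z => lfun (some i) z = v) =
        (univ.filter fun z => OnL W (some i, v) z) := by
      refine Finset.filter_congr fun z _ => ?_
      simp [lfun, OnL]
      constructor <;> intro h <;> linear_combination h
    rw [e]; exact card_onL W _

lemma log_two_bounds : (0.6931 : ℝ) < Real.log 2 ∧ Real.log 2 < 0.6932 :=
  ⟨lt_trans (by norm_num) Real.log_two_gt_d9, lt_trans Real.log_two_lt_d9 (by norm_num)⟩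

lemma log_thirteen_tenths : (0.2608 : ℝ) ≤ Real.log (13 / 10) := by
  have := Real.le_log_one_add_of_nonneg (x := (3 / 10 : ℝ)) (by norm_num)
  norm_num at this ⊢
  linarith

lemma log_four_fifths : -(0.2311 : ℝ) ≤ Real.log (4 / 5) := by
  have h1 : Real.log ((5 / 4 : ℝ) ^ 3) ≤ Real.log 2 :=
    Real.log_le_log (by norm_num) (by norm_num)
  rw [Real.log_pow] at h1
  push_cast at h1
  have h2 : Real.log (4 / 5) = -Real.log (5 / 4) := by
    rw [← Real.log_inv]; norm_num
  have := log_two_bounds.2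
  rw [h2]
  linarith

lemma fib_tails (hq : 0 < q) (f m0 : ℕ) (hm0' : 0 < m0)
    (hf : 3000 * q + 2000000 * W ≤ 2608 * (f + 1) * W)
    (hm0 : 2311 * m0 * W + 1400000 * W ≤ 2000 * q) (j : Option (ZMod W)) (v : ZMod W) :
    (univ.filter fun lam : ZMod q → ZMod W × ZMod W =>
      f + 1 ≤ hits (fun _ => univ.filter fun z => lfun j z = v) lam).card * 2 ^ 200
        ≤ Fintype.card (ZMod q → ZMod W × ZMod W) ∧
    (univ.filter fun lam : ZMod q → ZMod W × ZMod W =>
      hits (fun _ => univ.filter fun z => lfun j z = v) lam ≤ m0 - 1).card * 2 ^ 200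
        ≤ Fintype.card (ZMod q → ZMod W × ZMod W) := by
  have hW : (0 : ℝ) < W := by exact_mod_cast (Fact.out : W.Prime).pos
  have e : ∀ s : ℝ, (s - 1) * (∑ _a : ZMod q, (((univ.filter fun z => lfun j z = v).card : ℕ) : ℝ))
      / Fintype.card (ZMod W × ZMod W) = (s - 1) * (q / W) := by
    intro s
    simp [card_lfun]
    field_simp
  obtain ⟨l1, l2⟩ := log_two_bounds
  rw [Fintype.card_fun]
  constructor
  · refine card_upper_tail _ (13 / 10) (by norm_num) _ _ ?_
    rw [e]
    push_cast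
    have hf' : (3000 : ℝ) * q + 2000000 * W ≤ 2608 * ((f : ℝ) + 1) * W := by exact_mod_cast hf
    have hl := mul_le_mul_of_nonneg_left log_thirteen_tenths
      (show (0 : ℝ) ≤ (f : ℝ) + 1 by positivity)
    have h1 : (13 / 10 - 1 : ℝ) * (q / W) + 200 * 0.6932 ≤ ((f : ℝ) + 1) * 0.2608 := by
      have key : (3000 : ℝ) * q / W + 2000000 ≤ 2608 * ((f : ℝ) + 1) := by
        rw [div_add' _ _ _ hW.ne', div_le_iff₀ hW]; linarith
      rw [mul_div_assoc] at key
      linarith
    linarith
  · refine card_lower_tail _ (4 / 5) (by norm_num) (by norm_num) _ _ ?_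
    rw [e]
    push_cast [Nat.cast_sub (show 1 ≤ m0 by omega)]
    have hm' : (2311 : ℝ) * m0 * W + 1400000 * W ≤ 2000 * q := by exact_mod_cast hm0
    have hm1 : (1 : ℝ) ≤ m0 := by exact_mod_cast hm0'
    have hl := mul_le_mul_of_nonneg_left log_four_fifths
      (show (0 : ℝ) ≤ (m0 : ℝ) - 1 by linarith)
    have h1 : (4 / 5 - 1 : ℝ) * (q / W) + 200 * 0.6932 ≤ ((m0 : ℝ) - 1) * -0.2311 := by
      have key : (2311 : ℝ) * m0 + 1400000 ≤ 2000 * q / W := by
        rw [le_div_iff₀ hW]; linarith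
      rw [mul_div_assoc] at key
      linarith
    linarith

/-- From a bound by binomial coefficients to a union bound. -/
lemma specified_arith {E M C Ω q ww k X B F : ℕ} (hE : E * M ≤ C * Ω) (hF : F * C ≤ q ^ k)
    (hq : 16 * q ≤ ww) (hX : X ≤ B) (hnum : B * 2 ^ 200 ≤ F * 16 ^ k) (hM : M = ww ^ k)
    (hpos : 0 < F * 16 ^ k * M) : E * X * 2 ^ 200 ≤ Ω := by
  generalize 2 ^ 200 = t at hnum ⊢
  refine Nat.le_of_mul_le_mul_right ?_ hpos
  calc E * X * t * (F * 16 ^ k * M) = E * M * (X * t) * (F * 16 ^ k) := by ring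
    _ ≤ C * Ω * (B * t) * (F * 16 ^ k) := by gcongr
    _ = F * C * 16 ^ k * (B * t) * Ω := by ring
    _ ≤ q ^ k * 16 ^ k * (F * 16 ^ k) * Ω := by gcongr
    _ = (16 * q) ^ k * (F * 16 ^ k) * Ω := by rw [mul_pow]; ring
    _ ≤ ww ^ k * (F * 16 ^ k) * Ω := by gcongr
    _ = _ := by rw [hM]; ring

lemma union_arith {n a b c d e t A B : ℕ} (h : n ≤ a + b + c + d + e) (ha : a * t ≤ A * n)
    (hb : b * t ≤ A * n) (hc : c * t ≤ n) (hd : d * t ≤ n) (he : e * t ≤ B * n)
    (hlt : 2 * A + 2 + B < t) : n = 0 := by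
  by_contra hn
  have h1 : n * t ≤ (2 * A + 2 + B) * n := by
    have := Nat.mul_le_mul_right t h
    nlinarith
  rw [mul_comm n t] at h1
  exact absurd (Nat.le_of_mul_le_mul_right h1 (Nat.pos_of_ne_zero hn)) (by omega)

lemma union_num : (2 * 2 ^ 105 + 2 + 2 ^ 106 : ℕ) < 2 ^ 200 := by decide +kernel

lemma mult_tail (hW : W ≤ 2 ^ 52) (hq16 : 16 * q ≤ W * W) (z : ZMod W × ZMod W) :
    (univ.filter fun lam : ZMod q → ZMod W × ZMod W =>
      41 ≤ (univ.filter fun a => lam a = z).card).card * (W * W) * 2 ^ 200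
        ≤ Fintype.card (ZMod q → ZMod W × ZMod W) := by
  classical
  set Ω := Fintype.card (ZMod q → ZMod W × ZMod W) with hΩ
  set E := univ.filter fun lam : ZMod q → ZMod W × ZMod W =>
    41 ≤ (univ.filter fun a => lam a = z).card with hE
  have hsub : E ⊆ ((univ : Finset (ZMod q)).powersetCard 41).biUnion fun A =>
      univ.filter fun lam => ∀ a ∈ A, lam a ∈ ({z} : Finset _) := by
    intro lam hlam
    simp only [hE, mem_filter, mem_univ, true_and] at hlam
    obtain ⟨A, hA, hAc⟩ := Finset.exists_subset_card_eq hlam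
    simp only [mem_biUnion, mem_powersetCard, mem_filter, mem_univ, true_and]
    refine ⟨A, ⟨Finset.subset_univ _, hAc⟩, fun a ha => ?_⟩
    have := hA ha
    simpa using this
  have h1 : E.card * (W * W) ^ 41 ≤ q.choose 41 * Ω := by
    refine (Nat.mul_le_mul_right _ ((Finset.card_le_card hsub).trans Finset.card_biUnion_le)).trans ?_
    rw [Finset.sum_mul]
    refine le_trans (Finset.sum_le_sum (g := fun _ => Ω) fun A hA => ?_) ?_
    · rw [card_specified]
      simp only [Finset.card_singleton, Finset.prod_const_one, one_mul, hΩ, Fintype.card_fun]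
      have hA' : A.card = 41 := (Finset.mem_powersetCard.mp hA).2
      have hle : A.card ≤ Fintype.card (ZMod q) := Finset.card_le_univ A
      rw [hA'] at hle ⊢
      have hβ : Fintype.card (ZMod W × ZMod W) = W * W := by simp
      rw [hβ, ← pow_add, Nat.sub_add_cancel hle]
    · simp [Finset.card_powersetCard]
  have h2 : Nat.factorial 41 * q.choose 41 ≤ q ^ 41 := by
    rw [← Nat.descFactorial_eq_factorial_mul_choose]
    exact Nat.descFactorial_le_pow q 41
  have hWW : W * W ≤ 2 ^ 104 := le_trans (Nat.mul_le_mul hW hW) (by norm_num)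
  have hW0 : 0 < W := (Fact.out : W.Prime).pos
  refine specified_arith h1 h2 hq16 hWW (by decide +kernel) rfl ?_
  have := Nat.factorial_pos 41
  positivity

lemma overlap_tail (hW : W ≤ 2 ^ 52) (hq16 : 16 * q ≤ W * W) (s c : ZMod q) (h0 : s ≠ 0)
    (h1 : s = 1 → c ≠ 0) (i u v : ZMod W) :
    (univ.filter fun lam : ZMod q → ZMod W × ZMod W =>
      401 ≤ (univ.filter fun a => lfun (some i) (lam a) = u ∧
        lfun (some i) (lam (s * a + c)) = v).card).card * (q * q * (W * W * W)) * 2 ^ 200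
        ≤ Fintype.card (ZMod q → ZMod W × ZMod W) := by
  classical
  set Ω := Fintype.card (ZMod q → ZMod W × ZMod W) with hΩ
  set π : ZMod q → ZMod q := fun a => s * a + c with hπ
  have hπi : Function.Injective π := fun a b e => mul_left_cancel₀ h0 (add_right_cancel e)
  set E := univ.filter fun lam : ZMod q → ZMod W × ZMod W =>
      401 ≤ (univ.filter fun a => lfun (some i) (lam a) = u ∧
        lfun (some i) (lam (π a)) = v).card with hE
  change E.card * _ * _ ≤ _
  set Fu := univ.filter fun z => lfun (some i) z = u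
  set Fv := univ.filter fun z => lfun (some i) z = v
  have hfix : (univ.filter fun a => π a = a).card ≤ 1 := by
    rw [Finset.card_le_one]
    intro a ha b hb
    simp [hπ] at ha hb
    have : (s - 1) * (a - b) = 0 := by linear_combination ha - hb
    rcases mul_eq_zero.mp this with h | h
    · have hs := sub_eq_zero.mp h
      subst hs
      simp at ha
      exact absurd ha (h1 rfl)
    · exact sub_eq_zero.mp h
  have hsub : E ⊆ (((univ : Finset (ZMod q)).powersetCard 133).filter
      fun B => Disjoint B (B.image π)).biUnion fun B =>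
      univ.filter fun lam => ∀ a ∈ B ∪ B.image π, lam a ∈ if a ∈ B then Fu else Fv := by
    intro lam hlam
    simp only [hE, mem_filter, mem_univ, true_and] at hlam
    set A := (univ.filter fun a => lfun (some i) (lam a) = u ∧ lfun (some i) (lam (π a)) = v)
    have hA : 3 * 133 ≤ (A.filter fun a => π a ≠ a).card := by
      have e := Finset.card_filter_add_card_filter_not (s := A) (fun a => π a ≠ a)
      have e2 : (A.filter fun a => ¬ π a ≠ a).card ≤ 1 := by
        refine le_trans (Finset.card_le_card ?_) hfix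
        intro a ha
        simp at ha ⊢
        exact ha.2
      omega
    obtain ⟨B, hB, hBc, hd⟩ := exists_disjoint_arrows π hπi 133 _ hA
      (fun a ha => (Finset.mem_filter.mp ha).2)
    simp only [mem_biUnion, mem_filter, mem_powersetCard, mem_univ, true_and]
    refine ⟨B, ⟨⟨Finset.subset_univ _, hBc⟩, hd⟩, fun a ha => ?_⟩
    by_cases haB : a ∈ B
    · have := (Finset.mem_filter.mp (Finset.mem_filter.mp (hB haB)).1).2
      simp [haB, Fu, this.1]
    · simp [haB] at ha
      obtain ⟨b, hb, rfl⟩ := ha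
      have := (Finset.mem_filter.mp (Finset.mem_filter.mp (hB hb)).1).2
      simp [haB, Fv, this.2]
  have h4 : E.card * W ^ 266 ≤ q.choose 133 * Ω := by
    refine (Nat.mul_le_mul_right _ ((Finset.card_le_card hsub).trans Finset.card_biUnion_le)).trans ?_
    rw [Finset.sum_mul]
    refine le_trans (Finset.sum_le_sum (g := fun _ => Ω) fun B hB => ?_) ?_
    · simp only [mem_filter, mem_powersetCard] at hB
      obtain ⟨⟨-, hBc⟩, hd⟩ := hB
      have hA' : (B ∪ B.image π).card = 266 := by
        rw [Finset.card_union_of_disjoint hd, Finset.card_image_of_injective _ hπi, hBc]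
      rw [card_specified, Finset.prod_eq_pow_card (b := W), hA']
      · have hle : (B ∪ B.image π).card ≤ Fintype.card (ZMod q) := Finset.card_le_univ _
        rw [hA'] at hle
        have hβ : Fintype.card (ZMod W × ZMod W) = W * W := by simp
        rw [hΩ, Fintype.card_fun, hβ]
        rw [mul_right_comm, ← pow_add, ← pow_two, ← pow_mul, ← pow_mul, ← pow_add]
        refine le_of_eq (congrArg _ ?_)
        omega
      · intro a _
        split_ifs <;> exact card_lfun _ _
    · simp only [Finset.sum_const, smul_eq_mul]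
      refine Nat.mul_le_mul_right _ ((Finset.card_filter_le _ _).trans ?_)
      simp [Finset.card_powersetCard]
  have h2 : Nat.factorial 133 * q.choose 133 ≤ q ^ 133 := by
    rw [← Nat.descFactorial_eq_factorial_mul_choose]
    exact Nat.descFactorial_le_pow q 133
  have hq : q ≤ 2 ^ 104 := by
    have : W * W ≤ 2 ^ 104 := le_trans (Nat.mul_le_mul hW hW) (by norm_num)
    omega
  have hbig : q * q * (W * W * W) ≤ 2 ^ 104 * 2 ^ 104 * (2 ^ 52 * 2 ^ 52 * 2 ^ 52) := by gcongr
  have hW0 : 0 < W := (Fact.out : W.Prime).pos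
  refine specified_arith h4 h2 hq16 hbig (by decide +kernel) (by rw [← pow_two, ← pow_mul]) ?_
  have := Nat.factorial_pos 133
  positivity

lemma stray_tail (Z : Finset (ZMod q)) (hZ : Z.card ≤ 131072 * W) (j : Option (ZMod W))
    (v : ZMod W) :
    (univ.filter fun lam : ZMod q → ZMod W × ZMod W =>
      200001 ≤ (Z.filter fun a => lfun j (lam a) = v).card).card * 2 ^ 400
        ≤ Fintype.card (ZMod q → ZMod W × ZMod W) := by
  classical
  let B : ZMod q → Finset (ZMod W × ZMod W) := fun a =>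
    if a ∈ Z then univ.filter (fun z => lfun j z = v) else ∅
  have e : ∀ lam : ZMod q → ZMod W × ZMod W,
      hits B lam = (Z.filter fun a => lfun j (lam a) = v).card := by
    intro lam
    rw [hits]
    congr 1
    ext a
    by_cases ha : a ∈ Z <;> simp [B, ha]
  rw [Fintype.card_fun]
  simp only [← e]
  refine card_upper_tail B 2 (by norm_num) _ _ ?_
  obtain ⟨l1, l2⟩ := log_two_bounds
  have hW : (0 : ℝ) < W := by exact_mod_cast (Fact.out : W.Prime).pos
  have hsum : (∑ a, ((B a).card : ℝ)) = Z.card * W := by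
    have : ∀ a, ((B a).card : ℝ) = if a ∈ Z then (W : ℝ) else 0 := by
      intro a
      by_cases ha : a ∈ Z <;> simp [B, ha, card_lfun]
    simp only [this]
    simp
  rw [hsum]
  simp only [Fintype.card_prod, ZMod.card]
  push_cast
  have hZ' : (Z.card : ℝ) ≤ 131072 * W := by exact_mod_cast hZ
  have : ((2 : ℝ) - 1) * (Z.card * W) / (W * W) ≤ 131072 := by
    rw [div_le_iff₀ (by positivity)]; nlinarith
  linarith

lemma mult_union (hW : W ≤ 2 ^ 52) (hq16 : 16 * q ≤ W * W) :
    (univ.filter fun lam : ZMod q → ZMod W × ZMod W =>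
      ∃ z, 41 ≤ (univ.filter fun a => lam a = z).card).card * 2 ^ 200 ≤ Fintype.card (ZMod q → ZMod W × ZMod W) := by
  classical
  have hq0 : 0 < q := (Fact.out : q.Prime).pos
  have hW0 : 0 < W := (Fact.out : W.Prime).pos
  set Ω := Fintype.card (ZMod q → ZMod W × ZMod W) with hΩ
  set S3 := univ.filter fun lam : ZMod q → ZMod W × ZMod W =>
    ∃ z, 41 ≤ (univ.filter fun a => lam a = z).card with hS3
  refine Nat.le_of_mul_le_mul_right ?_ (show 0 < W * W by positivity)
  calc S3.card * 2 ^ 200 * (W * W)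
      ≤ (∑ z, (univ.filter fun lam : ZMod q → ZMod W × ZMod W =>
          41 ≤ (univ.filter fun a => lam a = z).card).card) * 2 ^ 200 * (W * W) := by
        refine Nat.mul_le_mul_right _ (Nat.mul_le_mul_right _ (le_trans (Finset.card_le_card
          (t := univ.biUnion fun z => univ.filter fun lam : ZMod q → ZMod W × ZMod W =>
            41 ≤ (univ.filter fun a => lam a = z).card) ?_) Finset.card_biUnion_le))
        intro lam hlam
        simpa [hS3] using hlam
    _ = ∑ z : ZMod W × ZMod W, (univ.filter fun lam : ZMod q → ZMod W × ZMod W =>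
          41 ≤ (univ.filter fun a => lam a = z).card).card * (W * W) * 2 ^ 200 := by
        rw [Finset.sum_mul, Finset.sum_mul]
        exact Finset.sum_congr rfl fun z _ => by ring
    _ ≤ ∑ _z : ZMod W × ZMod W, Ω := Finset.sum_le_sum fun z _ => mult_tail hW hq16 z
    _ = Ω * (W * W) := by simp; ring

lemma overlap_union (hW : W ≤ 2 ^ 52) (hq16 : 16 * q ≤ W * W) :
    (univ.filter fun lam : ZMod q → ZMod W × ZMod W =>
      ∃ p : (ZMod q × ZMod q) × (ZMod W × ZMod W × ZMod W),
      p.1.1 ≠ 0 ∧ (p.1.1 = 1 → p.1.2 ≠ 0) ∧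
      401 ≤ (univ.filter fun a => lfun (some p.2.1) (lam a) = p.2.2.1 ∧
        lfun (some p.2.1) (lam (p.1.1 * a + p.1.2)) = p.2.2.2).card).card * 2 ^ 200 ≤ Fintype.card (ZMod q → ZMod W × ZMod W) := by
  classical
  have hq0 : 0 < q := (Fact.out : q.Prime).pos
  have hW0 : 0 < W := (Fact.out : W.Prime).pos
  set Ω := Fintype.card (ZMod q → ZMod W × ZMod W) with hΩ
  set S4 := univ.filter fun lam : ZMod q → ZMod W × ZMod W =>
    ∃ p : (ZMod q × ZMod q) × (ZMod W × ZMod W × ZMod W),
      p.1.1 ≠ 0 ∧ (p.1.1 = 1 → p.1.2 ≠ 0) ∧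
      401 ≤ (univ.filter fun a => lfun (some p.2.1) (lam a) = p.2.2.1 ∧
        lfun (some p.2.1) (lam (p.1.1 * a + p.1.2)) = p.2.2.2).card with hS4
  refine Nat.le_of_mul_le_mul_right ?_ (show 0 < q * q * (W * W * W) by positivity)
  set E4 := fun (p : (ZMod q × ZMod q) × (ZMod W × ZMod W × ZMod W)) =>
    univ.filter fun lam : ZMod q → ZMod W × ZMod W => p.1.1 ≠ 0 ∧ (p.1.1 = 1 → p.1.2 ≠ 0) ∧
      401 ≤ (univ.filter fun a => lfun (some p.2.1) (lam a) = p.2.2.1 ∧
        lfun (some p.2.1) (lam (p.1.1 * a + p.1.2)) = p.2.2.2).card with hE4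
  calc S4.card * 2 ^ 200 * (q * q * (W * W * W))
      ≤ (∑ p, (E4 p).card) * 2 ^ 200 * (q * q * (W * W * W)) := by
        refine Nat.mul_le_mul_right _ (Nat.mul_le_mul_right _ (le_trans (Finset.card_le_card
          (t := univ.biUnion E4) ?_) Finset.card_biUnion_le))
        intro lam hlam
        simp only [hS4, mem_filter, mem_univ, true_and] at hlam
        obtain ⟨p, hp⟩ := hlam
        exact Finset.mem_biUnion.mpr ⟨p, Finset.mem_univ _,
          Finset.mem_filter.mpr ⟨Finset.mem_univ _, hp⟩⟩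
    _ = ∑ p, (E4 p).card * (q * q * (W * W * W)) * 2 ^ 200 := by
        rw [Finset.sum_mul, Finset.sum_mul]
        exact Finset.sum_congr rfl fun z _ => by ring
    _ ≤ ∑ _p : (ZMod q × ZMod q) × (ZMod W × ZMod W × ZMod W), Ω := by
        refine Finset.sum_le_sum fun p _ => ?_
        by_cases hp : p.1.1 ≠ 0 ∧ (p.1.1 = 1 → p.1.2 ≠ 0)
        · refine le_trans (Nat.mul_le_mul_right _ (Nat.mul_le_mul_right _
            (Finset.card_le_card ?_)))
            (overlap_tail hW hq16 p.1.1 p.1.2 hp.1 hp.2 p.2.1 p.2.2.1 p.2.2.2)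
          intro lam hlam
          simp only [hE4, mem_filter] at hlam ⊢
          exact ⟨hlam.1, hlam.2.2.2⟩
        · have : E4 p = ∅ := by
            rw [Finset.eq_empty_iff_forall_notMem]
            intro lam hlam
            exact hp ⟨(Finset.mem_filter.mp hlam).2.1, (Finset.mem_filter.mp hlam).2.2.1⟩
          simp [this]
    _ = Ω * (q * q * (W * W * W)) := by simp; ring

lemma exists_outside {γ : Type*} [Fintype γ] [DecidableEq γ] (S1 S2 S3 S4 S5 : Finset γ)
    {t A B : ℕ} (h0 : 0 < Fintype.card γ) (ha : S1.card * t ≤ A * Fintype.card γ)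
    (hb : S2.card * t ≤ A * Fintype.card γ) (hc : S3.card * t ≤ Fintype.card γ)
    (hd : S4.card * t ≤ Fintype.card γ) (he : S5.card * t ≤ B * Fintype.card γ)
    (hlt : 2 * A + 2 + B < t) : ∃ x, x ∉ S1 ∧ x ∉ S2 ∧ x ∉ S3 ∧ x ∉ S4 ∧ x ∉ S5 := by
  by_contra hno
  push Not at hno
  have hall : (univ : Finset γ) ⊆ S1 ∪ S2 ∪ S3 ∪ S4 ∪ S5 := by
    intro x _
    simp only [Finset.mem_union]
    by_cases a1 : x ∈ S1
    · exact Or.inl (Or.inl (Or.inl (Or.inl a1)))
    by_cases a2 : x ∈ S2
    · exact Or.inl (Or.inl (Or.inl (Or.inr a2)))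
    by_cases a3 : x ∈ S3
    · exact Or.inl (Or.inl (Or.inr a3))
    by_cases a4 : x ∈ S4
    · exact Or.inl (Or.inr a4)
    exact Or.inr (hno x a1 a2 a3 a4)
  have hcard := (Finset.card_le_card hall).trans ((Finset.card_union_le _ _).trans
    (Nat.add_le_add_right ((Finset.card_union_le _ _).trans (Nat.add_le_add_right
      ((Finset.card_union_le _ _).trans (Nat.add_le_add_right (Finset.card_union_le _ _) _)) _))
      _))
  rw [Finset.card_univ] at hcard
  exact h0.ne' (union_arith hcard ha hb hc hd he hlt)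

lemma union_le {ι γ : Type*} [Fintype ι] [Fintype γ] (E : ι → γ → Prop)
    [∀ i, DecidablePred (E i)] [DecidablePred fun g => ∃ i, E i g] {t N : ℕ}
    (hN : Fintype.card ι ≤ N) (h : ∀ i, (univ.filter (E i)).card * t ≤ Fintype.card γ) :
    (univ.filter fun g => ∃ i, E i g).card * t ≤ N * Fintype.card γ := by
  classical
  have hs : (univ.filter fun g => ∃ i, E i g) ⊆ univ.biUnion fun i => univ.filter (E i) := by
    intro g hg
    simpa using hg
  refine (Nat.mul_le_mul_right _ ((Finset.card_le_card hs).trans Finset.card_biUnion_le)).trans ?_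
  rw [Finset.sum_mul]
  refine (Finset.sum_le_sum fun i _ => h i).trans ?_
  simp only [Finset.sum_const, Finset.card_univ, smul_eq_mul]
  exact Nat.mul_le_mul_right _ hN

lemma fib_union_hi (hq : 0 < q) (f m0 : ℕ) (hm0' : 0 < m0)
    (hf : 3000 * q + 2000000 * W ≤ 2608 * (f + 1) * W)
    (hm0 : 2311 * m0 * W + 1400000 * W ≤ 2000 * q) {N : ℕ}
    (hN : Fintype.card (Option (ZMod W) × ZMod W) ≤ N) :
    (univ.filter fun lam : ZMod q → ZMod W × ZMod W =>
      ∃ p : Option (ZMod W) × ZMod W,
        f + 1 ≤ hits (fun _ => univ.filter fun z => lfun p.1 z = p.2) lam).card * 2 ^ 200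
      ≤ N * Fintype.card (ZMod q → ZMod W × ZMod W) := by
  have h := fun p : Option (ZMod W) × ZMod W => (fib_tails hq f m0 hm0' hf hm0 p.1 p.2).1
  generalize 2 ^ 200 = t at h ⊢
  exact union_le _ hN h

lemma fib_union_lo (hq : 0 < q) (f m0 : ℕ) (hm0' : 0 < m0)
    (hf : 3000 * q + 2000000 * W ≤ 2608 * (f + 1) * W)
    (hm0 : 2311 * m0 * W + 1400000 * W ≤ 2000 * q) {N : ℕ}
    (hN : Fintype.card (Option (ZMod W) × ZMod W) ≤ N) :
    (univ.filter fun lam : ZMod q → ZMod W × ZMod W =>
      ∃ p : Option (ZMod W) × ZMod W,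
        hits (fun _ => univ.filter fun z => lfun p.1 z = p.2) lam ≤ m0 - 1).card * 2 ^ 200
      ≤ N * Fintype.card (ZMod q → ZMod W × ZMod W) := by
  have h := fun p : Option (ZMod W) × ZMod W => (fib_tails hq f m0 hm0' hf hm0 p.1 p.2).2
  generalize 2 ^ 200 = t at h ⊢
  exact union_le _ hN h

lemma stray_union (ZA ZB : ZMod q → ZMod q → Finset (ZMod q))
    (hA : ∀ a b, (ZA a b).card ≤ 131072 * W) (hB : ∀ a b, (ZB a b).card ≤ 131072 * W) :
    (univ.filter fun lam : ZMod q → ZMod W × ZMod W =>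
      ∃ p : ((ZMod q × ZMod q) × Bool) × (Option (ZMod W) × ZMod W),
        200001 ≤ ((if p.1.2 then ZA p.1.1.1 p.1.1.2 else ZB p.1.1.1 p.1.1.2).filter
          fun a => lfun p.2.1 (lam a) = p.2.2).card).card * 2 ^ 400
      ≤ Fintype.card (((ZMod q × ZMod q) × Bool) × (Option (ZMod W) × ZMod W)) *
          Fintype.card (ZMod q → ZMod W × ZMod W) := by
  have hZ : ∀ p : ((ZMod q × ZMod q) × Bool) × (Option (ZMod W) × ZMod W),
      (if p.1.2 then ZA p.1.1.1 p.1.1.2 else ZB p.1.1.1 p.1.1.2).card ≤ 131072 * W := by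
    intro p
    split_ifs
    · exact hA _ _
    · exact hB _ _
  have h := fun p : ((ZMod q × ZMod q) × Bool) × (Option (ZMod W) × ZMod W) =>
    stray_tail _ (hZ p) p.2.1 p.2.2
  generalize 2 ^ 400 = t at h ⊢
  exact union_le _ le_rfl h

lemma stray_rescale {S n Ω t u B : ℕ} (h : S * (t * u) ≤ n * Ω) (hn : n ≤ B * u)
    (hu : 0 < u) : S * t ≤ B * Ω := by
  refine Nat.le_of_mul_le_mul_right ?_ hu
  calc S * t * u = S * (t * u) := mul_assoc _ _ _
    _ ≤ n * Ω := h
    _ ≤ B * u * Ω := Nat.mul_le_mul_right _ hn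
    _ = _ := by ring

lemma stray_index (hW : W ≤ 2 ^ 52) (hq16 : 16 * q ≤ W * W) :
    Fintype.card (((ZMod q × ZMod q) × Bool) × (Option (ZMod W) × ZMod W))
      ≤ 2 ^ 106 * 2 ^ 200 := by
  have hq : q ≤ 2 ^ 100 := by
    have := Nat.mul_le_mul hW hW
    omega
  simp only [Fintype.card_prod, ZMod.card, Fintype.card_bool, Fintype.card_option]
  calc q * q * 2 * ((W + 1) * W) ≤ 2 ^ 100 * 2 ^ 100 * 2 * (2 ^ 53 * 2 ^ 52) := by
        gcongr
        omega
    _ ≤ _ := by decide +kernel

/-- Existence of good labels. -/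
theorem exists_lam (hW : W ≤ 2 ^ 52) (hq16 : 16 * q ≤ W * W) (f m0 : ℕ)
    (hm0' : 0 < m0) (hf : 3000 * q + 2000000 * W ≤ 2608 * (f + 1) * W)
    (hm0 : 2311 * m0 * W + 1400000 * W ≤ 2000 * q)
    (ZA ZB : ZMod q → ZMod q → Finset (ZMod q))
    (hA : ∀ a b, (ZA a b).card ≤ 131072 * W) (hB : ∀ a b, (ZB a b).card ≤ 131072 * W) :
    ∃ lam : ZMod q → ZMod W × ZMod W,
      (∀ j v, (univ.filter fun a => lfun j (lam a) = v).card ≤ f) ∧
      (∀ j v, m0 ≤ (univ.filter fun a => lfun j (lam a) = v).card) ∧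
      (∀ z, (univ.filter fun a => lam a = z).card ≤ 40) ∧
      (∀ s c : ZMod q, s ≠ 0 → (s = 1 → c ≠ 0) → ∀ i u v,
        (univ.filter fun a => lfun (some i) (lam a) = u ∧
          lfun (some i) (lam (s * a + c)) = v).card ≤ 400) ∧
      (∀ a b j v, ((ZA a b).filter fun x => lfun j (lam x) = v).card ≤ 200000) ∧
      (∀ a b j v, ((ZB a b).filter fun x => lfun j (lam x) = v).card ≤ 200000) := by
  classical
  have hq0 : 0 < q := (Fact.out : q.Prime).pos
  have hW0 : 0 < W := (Fact.out : W.Prime).pos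
  set Ω := Fintype.card (ZMod q → ZMod W × ZMod W) with hΩ
  have hΩ0 : 0 < Ω := Fintype.card_pos
  set S1 := univ.filter fun lam : ZMod q → ZMod W × ZMod W =>
    ∃ p : Option (ZMod W) × ZMod W,
      f + 1 ≤ hits (fun _ => univ.filter fun z => lfun p.1 z = p.2) lam with hS1
  set S2 := univ.filter fun lam : ZMod q → ZMod W × ZMod W =>
    ∃ p : Option (ZMod W) × ZMod W,
      hits (fun _ => univ.filter fun z => lfun p.1 z = p.2) lam ≤ m0 - 1 with hS2
  set S3 := univ.filter fun lam : ZMod q → ZMod W × ZMod W =>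
    ∃ z, 41 ≤ (univ.filter fun a => lam a = z).card with hS3
  set S4 := univ.filter fun lam : ZMod q → ZMod W × ZMod W =>
    ∃ p : (ZMod q × ZMod q) × (ZMod W × ZMod W × ZMod W),
      p.1.1 ≠ 0 ∧ (p.1.1 = 1 → p.1.2 ≠ 0) ∧
      401 ≤ (univ.filter fun a => lfun (some p.2.1) (lam a) = p.2.2.1 ∧
        lfun (some p.2.1) (lam (p.1.1 * a + p.1.2)) = p.2.2.2).card with hS4
  set S5 := univ.filter fun lam : ZMod q → ZMod W × ZMod W =>
    ∃ p : ((ZMod q × ZMod q) × Bool) × (Option (ZMod W) × ZMod W),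
      200001 ≤ ((if p.1.2 then ZA p.1.1.1 p.1.1.2 else ZB p.1.1.1 p.1.1.2).filter
        fun a => lfun p.2.1 (lam a) = p.2.2).card with hS5
  have hcW : Fintype.card (Option (ZMod W) × ZMod W) ≤ 2 ^ 105 := by
    simp
    nlinarith
  have h1 : S1.card * 2 ^ 200 ≤ 2 ^ 105 * Ω :=
    fib_union_hi hq0 f m0 hm0' hf hm0 hcW
  have h2 : S2.card * 2 ^ 200 ≤ 2 ^ 105 * Ω :=
    fib_union_lo hq0 f m0 hm0' hf hm0 hcW
  have h3 : S3.card * 2 ^ 200 ≤ Ω := mult_union hW hq16
  have h4 : S4.card * 2 ^ 200 ≤ Ω := overlap_union hW hq16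
  have h5' : S5.card * 2 ^ 200 ≤ 2 ^ 106 * Ω :=
    stray_rescale (t := 2 ^ 200) (u := 2 ^ 200)
      (by rw [← pow_add]; exact stray_union ZA ZB hA hB) (stray_index hW hq16)
      (by decide +kernel)
  have hgood : ∃ lam, lam ∉ S1 ∧ lam ∉ S2 ∧ lam ∉ S3 ∧ lam ∉ S4 ∧ lam ∉ S5 :=
    exists_outside S1 S2 S3 S4 S5 hΩ0 h1 h2 h3 h4 h5'
      union_num
  obtain ⟨lam, a1, a2, a3, a4, a5⟩ := hgood
  simp only [hS1, hS2, hS3, hS4, hS5, hits, mem_filter, mem_univ, true_and, not_exists,
    not_le] at a1 a2 a3 a4 a5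
  refine ⟨lam, fun j v => ?_, fun j v => ?_, fun z => ?_, fun s c h0 h1 i u v => ?_,
    fun a b j v => ?_, fun a b j v => ?_⟩
  · have := a1 (j, v); dsimp only at this; omega
  · have := a2 (j, v); dsimp only at this; omega
  · have := a3 z; omega
  · have := a4 ((s, c), (i, u, v))
    push Not at this
    have := this h0 h1
    simp only at this
    omega
  · have := a5 (((a, b), true), (j, v))
    simp only [if_true] at this
    omega
  · have := a5 (((a, b), false), (j, v))
    simp only [Bool.false_eq_true, if_false] at this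
    omega

end Vale.Agent.P045
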