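import Mathlib

/-!
The three primes used by the construction, with Lucas certificates.
-/

namespace Vale.Agent.P045

/-- Fast modular exponentiation, by structural recursion on a bound for the number of bits. -/
def powModFuel : ℕ → ℕ → ℕ → ℕ → ℕ
  | 0, _, _, n => 1 % n
  | k + 1, b, e, n =>
    if e % 2 = 0 then powModFuel k (b * b % n) (e / 2) n
    else b * powModFuel k (b * b % n) (e / 2) n % n

lemma powModFuel_eq : ∀ (k b e n : ℕ), e < 2 ^ k → powModFuel k b e n = b ^ e % n := by
  intro k
  induction k with
  | zero =>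
    intro b e n he
    have : e = 0 := by simpa using he
    simp [powModFuel, this]
  | succ k ih =>
    intro b e n he
    have he' : e / 2 < 2 ^ k := by
      rw [Nat.div_lt_iff_lt_mul (by norm_num)]
      rw [pow_succ] at he
      exact he
    have hsq : (b * b % n) ^ (e / 2) % n = b ^ (2 * (e / 2)) % n := by
      rw [← Nat.pow_mod, ← pow_two, ← pow_mul]
    simp only [powModFuel]
    split_ifs with h
    · rw [ih _ _ _ he', hsq, show 2 * (e / 2) = e by omega]
    · rw [ih _ _ _ he', hsq, Nat.mul_mod, Nat.mod_mod, ← Nat.mul_mod, ← pow_succ',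
        show 2 * (e / 2) + 1 = e by omega]

lemma prime_of_certificate (n a : ℕ) (hn : 1 < n) (hn' : n < 2 ^ 128) (l : List ℕ)
    (hl : ∀ x ∈ l, Nat.Prime x) (hprod : l.prod = n - 1)
    (h1 : powModFuel 128 a (n - 1) n = 1)
    (h2 : ∀ x ∈ l, powModFuel 128 a ((n - 1) / x) n ≠ 1) : Nat.Prime n := by
  haveI : NeZero n := ⟨by omega⟩
  have hval : ∀ e, e ≤ n - 1 → (((a : ZMod n) ^ e = 1) ↔ powModFuel 128 a e n = 1) := by
    intro e he
    rw [powModFuel_eq _ _ _ _ (by omega), ← Nat.cast_pow, ← Nat.cast_one,
      ZMod.natCast_eq_natCast_iff', Nat.one_mod_eq_one.mpr (by omega)]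
  apply lucas_primality n (a : ZMod n)
  · exact (hval _ le_rfl).mpr h1
  · intro r hr hd
    rw [← hprod] at hd
    obtain ⟨x, hx, hrx⟩ := (hr.prime.dvd_prod_iff).mp hd
    have e : r = x := (Nat.prime_dvd_prime_iff_eq hr (hl x hx)).mp hrx
    subst e
    rw [Ne, hval _ (Nat.div_le_self _ _)]
    exact h2 r hx

lemma prime_W : Nat.Prime 4019780151410687 := by
  refine prime_of_certificate _ 10 (by norm_num) (by norm_num)
    [2, 13, 13, 13, 29, 89, 251, 1069, 1321] ?_ (by norm_num) (by decide +kernel)
    (by decide +kernel)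
  intro x hx
  simp only [List.mem_cons, List.not_mem_nil, or_false] at hx
  rcases hx with rfl | rfl | rfl | rfl | rfl | rfl | rfl | rfl | rfl <;> norm_num

lemma prime_P : Nat.Prime 4019780151410689 := by
  refine prime_of_certificate _ 33 (by norm_num) (by norm_num)
    (List.replicate 35 2 ++ [3, 3, 3, 7, 619]) ?_ (by decide +kernel) (by decide +kernel)
    (by decide +kernel)
  intro x hx
  rw [List.mem_append, List.mem_replicate] at hx
  simp only [List.mem_cons, List.not_mem_nil, or_false] at hx
  rcases hx with ⟨-, rfl⟩ | rfl | rfl | rfl | rfl | rfl <;> norm_num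

lemma prime_q : Nat.Prime 1009230617027406269111511023617 := by
  refine prime_of_certificate _ 7 (by norm_num) (by norm_num)
    (List.replicate 88 2 ++ [3, 1087]) ?_ (by decide +kernel) (by decide +kernel)
    (by decide +kernel)
  intro x hx
  rw [List.mem_append, List.mem_replicate] at hx
  simp only [List.mem_cons, List.not_mem_nil, or_false] at hx
  rcases hx with ⟨-, rfl⟩ | rfl | rfl <;> norm_num

end Vale.Agent.P045
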