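import Mathlib
import Vale.Agent.P045.Labels
import Vale.Agent.P045.Primes

/-!
Assembling the counterexample.
-/

set_option linter.unusedSectionVars false

namespace Vale.Agent.P045

open Finset

section assemble

variable {q W P : ℕ} [Fact q.Prime] [Fact W.Prime] [Fact P.Prime]

lemma card_stray (D : Data q W P) (hR : D.R.card ≤ 32768 * P) (hwf : D.Wf) :
    (∀ a b, (D.strayA a b).card ≤ 65536 * P) ∧ (∀ a b, (D.strayB a b).card ≤ 65536 * P) := by
  have hm : D.merged.card ≤ 65536 * P := by
    have hsub : D.merged ⊆ (D.R ×ˢ (univ : Finset (Fin 2))).image fun zj =>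
        dline (D.zeta (zj.2, lfun (some (D.eta zj.2)) zj.1)) (D.mu zj.1) := by
      intro l hl
      obtain ⟨θ, -, hl⟩ := Finset.mem_biUnion.mp hl
      obtain ⟨t, ht, rfl⟩ := Finset.mem_image.mp hl
      obtain ⟨z, hz, ⟨j, hj⟩, rfl⟩ := D.mem_G.mp ht
      exact Finset.mem_image.mpr ⟨(z, j), Finset.mk_mem_product hz (Finset.mem_univ j), by rw [hj]⟩
    refine (Finset.card_le_card hsub).trans (Finset.card_image_le.trans ?_)
    simp
    omega
  have hmem : ∀ θ, ∀ s ∈ D.G θ, dline θ s ∈ D.merged := fun θ s hs =>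
    Finset.mem_biUnion.mpr ⟨θ, Finset.mem_univ _, Finset.mem_image_of_mem _ hs⟩
  refine ⟨fun a b => ?_, fun a b => ?_⟩
  · have hsub : D.strayA a b ⊆ D.merged.biUnion fun l =>
        univ.filter fun x => IsOrd l ∧ OnL q l (a, x) := by
      intro x hx
      simp only [Data.strayA, mem_filter, mem_univ, true_and] at hx
      obtain ⟨θ, -, s, hs, hon⟩ := hx
      refine Finset.mem_biUnion.mpr ⟨_, hmem θ s hs, ?_⟩
      simp [hon, isOrd_dline (D.G_ne_zero hwf hs).1 (D.G_ne_zero hwf hs).2]
    refine (Finset.card_le_card hsub).trans (Finset.card_biUnion_le.trans ?_)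
    refine le_trans (Finset.sum_le_sum (g := fun _ => 1) fun l _ => ?_) (by simpa using hm)
    rw [Finset.card_le_one]
    intro x hx y hy
    simp only [mem_filter] at hx hy
    obtain ⟨s, hs, -⟩ := hx.2.1
    obtain ⟨o, c⟩ := l
    simp at hs
    subst hs
    exact (hx.2.2 : _ = _).trans (hy.2.2 : _ = _).symm
  · have hsub : D.strayB a b ⊆ D.merged.biUnion fun l =>
        univ.filter fun x => IsOrd l ∧ OnL q l (x, b) := by
      intro x hx
      simp only [Data.strayB, mem_filter, mem_univ, true_and] at hx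
      obtain ⟨θ, -, s, hs, hon⟩ := hx
      refine Finset.mem_biUnion.mpr ⟨_, hmem θ s hs, ?_⟩
      simp [hon, isOrd_dline (D.G_ne_zero hwf hs).1 (D.G_ne_zero hwf hs).2]
    refine (Finset.card_le_card hsub).trans (Finset.card_biUnion_le.trans ?_)
    refine le_trans (Finset.sum_le_sum (g := fun _ => 1) fun l _ => ?_) (by simpa using hm)
    rw [Finset.card_le_one]
    intro x hx y hy
    simp only [mem_filter] at hx hy
    obtain ⟨s, hs, h0, -⟩ := hx.2.1
    obtain ⟨o, c⟩ := l
    simp at hs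
    subst hs
    exact mul_left_cancel₀ h0
      (add_right_cancel ((hx.2.2 : _ = _).symm.trans (hy.2.2 : _ = _)))

/-- A balanced three-colouring of each fibre. -/
noncomputable def colour (lam : ZMod q → ZMod W × ZMod W) (i : ZMod W) (a : ZMod q) : ZMod 3 :=
  let paint : ZMod W → ZMod q → ZMod 3 := fun v b =>
    if h : b ∈ univ.filter (fun x => lfun (some i) (lam x) = v) then
      (((univ.filter fun x => lfun (some i) (lam x) = v).equivFin ⟨b, h⟩ : ℕ) : ZMod 3)
    else 0
  paint (lfun (some i) (lam a)) a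

lemma colour_count (lam : ZMod q → ZMod W × ZMod W) (i v : ZMod W) (k : ZMod 3) :
    (univ.filter fun x => lfun (some i) (lam x) = v).card / 3 ≤
      (univ.filter fun b => lfun (some i) (lam b) = v ∧ colour lam i b = k).card := by
  classical
  set F := univ.filter fun x => lfun (some i) (lam x) = v with hF
  have hk : k.val < 3 := ZMod.val_lt k
  let g : Fin (F.card / 3) → ZMod q := fun t =>
    (F.equivFin.symm ⟨3 * (t : ℕ) + k.val, by have := t.isLt; omega⟩).1
  have hg : Function.Injective g := by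
    intro s t e
    have e' := F.equivFin.symm.injective (Subtype.ext e)
    simp only [Fin.mk.injEq] at e'
    exact Fin.ext (by omega)
  have hsub : univ.image g ⊆
      univ.filter fun b => lfun (some i) (lam b) = v ∧ colour lam i b = k := by
    intro b hb
    obtain ⟨t, -, rfl⟩ := Finset.mem_image.mp hb
    have hmem : g t ∈ F := (F.equivFin.symm _).2
    have hv : lfun (some i) (lam (g t)) = v := (Finset.mem_filter.mp hmem).2
    refine Finset.mem_filter.mpr ⟨Finset.mem_univ _, hv, ?_⟩
    simp only [colour]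
    rw [hv]
    rw [dif_pos hmem]
    have : F.equivFin ⟨g t, hmem⟩ = ⟨3 * (t : ℕ) + k.val, by have := t.isLt; omega⟩ := by
      simp [g]
    rw [this]
    push_cast
    rw [ZMod.natCast_zmod_val, show (3 : ZMod 3) = 0 from rfl, zero_mul, zero_add]
  have := Finset.card_le_card hsub
  rwa [Finset.card_image_of_injective _ hg, Finset.card_univ, Fintype.card_fin] at this

/-- Everything but the choice of numbers. -/
theorem exists_good (hP : P = W + 2) (hW : W ≤ 2 ^ 52) (hP1 : 2 ^ 30 ≤ P) (hP2 : P ≤ 2 ^ 52)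
    (hI : 65536 ≤ W) (hq16 : 16 * q ≤ W * W) (hRq : 32768 * P + 2 < q) (f m0 : ℕ)
    (hm0' : 0 < m0) (hf : 3000 * q + 2000000 * W ≤ 2608 * (f + 1) * W)
    (hm0 : 2311 * m0 * W + 1400000 * W ≤ 2000 * q) :
    ∃ D : Data q W P, D.Good f m0 (m0 / 3) 200000 := by
  classical
  obtain ⟨R, hR1, hR2, hR3⟩ := exists_R P (32768 * P) 65536 hP1 hP2 rfl rfl
  let mu : ZMod P × ZMod P → ZMod q := fun z =>
    if h : z ∈ R then (((R.equivFin ⟨z, h⟩ : ℕ) + 2 : ℕ) : ZMod q) else 0
  let zeta : Fin 2 × ZMod P → ZMod q := fun jc => (((jc.1 : ℕ) + 2 * jc.2.val : ℕ) : ZMod q)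
  let sigma : ZMod W → ZMod P := fun i => ((i.val : ℕ) : ZMod P)
  let eta : Fin 2 → ZMod P := fun j => ((W + j : ℕ) : ZMod P)
  let I : Finset (ZMod W) := (Finset.range 65536).image fun n : ℕ => (n : ZMod W)
  have hP0 : 0 < P := by omega
  have muval : ∀ z (h : z ∈ R), (mu z).val = (R.equivFin ⟨z, h⟩ : ℕ) + 2 := by
    intro z h
    have := (R.equivFin ⟨z, h⟩).isLt
    simp only [mu, dif_pos h]
    rw [ZMod.val_natCast_of_lt (by omega)]
  let D0 : Data q W P :=
    { R := R, mu := mu, zeta := zeta, lam := fun _ => (0, 0), sigma := sigma, eta := eta,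
      I := I, col := fun _ _ => 0 }
  have hwf0 : D0.Wf := by
    refine ⟨?_, ?_, ?_, ?_, ?_, ?_⟩
    · intro z hz z' hz' e
      have h := congrArg ZMod.val e
      change (mu z).val = (mu z').val at h
      rw [muval z hz, muval z' hz'] at h
      exact congrArg Subtype.val (R.equivFin.injective (Fin.ext (by omega)) :
        (⟨z, hz⟩ : R) = ⟨z', hz'⟩)
    · intro z hz e
      have h := congrArg ZMod.val e
      change (mu z).val = _ at h
      rw [muval z hz, ZMod.val_zero] at h
      omega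
    · intro z hz e
      have h := congrArg ZMod.val e
      change (mu z).val = _ at h
      rw [muval z hz, ZMod.val_one] at h
      omega
    · rintro ⟨j, c⟩ ⟨j', c'⟩ e
      have h := congrArg ZMod.val e
      have := c.val_lt
      have := c'.val_lt
      have := j.isLt
      have := j'.isLt
      change ((((j : ℕ) + 2 * c.val : ℕ)) : ZMod q).val = ((((j' : ℕ) + 2 * c'.val : ℕ)) : ZMod q).val at h
      rw [ZMod.val_natCast_of_lt (by omega), ZMod.val_natCast_of_lt (by omega)] at h
      have e1 : j = j' := Fin.ext (by omega)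
      have e2 : c = c' := ZMod.val_injective _ (by omega)
      rw [e1, e2]
    · intro e
      have h := congrArg ZMod.val e
      change (((W + 0 : ℕ)) : ZMod P).val = (((W + 1 : ℕ)) : ZMod P).val at h
      rw [ZMod.val_natCast_of_lt (by omega), ZMod.val_natCast_of_lt (by omega)] at h
      omega
    · intro s
      have := s.val_lt
      by_cases hs : s.val < W
      · refine Or.inl ⟨((s.val : ℕ) : ZMod W), ?_⟩
        change ((((s.val : ℕ) : ZMod W).val : ℕ) : ZMod P) = s
        rw [ZMod.val_natCast_of_lt hs, ZMod.natCast_zmod_val]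
      · refine Or.inr ⟨⟨s.val - W, by omega⟩, ?_⟩
        change ((W + (s.val - W) : ℕ) : ZMod P) = s
        rw [show W + (s.val - W) = s.val by omega, ZMod.natCast_zmod_val]
  obtain ⟨hA, hB⟩ := card_stray D0 hR1 hwf0
  have hPW : 65536 * P ≤ 131072 * W := by omega
  obtain ⟨lam, l1, l2, l3, l4, l5, l6⟩ := exists_lam hW hq16 f m0 hm0' hf hm0 D0.strayA D0.strayB
    (fun a b => (hA a b).trans hPW) (fun a b => (hB a b).trans hPW)
  refine ⟨{ R := R, mu := mu, zeta := zeta, lam := lam, sigma := sigma, eta := eta, I := I,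
            col := colour lam }, ?_⟩
  refine ⟨⟨hwf0.mu_inj, hwf0.mu_ne_zero, hwf0.mu_ne_one, hwf0.zeta_inj, hwf0.eta_ne, hwf0.slopes⟩,
    ?_, hR1, hR2, hR3, l1, l2, l3, l4, ?_, l5, l6⟩
  · change I.card = 65536
    simp only [I]
    rw [Finset.card_image_of_injOn, Finset.card_range]
    intro a ha b hb e
    simp at ha hb
    have h := congrArg ZMod.val e
    simp only [ZMod.val_natCast_of_lt (show a < W by omega),
      ZMod.val_natCast_of_lt (show b < W by omega)] at h
    exact h
  · intro i v k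
    exact le_trans (Nat.div_le_div_right (l2 (some i) v)) (colour_count lam i v k)

/-- Encoding by natural numbers. -/
theorem exists_hypergraph (D : Data q W P) {f m0 m1 T2 m A0 : ℕ} (h : D.Good f m0 m1 T2)
    (hN : Num q W P f m0 m1 T2 m A0) (hf : 40 ≤ f) :
    ∃ (M : ℕ) (H : Finset (Fin (q + W + 1) → Fin M)), H.Nonempty ∧
      (∀ e ∈ H, ∀ e' ∈ H, ∃ i, e i = e' i) ∧
      ∀ C : Finset (Fin (q + W + 1) × Fin M),
        (∀ e ∈ H, ∃ i, (i, e i) ∈ C) → q + W + 1 ≤ C.card := by
  classical
  have ec : Cls q W ≃ Fin (q + W + 1) := by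
    refine Fintype.equivFinOfCardEq ?_
    simp
    omega
  set V : Finset (Val q W P) :=
    (univ : Finset (Elt q P × Cls q W)).image fun ec' => D.val ec'.1 ec'.2 with hV
  have hv : ∀ e c, D.val e c ∈ V := fun e c =>
    Finset.mem_image.mpr ⟨(e, c), Finset.mem_univ _, rfl⟩
  let enc : Elt q P → Fin (q + W + 1) → Fin V.card := fun e i =>
    V.equivFin ⟨D.val e (ec.symm i), hv _ _⟩
  refine ⟨V.card, ((univ : Finset (Elt q P)).filter fun e => D.IsEdge e).image enc, ?_, ?_, ?_⟩
  · obtain ⟨z, hz, -⟩ := h.cover_R ∅ (by simp) (fun o => by simp [slopeCount, (Fact.out : P.Prime).pos])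
    exact ⟨enc (Sum.inr z), Finset.mem_image_of_mem _ (Finset.mem_filter.mpr ⟨Finset.mem_univ _, hz⟩)⟩
  · intro e he e' he'
    obtain ⟨x, hx, rfl⟩ := Finset.mem_image.mp he
    obtain ⟨y, hy, rfl⟩ := Finset.mem_image.mp he'
    obtain ⟨c, hc⟩ := D.intersecting h.wf x y (Finset.mem_filter.mp hx).2 (Finset.mem_filter.mp hy).2
    refine ⟨ec c, ?_⟩
    simp [enc, hc]
  · intro C hC
    set C' : Finset (Blk q W P) := C.image fun ix => (ec.symm ix.1, (V.equivFin.symm ix.2).1)
    have hcov : D.IsCover C' := by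
      intro e he
      obtain ⟨i, hi⟩ := hC (enc e)
        (Finset.mem_image_of_mem _ (Finset.mem_filter.mpr ⟨Finset.mem_univ _, he⟩))
      refine ⟨ec.symm i, Finset.mem_image.mpr ⟨_, hi, ?_⟩⟩
      simp [enc]
    have h0 := no_small_cover h hN hf hcov
    have h1 : C'.card ≤ C.card := Finset.card_image_le
    omega

end assemble

lemma num_checks :
    Num 1009230617027406269111511023617 4019780151410687 4019780151410689
      288803055341487 217279206209865 (217279206209865 / 3) 200000
      9375070706594936140771910 4005670 := by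
  constructor <;> norm_num [U0, E0]

/-- An intersecting hypergraph whose covering number equals the number of parts. -/
theorem exists_counterexample :
    ∃ (r m : ℕ) (H : Finset (Fin r → Fin m)), 2 ≤ r ∧ H.Nonempty ∧
      (∀ e ∈ H, ∀ e' ∈ H, ∃ i, e i = e' i) ∧
      ∀ C : Finset (Fin r × Fin m), (∀ e ∈ H, ∃ i, (i, e i) ∈ C) → r ≤ C.card := by
  obtain ⟨q, W, P, f, m0, m1, T2, m, A0, hN, hP1, hP2, hW, hI, hq16, hRq, hm0', hf, hm0, hm1,
      hf40, hT2, hq, hWp, hPp⟩ :
      ∃ q W P f m0 m1 T2 m A0 : ℕ, Num q W P f m0 m1 T2 m A0 ∧ 2 ^ 30 ≤ P ∧ P ≤ 2 ^ 52 ∧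
        W ≤ 2 ^ 52 ∧ 65536 ≤ W ∧ 16 * q ≤ W * W ∧ 32768 * P + 2 < q ∧ 0 < m0 ∧
        3000 * q + 2000000 * W ≤ 2608 * (f + 1) * W ∧
        2311 * m0 * W + 1400000 * W ≤ 2000 * q ∧ m1 = m0 / 3 ∧ 40 ≤ f ∧ T2 = 200000 ∧
        q.Prime ∧ W.Prime ∧ P.Prime :=
    ⟨1009230617027406269111511023617, 4019780151410687, 4019780151410689, 288803055341487,
      217279206209865, 217279206209865 / 3, 200000, 9375070706594936140771910, 4005670,
      num_checks, by norm_num, by norm_num, by norm_num, by norm_num, by norm_num, by norm_num,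
      by norm_num, by norm_num, by norm_num, rfl, by norm_num, rfl, prime_q, prime_W, prime_P⟩
  have := Fact.mk hq
  have := Fact.mk hWp
  have := Fact.mk hPp
  subst hm1 hT2
  obtain ⟨D, hD⟩ := exists_good (q := q) (W := W) (P := P) hN.hP hW hP1 hP2 hI hq16 hRq f m0
    hm0' hf hm0
  obtain ⟨M, H, hne, hint, hcov⟩ := exists_hypergraph D hD hN hf40
  exact ⟨q + W + 1, M, H, by have := hq.two_le; omega, hne, hint, hcov⟩

end Vale.Agent.P045
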